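import Mathlib.GroupTheory.Coprod.Basic
import Mathlib.GroupTheory.Complement
import Mathlib.GroupTheory.FreeGroup.Basic

/-!
# HNN extensions with a family of stable letters (P193, piece C)

`MHNN A B φ` is the group generated by a group `G` and letters `t i` (`i : ι`) subject to
`t i * a = φ i a * t i` for `a ∈ A i`.

A word is a head `h : G` followed by a list of pairs `(a, g)`, where `a : ι × Bool` is a letter
(`(i, true)` is `t i` and `(i, false)` is its inverse) and `g : G`; its value is
`of h * wprod φ l`. The list is reduced (`Red`) when it has no pinch, that is no two neighbours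
`(a, g), (b, g')` with `g ∈ toSub A B a` and `b = op a`.

Main results:
* `of_injective`;
* `map_fst_eq_of_prod_eq`: two reduced words with the same value have the same letter sequence;
* `head_mem_of_prod_eq`, `tail_eq_of_prod_eq`: how their first segments differ (peeling);
* `eq_nil_of_mem_range`, `exists_pinch_of_mem_range`: Britton's lemma;
* `exists_red_sublist`, `sublist_of_prod_eq`: every word reduces to a reduced word whose letter
  sequence is a sublist, and reduced words are the shortest ones.

The proof of uniqueness follows the one in `Mathlib/GroupTheory/HNNExtension.lean`.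
-/

namespace Vale.Agent.P193.C

open Monoid Monoid.Coprod Subgroup Function

universe u v w

variable {ι : Type u} {G : Type v} [Group G]

/-- The congruence defining `MHNN`. -/
def mhnnCon (A B : ι → Subgroup G) (φ : ∀ i, A i ≃* B i) : Con (G ∗ FreeGroup ι) :=
  conGen (fun x y => ∃ (i : ι) (a : A i),
    x = inr (FreeGroup.of i) * inl (a : G) ∧
    y = inl (φ i a : G) * inr (FreeGroup.of i))

/-- The HNN extension of `G` with stable letters indexed by `ι`. -/
def MHNN (A B : ι → Subgroup G) (φ : ∀ i, A i ≃* B i) : Type _ :=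
  (mhnnCon A B φ).Quotient

variable {A B : ι → Subgroup G} {φ : ∀ i, A i ≃* B i} {H : Type w} [Group H]

instance : Group (MHNN A B φ) := by
  delta MHNN; infer_instance

namespace MHNN

/-- The base group. -/
def of : G →* MHNN A B φ :=
  (mhnnCon A B φ).mk'.comp inl

/-- The letters as a map on the free group. -/
def ofFree : FreeGroup ι →* MHNN A B φ :=
  (mhnnCon A B φ).mk'.comp inr

/-- The stable letters. -/
def t (i : ι) : MHNN A B φ :=
  ofFree (FreeGroup.of i)

@[simp]
theorem ofFree_of (i : ι) : (ofFree (FreeGroup.of i) : MHNN A B φ) = t i := rfl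

theorem t_mul_of (i : ι) (a : A i) :
    t i * (of (a : G) : MHNN A B φ) = of (φ i a : G) * t i :=
  (Con.eq _).2 <| ConGen.Rel.of _ _ <| ⟨i, a, by simp⟩

theorem equiv_eq_conj (i : ι) (a : A i) :
    (of (φ i a : G) : MHNN A B φ) = t i * of (a : G) * (t i)⁻¹ := by
  rw [t_mul_of]; simp

theorem equiv_symm_eq_conj (i : ι) (b : B i) :
    (of ((φ i).symm b : G) : MHNN A B φ) = (t i)⁻¹ * of (b : G) * t i := by
  have h := t_mul_of (φ := φ) i ((φ i).symm b)
  rw [MulEquiv.apply_symm_apply] at h
  rw [mul_assoc, ← h, inv_mul_cancel_left]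

/-- The homomorphism given by its values on `G` and on the letters. -/
def lift (f : G →* H) (x : ι → H) (hx : ∀ i (a : A i), x i * f ↑a = f (φ i a : G) * x i) :
    MHNN A B φ →* H :=
  Con.lift _ (Coprod.lift f (FreeGroup.lift x)) (Con.conGen_le.2 <| by
    rintro _ _ ⟨i, a, rfl, rfl⟩
    simp [hx])

@[simp]
theorem lift_t (f : G →* H) (x : ι → H) (hx : ∀ i (a : A i), x i * f ↑a = f (φ i a : G) * x i)
    (i : ι) : lift f x hx (t i) = x i := by
  change Coprod.lift f (FreeGroup.lift x) (inr (FreeGroup.of i)) = x i
  simp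

@[simp]
theorem lift_of (f : G →* H) (x : ι → H) (hx : ∀ i (a : A i), x i * f ↑a = f (φ i a : G) * x i)
    (g : G) : lift f x hx (of g) = f g := by
  change Coprod.lift f (FreeGroup.lift x) (inl g) = f g
  simp

theorem hom_ext {f g : MHNN A B φ →* H}
    (hg : f.comp of = g.comp of) (ht : ∀ i, f (t i) = g (t i)) : f = g :=
  (MonoidHom.cancel_right Con.mk'_surjective).mp <|
    Coprod.hom_ext hg (FreeGroup.ext_hom _ _ ht)

@[elab_as_elim]
theorem induction_on {motive : MHNN A B φ → Prop} (x : MHNN A B φ)
    (of : ∀ g, motive (of g)) (t : ∀ i, motive (t i))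
    (mul : ∀ x y, motive x → motive y → motive (x * y))
    (inv : ∀ x, motive x → motive x⁻¹) : motive x := by
  obtain ⟨y, rfl⟩ := (Con.mk'_surjective (c := mhnnCon A B φ)) x
  induction y using Coprod.induction_on with
  | inl g => exact of g
  | inr z =>
    change motive ((ofFree : FreeGroup ι →* MHNN A B φ) z)
    induction z using FreeGroup.induction_on with
    | C1 => rw [map_one]; simpa using of 1
    | of i => exact t i
    | inv_of i ih => rw [map_inv]; exact inv _ ih
    | mul a b iha ihb => rw [map_mul]; exact mul _ _ iha ihb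
  | mul a b iha ihb => rw [map_mul]; exact mul _ _ iha ihb

/-! ### Letters -/

/-- The opposite letter. -/
def op (a : ι × Bool) : ι × Bool := (a.1, !a.2)

@[simp] theorem op_mk (i : ι) (b : Bool) : op (i, b) = (i, !b) := rfl

@[simp] theorem op_fst (a : ι × Bool) : (op a).1 = a.1 := rfl

@[simp] theorem op_op (a : ι × Bool) : op (op a) = a := by simp [op]

theorem op_ne (a : ι × Bool) : op a ≠ a := by
  obtain ⟨i, _ | _⟩ := a <;> simp [op]

variable (A B) in
/-- The domain of conjugation by a letter. -/
def toSub : ι × Bool → Subgroup G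
  | (i, true) => A i
  | (i, false) => B i

@[simp] theorem toSub_true (i : ι) : toSub A B (i, true) = A i := rfl

@[simp] theorem toSub_false (i : ι) : toSub A B (i, false) = B i := rfl

variable (φ) in
/-- Conjugation by a letter. -/
def toSubEquiv : ∀ a : ι × Bool, toSub A B a ≃* toSub A B (op a)
  | (i, true) => φ i
  | (i, false) => (φ i).symm

theorem toSubEquiv_op_apply (a : ι × Bool) (g : toSub A B a) :
    (toSubEquiv φ (op a) (toSubEquiv φ a g) : G) = g := by
  obtain ⟨i, _ | _⟩ := a
  · exact congrArg Subtype.val ((φ i).apply_symm_apply g)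
  · exact congrArg Subtype.val ((φ i).symm_apply_apply g)

/-- The value of a letter. -/
def tw : ι × Bool → MHNN A B φ
  | (i, true) => t i
  | (i, false) => (t i)⁻¹

@[simp] theorem tw_true (i : ι) : (tw (i, true) : MHNN A B φ) = t i := rfl

@[simp] theorem tw_false (i : ι) : (tw (i, false) : MHNN A B φ) = (t i)⁻¹ := rfl

theorem tw_op (a : ι × Bool) : (tw (op a) : MHNN A B φ) = (tw a)⁻¹ := by
  obtain ⟨i, _ | _⟩ := a <;> simp [op]

/-- Moving an element of the domain through a letter. -/
theorem tw_mul_of (a : ι × Bool) (g : toSub A B a) :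
    tw a * (of (g : G) : MHNN A B φ) = of (toSubEquiv φ a g : G) * tw a := by
  obtain ⟨i, _ | _⟩ := a
  · have h := equiv_symm_eq_conj (φ := φ) i g
    change (t i)⁻¹ * of (g : G) = of ((φ i).symm g : G) * (t i)⁻¹
    rw [h]; simp
  · exact t_mul_of i g

/-- A pinch collapses. -/
theorem tw_mul_of_mul_tw_op (a : ι × Bool) (g : toSub A B a) :
    tw a * (of (g : G) : MHNN A B φ) * tw (op a) = of (toSubEquiv φ a g : G) := by
  rw [tw_mul_of, tw_op, mul_inv_cancel_right]

/-! ### Words -/

variable (A B) in
/-- Two neighbours do not form a pinch. -/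
def NoPinch (x y : (ι × Bool) × G) : Prop := x.2 ∈ toSub A B x.1 → y.1 ≠ op x.1

variable (A B) in
/-- A list of syllables is reduced when it contains no pinch. -/
def Red (l : List ((ι × Bool) × G)) : Prop := l.IsChain (NoPinch A B)

variable (φ) in
/-- The value of a list of syllables. -/
def wprod (l : List ((ι × Bool) × G)) : MHNN A B φ :=
  (l.map fun x => tw x.1 * of x.2).prod

@[simp] theorem wprod_nil : wprod φ [] = 1 := rfl

@[simp] theorem wprod_cons (x : (ι × Bool) × G) (l : List ((ι × Bool) × G)) :
    wprod φ (x :: l) = tw x.1 * of x.2 * wprod φ l := by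
  simp [wprod]

@[simp] theorem wprod_append (l l' : List ((ι × Bool) × G)) :
    wprod φ (l ++ l') = wprod φ l * wprod φ l' := by
  simp [wprod]

theorem red_nil : Red A B ([] : List ((ι × Bool) × G)) := List.isChain_nil

theorem red_singleton (x : (ι × Bool) × G) : Red A B [x] := List.isChain_singleton _

theorem red_cons {x : (ι × Bool) × G} {l : List ((ι × Bool) × G)} :
    Red A B (x :: l) ↔ (∀ y ∈ l.head?, NoPinch A B x y) ∧ Red A B l :=
  List.isChain_cons

theorem Red.tail {x : (ι × Bool) × G} {l : List ((ι × Bool) × G)} (h : Red A B (x :: l)) :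
    Red A B l := (red_cons.1 h).2

theorem red_append {l l' : List ((ι × Bool) × G)} :
    Red A B (l ++ l') ↔ Red A B l ∧ Red A B l' ∧
      ∀ x ∈ l.getLast?, ∀ y ∈ l'.head?, NoPinch A B x y :=
  List.isChain_append

/-- A word that is not reduced contains a pinch. -/
theorem exists_pinch_of_not_red {l : List ((ι × Bool) × G)} (h : ¬ Red A B l) :
    ∃ p a g g' s, l = p ++ (a, g) :: (op a, g') :: s ∧ g ∈ toSub A B a := by
  induction l with
  | nil => exact absurd red_nil h
  | cons x l ih =>
    by_cases hl : Red A B l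
    · cases l with
      | nil => exact absurd (red_singleton x) h
      | cons y s =>
        rw [red_cons] at h
        simp only [List.head?_cons, Option.mem_def, Option.some.injEq, forall_eq', hl, and_true,
          NoPinch, ne_eq, Classical.not_imp, not_not] at h
        obtain ⟨hx, hy⟩ := h
        exact ⟨[], x.1, x.2, y.2, s, by rw [← hy]; rfl, hx⟩
    · obtain ⟨p, a, g, g', s, rfl, hg⟩ := ih hl
      exact ⟨x :: p, a, g, g', s, rfl, hg⟩

/-! ### Normal forms -/

variable (A B) in
/-- A right transversal of the domain of each letter. -/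
structure Transversal where
  /-- the transversal -/
  set : ι × Bool → Set G
  /-- it is a transversal -/
  compl : ∀ a, IsComplement (toSub A B a : Subgroup G) (set a)

instance : Nonempty (Transversal A B) := by
  choose T hT using fun a => (toSub A B a).exists_isComplement_right 1
  exact ⟨⟨T, fun a => (hT a).1⟩⟩

/-- A word in normal form. -/
structure NormalWord (d : Transversal A B) where
  /-- the head -/
  head : G
  /-- the syllables -/
  toList : List ((ι × Bool) × G)
  /-- no pinch -/
  chain : Red A B toList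
  /-- every syllable is in the transversal -/
  mem_set : ∀ (a : ι × Bool) (g : G), (a, g) ∈ toList → g ∈ d.set a

namespace NormalWord

variable {d : Transversal A B}

variable (φ) in
/-- The value of a normal word. -/
def prod (w : NormalWord d) : MHNN A B φ := of w.head * wprod φ w.toList

@[ext]
theorem ext {w w' : NormalWord d}
    (h1 : w.head = w'.head) (h2 : w.toList = w'.toList) : w = w' := by
  cases w; cases w'; simp_all

/-- An element of the base group as a normal word. -/
@[simps]
def ofGroup (g : G) : NormalWord d :=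
  { head := g
    toList := []
    chain := red_nil
    mem_set := by simp }

instance : MulAction G (NormalWord d) where
  smul g w := { w with head := g * w.head }
  one_smul w := NormalWord.ext (one_mul _) rfl
  mul_smul g g' w := NormalWord.ext (mul_assoc _ _ _) rfl

@[simp]
theorem group_smul_head (g : G) (w : NormalWord d) : (g • w).head = g * w.head := rfl

@[simp]
theorem group_smul_toList (g : G) (w : NormalWord d) : (g • w).toList = w.toList := rfl

/-- Put a letter and a group element in front, when nothing has to be normalised. -/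
@[simps]
def cons (g : G) (a : ι × Bool) (w : NormalWord d) (h1 : w.head ∈ d.set a)
    (h2 : ∀ b ∈ Option.map Prod.fst w.toList.head?, w.head ∈ toSub A B a → b ≠ op a) :
    NormalWord d :=
  { head := g
    toList := (a, w.head) :: w.toList
    mem_set := by
      intro b g' h'
      simp only [List.mem_cons, Prod.mk.injEq] at h'
      rcases h' with ⟨rfl, rfl⟩ | h'
      · exact h1
      · exact w.mem_set _ _ h'
    chain := by
      refine red_cons.2 ⟨?_, w.chain⟩
      rintro ⟨b, g'⟩ hb hw
      exact h2 b (by simp_all) hw }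

/-- Induction along `cons`. -/
@[elab_as_elim]
def consRecOn {motive : NormalWord d → Sort*} (w : NormalWord d)
    (ofGroup : ∀ g, motive (ofGroup g))
    (cons : ∀ (g : G) (a : ι × Bool) (w : NormalWord d) (h1 : w.head ∈ d.set a)
      (h2 : ∀ b ∈ Option.map Prod.fst w.toList.head?, w.head ∈ toSub A B a → b ≠ op a),
      motive w → motive (cons g a w h1 h2)) : motive w := by
  rcases w with ⟨g, l, chain, mem_set⟩
  induction l generalizing g with
  | nil => exact ofGroup _
  | cons x l ih =>
    exact cons g x.1
      { head := x.2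
        toList := l
        mem_set := fun _ _ h => mem_set _ _ (List.mem_cons_of_mem _ h)
        chain := chain.tail }
      (mem_set x.1 x.2 List.mem_cons_self)
      (by
        intro b hb hx
        obtain ⟨y, hy, rfl⟩ := Option.map_eq_some_iff.1 hb
        exact (red_cons.1 chain).1 y hy hx)
      (ih _ _ _)

@[simp]
theorem consRecOn_cons {motive : NormalWord d → Sort*}
    (g : G) (a : ι × Bool) (w : NormalWord d) (h1 : w.head ∈ d.set a)
    (h2 : ∀ b ∈ Option.map Prod.fst w.toList.head?, w.head ∈ toSub A B a → b ≠ op a)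
    (ofGroup : ∀ g, motive (ofGroup g))
    (cons : ∀ (g : G) (a : ι × Bool) (w : NormalWord d) (h1 : w.head ∈ d.set a)
      (h2 : ∀ b ∈ Option.map Prod.fst w.toList.head?, w.head ∈ toSub A B a → b ≠ op a),
      motive w → motive (cons g a w h1 h2)) :
    consRecOn (.cons g a w h1 h2) ofGroup cons = cons g a w h1 h2
      (consRecOn w ofGroup cons) := rfl

@[simp]
theorem smul_cons (g₁ g₂ : G) (a : ι × Bool) (w : NormalWord d) (h1 : w.head ∈ d.set a)
    (h2 : ∀ b ∈ Option.map Prod.fst w.toList.head?, w.head ∈ toSub A B a → b ≠ op a) :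
    g₁ • cons g₂ a w h1 h2 = cons (g₁ * g₂) a w h1 h2 :=
  rfl

@[simp]
theorem prod_group_smul (g : G) (w : NormalWord d) :
    (g • w).prod φ = of g * w.prod φ := by
  simp [prod, mul_assoc]

@[simp]
theorem prod_cons (g : G) (a : ι × Bool) (w : NormalWord d) (h1 : w.head ∈ d.set a)
    (h2 : ∀ b ∈ Option.map Prod.fst w.toList.head?, w.head ∈ toSub A B a → b ≠ op a) :
    (cons g a w h1 h2).prod φ = of g * (tw a * w.prod φ) := by
  simp [prod, cons, mul_assoc]

/-- The first syllable cancels with the letter. -/
def Cancels (a : ι × Bool) (w : NormalWord d) : Prop :=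
  w.head ∈ toSub A B a ∧ w.toList.head?.map Prod.fst = some (op a)

theorem not_cancels_of_cons_hyp (a : ι × Bool) (w : NormalWord d)
    (h2 : ∀ b ∈ Option.map Prod.fst w.toList.head?, w.head ∈ toSub A B a → b ≠ op a) :
    ¬ Cancels a w := fun h => h2 _ h.2 h.1 rfl

theorem cancels_smul_iff {a : ι × Bool} {g : G} (hg : g ∈ toSub A B a) (w : NormalWord d) :
    Cancels a (g • w) ↔ Cancels a w := by
  simp [Cancels, Subgroup.mul_mem_cancel_left _ hg]

variable (φ) in
/-- Left multiplication by a letter when it cancels. -/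
def letterSMulCancel (a : ι × Bool) (w : NormalWord d) : Cancels a w → NormalWord d :=
  consRecOn w
    (fun g h => absurd h.2 (by simp [ofGroup]))
    (fun g _ w _ _ _ h => (toSubEquiv φ a ⟨g, h.1⟩ : G) • w)

variable (φ) in
/-- Left multiplication by a letter. -/
noncomputable def letterSMul (a : ι × Bool) (w : NormalWord d) : NormalWord d :=
  letI := Classical.dec
  if h : Cancels a w
  then letterSMulCancel φ a w h
  else cons (toSubEquiv φ a ((d.compl a).equiv w.head).1 : G) a
    ((((d.compl a).equiv w.head).2 * w.head⁻¹ : G) • w)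
    (by simp)
    (by
      intro b hb hmem hbe
      subst hbe
      simp only [group_smul_head, inv_mul_cancel_right] at hmem
      apply h
      refine ⟨?_, by simpa using hb⟩
      have h' := (d.compl a).equiv_fst_mul_equiv_snd w.head
      rw [← h']
      exact mul_mem ((d.compl a).equiv w.head).1.2 hmem)

theorem letterSMul_of_not_cancels {a : ι × Bool} {w : NormalWord d} (h : ¬ Cancels a w) :
    (letterSMul φ a w).toList =
        (a, (((d.compl a).equiv w.head).2 : G)) :: w.toList ∧
      (letterSMul φ a w).head = (toSubEquiv φ a ((d.compl a).equiv w.head).1 : G) := by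
  simp [letterSMul, h]

theorem cancels_letterSMul_iff (a : ι × Bool) (w : NormalWord d) :
    Cancels (op a) (letterSMul φ a w) ↔ ¬ Cancels a w := by
  by_cases h : Cancels a w
  · simp only [letterSMul, h, dite_true, not_true_eq_false, iff_false]
    cases w using consRecOn with
    | ofGroup g => simp [Cancels] at h
    | cons g b w h1 h2 =>
      intro hc
      have hb : b = op a := by simpa [Cancels] using h.2
      subst hb
      apply not_cancels_of_cons_hyp _ _ h2
      simp only [letterSMulCancel, consRecOn_cons] at hc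
      exact (cancels_smul_iff (SetLike.coe_mem _) w).1 hc
  · obtain ⟨h1, h2⟩ := letterSMul_of_not_cancels (φ := φ) h
    simpa [Cancels, h1, h2] using h

theorem letterSMul_op (a : ι × Bool) (w : NormalWord d) :
    letterSMul φ (op a) (letterSMul φ a w) = w := by
  by_cases h : Cancels a w
  · have hn : ¬ Cancels (op a) (letterSMul φ a w) :=
      fun hc => (cancels_letterSMul_iff a w).1 hc h
    obtain ⟨h1, h2⟩ := letterSMul_of_not_cancels (φ := φ) hn
    cases w using consRecOn with
    | ofGroup g => simp [Cancels] at h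
    | cons g b w hw1 hw2 =>
      have hb : b = op a := by simpa [Cancels] using h.2
      subst hb
      have hs : letterSMul φ a (cons g (op a) w hw1 hw2) =
          (toSubEquiv φ a ⟨g, h.1⟩ : G) • w := by
        simp [letterSMul, h, letterSMulCancel]
      rw [hs] at h1 h2 ⊢
      have he := (d.compl (op a)).equiv_mul_left (toSubEquiv φ a ⟨g, h.1⟩) w.head
      have hone : ((d.compl (op a)).equiv w.head).1 = 1 :=
        (d.compl (op a)).equiv_fst_eq_one_of_mem_of_one_mem (one_mem _) hw1
      have htwo : (((d.compl (op a)).equiv w.head).2 : G) = w.head := by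
        rw [(d.compl (op a)).equiv_snd_eq_inv_mul, hone]; simp
      simp only [group_smul_head, group_smul_toList, he] at h1 h2
      refine NormalWord.ext ?_ ?_
      · rw [h2, hone, mul_one]
        exact toSubEquiv_op_apply a _
      · rw [h1, htwo]; rfl
  · have hc : Cancels (op a) (letterSMul φ a w) := (cancels_letterSMul_iff a w).2 h
    rw [letterSMul, dif_pos hc]
    revert hc
    rw [letterSMul, dif_neg h]
    intro hc
    simp only [letterSMulCancel, consRecOn_cons]
    rw [← mul_smul]
    convert one_smul G w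
    rw [toSubEquiv_op_apply, ← mul_assoc]
    exact mul_inv_eq_one.2 ((d.compl a).equiv_fst_mul_equiv_snd w.head)

variable (φ) in
/-- Left multiplication by a stable letter as a permutation. -/
noncomputable def letterEquiv (i : ι) : NormalWord d ≃ NormalWord d where
  toFun := letterSMul φ (i, true)
  invFun := letterSMul φ (i, false)
  left_inv w := letterSMul_op (i, true) w
  right_inv w := letterSMul_op (i, false) w

theorem letterSMul_group_smul (a : ι × Bool) (g : toSub A B a) (w : NormalWord d) :
    letterSMul φ a ((g : G) • w) = (toSubEquiv φ a g : G) • letterSMul φ a w := by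
  have hiff := cancels_smul_iff g.2 w
  by_cases h : Cancels a w
  · simp only [letterSMul, dif_pos h, dif_pos (hiff.2 h)]
    cases w using consRecOn with
    | ofGroup g' => simp [Cancels] at h
    | cons g' b w h1 h2 =>
      simp only [letterSMulCancel, smul_cons, consRecOn_cons, ← mul_smul, ← Subgroup.coe_mul,
        ← map_mul]
      rfl
  · obtain ⟨h1, h2⟩ := letterSMul_of_not_cancels (φ := φ) (mt hiff.1 h)
    obtain ⟨k1, k2⟩ := letterSMul_of_not_cancels (φ := φ) h
    have he := (d.compl a).equiv_mul_left g w.head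
    simp only [group_smul_head, group_smul_toList, he] at h1 h2
    refine NormalWord.ext ?_ ?_
    · simp [h2, k2]
    · simp [h1, k1]

theorem prod_letterSMul (a : ι × Bool) (w : NormalWord d) :
    (letterSMul φ a w).prod φ = tw a * w.prod φ := by
  by_cases h : Cancels a w
  · simp only [letterSMul, dif_pos h]
    cases w using consRecOn with
    | ofGroup g => simp [Cancels] at h
    | cons g b w h1 h2 =>
      have hb : b = op a := by simpa [Cancels] using h.2
      subst hb
      simp only [letterSMulCancel, consRecOn_cons, prod_group_smul, prod_cons]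
      rw [← tw_mul_of_mul_tw_op a ⟨g, h.1⟩]
      simp [mul_assoc]
  · simp only [letterSMul, dif_neg h, prod_cons, prod_group_smul]
    rw [← mul_assoc, ← tw_mul_of, mul_assoc, ← mul_assoc (of _) (of _), ← map_mul,
      ← mul_assoc ((((d.compl a).equiv w.head).1 : G)), (d.compl a).equiv_fst_mul_equiv_snd,
      mul_inv_cancel, map_one, one_mul]

noncomputable instance : MulAction (MHNN A B φ) (NormalWord d) :=
  MulAction.ofEndHom <| (MulAction.toEndHom (M := Equiv.Perm (NormalWord d))).comp
    (MHNN.lift (MulAction.toPermHom _ _) (letterEquiv φ) <| fun i a =>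
      Equiv.ext fun w => letterSMul_group_smul (φ := φ) (i, true) a w)

theorem of_smul_eq_smul (g : G) (w : NormalWord d) :
    (of g : MHNN A B φ) • w = g • w := by
  simp +instances [instHSMul, SMul.smul, MulAction.toEndHom]
  rfl

theorem tw_smul_eq_letterSMul (a : ι × Bool) (w : NormalWord d) :
    (tw a : MHNN A B φ) • w = letterSMul φ a w := by
  obtain ⟨i, _ | _⟩ := a <;>
    (simp +instances [instHSMul, SMul.smul, MulAction.toEndHom, letterEquiv, Equiv.Perm.inv_def]
     rfl)

theorem prod_smul (g : MHNN A B φ) (w : NormalWord d) :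
    (g • w).prod φ = g * w.prod φ := by
  induction g using MHNN.induction_on generalizing w with
  | of g => rw [of_smul_eq_smul, prod_group_smul]
  | t i => rw [← tw_true, tw_smul_eq_letterSMul, prod_letterSMul]
  | mul x y ihx ihy => rw [mul_smul, ihx, ihy, mul_assoc]
  | inv x ih => rw [← mul_right_inj x, ← ih, smul_inv_smul, mul_inv_cancel_left]

theorem prod_smul_ofGroup (w : NormalWord d) :
    (w.prod φ) • (ofGroup 1 : NormalWord d) = w := by
  induction w using consRecOn with
  | ofGroup g =>
    simp only [prod, ofGroup_toList, ofGroup_head, wprod_nil, mul_one, of_smul_eq_smul]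
    exact NormalWord.ext (mul_one g) rfl
  | cons g a w h1 h2 ih =>
    rw [prod_cons, mul_smul, mul_smul, ih, tw_smul_eq_letterSMul, of_smul_eq_smul]
    obtain ⟨k1, k2⟩ := letterSMul_of_not_cancels (φ := φ) (not_cancels_of_cons_hyp a w h2)
    have hone : ((d.compl a).equiv w.head).1 = 1 :=
      (d.compl a).equiv_fst_eq_one_of_mem_of_one_mem (one_mem _) h1
    refine NormalWord.ext ?_ ?_
    · simp [k2, hone]
    · simp [k1, (d.compl a).equiv_snd_eq_inv_mul, hone]

theorem prod_injective : Injective (fun w : NormalWord d => w.prod φ) := fun w w' h => by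
  rw [← prod_smul_ofGroup (φ := φ) w, ← prod_smul_ofGroup (φ := φ) w']
  exact congrArg (· • (ofGroup 1 : NormalWord d)) h

end NormalWord

open NormalWord

theorem of_injective : Function.Injective (of : G → MHNN A B φ) := by
  obtain ⟨d⟩ := (inferInstance : Nonempty (Transversal A B))
  intro g g' h
  have h' := congrArg (fun x : MHNN A B φ => (x • (ofGroup 1 : NormalWord d)).head) h
  simpa [of_smul_eq_smul] using h'

@[simp] theorem of_eq_one_iff {g : G} : (of g : MHNN A B φ) = 1 ↔ g = 1 :=
  of_injective.eq_iff' (map_one _)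

theorem exists_normalWord_prod_eq (d : Transversal A B) {h : G}
    {l : List ((ι × Bool) × G)} (hl : Red A B l) :
    ∃ w : NormalWord d, w.prod φ = of h * wprod φ l ∧
      w.toList.map Prod.fst = l.map Prod.fst ∧
      ∀ a ∈ l.head?.map Prod.fst, h⁻¹ * w.head ∈ toSub A B (op a) := by
  induction l generalizing h with
  | nil => exact ⟨ofGroup h, by simp [NormalWord.prod], by simp, by simp⟩
  | cons x l ih =>
    obtain ⟨a, g⟩ := x
    obtain ⟨w, hw1, hw2, hw3⟩ := ih (h := g) hl.tail
    have hn : ¬ Cancels a w := by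
      rintro ⟨hmem, hfst⟩
      rw [← List.head?_map, hw2, List.head?_map] at hfst
      have h3 := hw3 _ hfst
      rw [op_op] at h3
      have hg : g ∈ toSub A B a := by
        simpa using mul_mem hmem (inv_mem h3)
      obtain ⟨y, hy, hy'⟩ := Option.map_eq_some_iff.1 hfst
      exact (red_cons.1 hl).1 y hy hg hy'
    obtain ⟨k1, k2⟩ := letterSMul_of_not_cancels (φ := φ) hn
    refine ⟨h • (tw a : MHNN A B φ) • w, ?_, ?_, ?_⟩
    · rw [prod_group_smul, prod_smul, hw1, wprod_cons, mul_assoc (tw a)]
    · simp [tw_smul_eq_letterSMul, k1, hw2]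
    · intro b hb
      obtain rfl : a = b := by simpa using hb
      simp [tw_smul_eq_letterSMul, k2]

/-- Reduced words with the same value have the same letter sequence. -/
theorem map_fst_eq_of_prod_eq {h₁ h₂ : G} {l₁ l₂ : List ((ι × Bool) × G)}
    (hl₁ : Red A B l₁) (hl₂ : Red A B l₂)
    (heq : of h₁ * wprod φ l₁ = of h₂ * wprod φ l₂) :
    l₁.map Prod.fst = l₂.map Prod.fst := by
  obtain ⟨d⟩ := (inferInstance : Nonempty (Transversal A B))
  obtain ⟨w₁, a₁, b₁, -⟩ := exists_normalWord_prod_eq (φ := φ) d (h := h₁) hl₁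
  obtain ⟨w₂, a₂, b₂, -⟩ := exists_normalWord_prod_eq (φ := φ) d (h := h₂) hl₂
  have hw : w₁ = w₂ := prod_injective (φ := φ) (a₁.trans (heq.trans a₂.symm))
  rw [← b₁, hw, b₂]

theorem length_eq_of_prod_eq {h₁ h₂ : G} {l₁ l₂ : List ((ι × Bool) × G)}
    (hl₁ : Red A B l₁) (hl₂ : Red A B l₂)
    (heq : of h₁ * wprod φ l₁ = of h₂ * wprod φ l₂) :
    l₁.length = l₂.length := by
  simpa using congrArg List.length (map_fst_eq_of_prod_eq hl₁ hl₂ heq)

/-- The heads of two reduced words with the same value differ by an element of the domain of the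
inverse of their first letter. -/
theorem head_mem_of_prod_eq {h₁ h₂ g₁ : G} {a : ι × Bool}
    {r₁ l₂ : List ((ι × Bool) × G)}
    (hl₁ : Red A B ((a, g₁) :: r₁)) (hl₂ : Red A B l₂)
    (heq : of h₁ * wprod φ ((a, g₁) :: r₁) = of h₂ * wprod φ l₂) :
    h₁⁻¹ * h₂ ∈ toSub A B (op a) := by
  obtain ⟨d⟩ := (inferInstance : Nonempty (Transversal A B))
  obtain ⟨w₁, a₁, -, c₁⟩ := exists_normalWord_prod_eq (φ := φ) d (h := h₁) hl₁
  obtain ⟨w₂, a₂, -, c₂⟩ := exists_normalWord_prod_eq (φ := φ) d (h := h₂) hl₂
  have hw : w₁ = w₂ := prod_injective (φ := φ) (a₁.trans (heq.trans a₂.symm))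
  have hfst : l₂.head?.map Prod.fst = some a := by
    rw [← List.head?_map, ← map_fst_eq_of_prod_eq hl₁ hl₂ heq]; rfl
  have k₁ := c₁ a (by simp)
  have k₂ := c₂ a hfst
  rw [← hw] at k₂
  simpa [mul_assoc] using mul_mem k₁ (inv_mem k₂)

/-- Peeling the first syllable of two reduced words with the same value. -/
theorem tail_eq_of_prod_eq {h₁ h₂ g₁ g₂ : G} {a b : ι × Bool}
    {r₁ r₂ : List ((ι × Bool) × G)}
    (hl₁ : Red A B ((a, g₁) :: r₁)) (hl₂ : Red A B ((b, g₂) :: r₂))
    (heq : of h₁ * wprod φ ((a, g₁) :: r₁) = of h₂ * wprod φ ((b, g₂) :: r₂)) :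
    a = b ∧ ∃ c : toSub A B (op a), (c : G) = h₁⁻¹ * h₂ ∧
      of g₁ * wprod φ r₁ = of ((toSubEquiv φ (op a) c : G) * g₂) * wprod φ r₂ := by
  have hab : a = b := by
    have := map_fst_eq_of_prod_eq hl₁ hl₂ heq
    simp only [List.map_cons, List.cons.injEq] at this
    exact this.1
  subst hab
  let c : toSub A B (op a) := ⟨h₁⁻¹ * h₂, head_mem_of_prod_eq hl₁ hl₂ heq⟩
  refine ⟨rfl, c, rfl, ?_⟩
  have hmove : (tw a : MHNN A B φ)⁻¹ * of (c : G) = of (toSubEquiv φ (op a) c : G) * (tw a)⁻¹ := by
    rw [← tw_op]; exact tw_mul_of (op a) c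
  have heq' : of g₁ * wprod φ r₁ =
      (tw a)⁻¹ * of (c : G) * (tw a * (of g₂ * wprod φ r₂)) := by
    simp only [wprod_cons, mul_assoc] at heq
    calc of g₁ * wprod φ r₁
        = (tw a)⁻¹ * (of h₁)⁻¹ * (of h₁ * (tw a * (of g₁ * wprod φ r₁))) := by
          simp [mul_assoc]
      _ = (tw a)⁻¹ * (of h₁)⁻¹ * (of h₂ * (tw a * (of g₂ * wprod φ r₂))) := by rw [heq]
      _ = (tw a)⁻¹ * of (c : G) * (tw a * (of g₂ * wprod φ r₂)) := by
          simp [c, mul_assoc]
  rw [heq', hmove, map_mul]
  simp [mul_assoc]

/-- **Britton's lemma**. -/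
theorem eq_nil_of_mem_range {h : G} {l : List ((ι × Bool) × G)} (hl : Red A B l)
    (hmem : of h * wprod φ l ∈ (of : G →* MHNN A B φ).range) : l = [] := by
  obtain ⟨g, hg⟩ := hmem
  simpa using map_fst_eq_of_prod_eq (φ := φ) (h₁ := h) (h₂ := g) hl red_nil (by simp [hg])

/-- **Britton's lemma**, for the identity. -/
theorem eq_nil_of_prod_eq_one {h : G} {l : List ((ι × Bool) × G)} (hl : Red A B l)
    (heq : of h * wprod φ l = 1) : l = [] ∧ h = 1 := by
  obtain rfl := eq_nil_of_mem_range (φ := φ) (h := h) hl ⟨1, by simp [heq]⟩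
  simpa using heq

/-- **Britton's lemma**, contrapositive form. -/
theorem exists_pinch_of_mem_range {h : G} {l : List ((ι × Bool) × G)} (hne : l ≠ [])
    (hmem : of h * wprod φ l ∈ (of : G →* MHNN A B φ).range) :
    ∃ p a g g' s, l = p ++ (a, g) :: (op a, g') :: s ∧ g ∈ toSub A B a :=
  exists_pinch_of_not_red fun hl => hne (eq_nil_of_mem_range hl hmem)

/-- Every word reduces to a reduced word with a sublist of its letters. -/
theorem exists_red_sublist (h : G) (l : List ((ι × Bool) × G)) :
    ∃ h' l', Red A B l' ∧ of h' * wprod φ l' = of h * wprod φ l ∧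
      (l'.map Prod.fst).Sublist (l.map Prod.fst) := by
  induction l generalizing h with
  | nil => exact ⟨h, [], red_nil, rfl, List.Sublist.refl _⟩
  | cons x l ih =>
    obtain ⟨a, g⟩ := x
    obtain ⟨h', l', hr, he, hs⟩ := ih g
    by_cases hp : h' ∈ toSub A B a ∧ l'.head?.map Prod.fst = some (op a)
    · obtain ⟨hmem, hfst⟩ := hp
      cases l' with
      | nil => simp at hfst
      | cons y s =>
        obtain ⟨b, g'⟩ := y
        obtain rfl : b = op a := by simpa using hfst
        refine ⟨h * ((toSubEquiv φ a ⟨h', hmem⟩ : G) * g'), s, hr.tail, ?_, ?_⟩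
        · simp only [wprod_cons] at he ⊢
          rw [map_mul, map_mul, ← tw_mul_of_mul_tw_op a ⟨h', hmem⟩, mul_assoc (tw a) (of g),
            ← he]
          simp [mul_assoc]
        · simp only [List.map_cons] at hs ⊢
          exact ((List.sublist_cons_self _ _).trans hs).cons _
    · refine ⟨h, (a, h') :: l', red_cons.2 ⟨?_, hr⟩, ?_, hs.cons_cons _⟩
      · intro y hy hmem hya
        exact hp ⟨hmem, Option.map_eq_some_iff.2 ⟨y, hy, hya⟩⟩
      · simp only [wprod_cons, mul_assoc, he]

/-- Reduced words are shortest: their letters form a sublist of those of any equal word. -/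
theorem sublist_of_prod_eq {h h' : G} {l l' : List ((ι × Bool) × G)} (hl : Red A B l)
    (heq : of h * wprod φ l = of h' * wprod φ l') :
    (l.map Prod.fst).Sublist (l'.map Prod.fst) := by
  obtain ⟨k, m, hm, he, hs⟩ := exists_red_sublist (φ := φ) h' l'
  rw [map_fst_eq_of_prod_eq hl hm (heq.trans he.symm)]
  exact hs

theorem length_le_of_prod_eq {h h' : G} {l l' : List ((ι × Bool) × G)} (hl : Red A B l)
    (heq : of h * wprod φ l = of h' * wprod φ l') : l.length ≤ l'.length := by
  simpa using (sublist_of_prod_eq hl heq).length_le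

/-- Every element is the value of a reduced word. -/
theorem exists_red (x : MHNN A B φ) :
    ∃ h l, Red A B l ∧ of h * wprod φ l = x := by
  obtain ⟨d⟩ := (inferInstance : Nonempty (Transversal A B))
  refine ⟨(x • (ofGroup 1 : NormalWord d)).head, (x • (ofGroup 1 : NormalWord d)).toList,
    (x • (ofGroup 1 : NormalWord d)).chain, ?_⟩
  exact (prod_smul x _).trans (by simp [NormalWord.prod])

end MHNN

end Vale.Agent.P193.C

namespace Vale.Agent.P193.C.MHNN

variable {ι : Type*} {G : Type*} [Group G] {K : ι → Type*} [∀ i, Group (K i)]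
  (α β : ∀ i, K i →* G) (hα : ∀ i, Function.Injective (α i)) (hβ : ∀ i, Function.Injective (β i))

/-- The isomorphisms of ranges given by a family of pairs of embeddings. -/
noncomputable def pairEquiv (i : ι) : (α i).range ≃* (β i).range :=
  (MonoidHom.ofInjective (hα i)).symm.trans (MonoidHom.ofInjective (hβ i))

theorem pairEquiv_apply (i : ι) (k : K i) :
    (pairEquiv α β hα hβ i ⟨α i k, k, rfl⟩ : G) = β i k := by
  have h : (⟨α i k, k, rfl⟩ : (α i).range) = MonoidHom.ofInjective (hα i) k := Subtype.ext rfl
  rw [h, pairEquiv, MulEquiv.trans_apply, MulEquiv.symm_apply_apply]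
  rfl

theorem t_mul_of_pair (i : ι) (k : K i) :
    t i * (of (α i k) : MHNN (fun i => (α i).range) (fun i => (β i).range) (pairEquiv α β hα hβ)) =
      of (β i k) * t i := by
  rw [← pairEquiv_apply α β hα hβ i k]
  exact t_mul_of (φ := pairEquiv α β hα hβ) i ⟨α i k, k, rfl⟩

theorem mem_toSub_pair {a : ι × Bool} {g : G} :
    g ∈ toSub (fun i => (α i).range) (fun i => (β i).range) a ↔
      ∃ k, (cond a.2 (α a.1) (β a.1)) k = g := by
  obtain ⟨i, _ | _⟩ := a <;> rfl

variable {H : Type*} [Group H]

/-- `lift` for a family of pairs of embeddings. -/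
noncomputable def liftPair (f : G →* H) (x : ι → H)
    (hx : ∀ i k, x i * f (α i k) = f (β i k) * x i) :
    MHNN (fun i => (α i).range) (fun i => (β i).range) (pairEquiv α β hα hβ) →* H :=
  lift f x (by
    rintro i ⟨_, k, rfl⟩
    rw [pairEquiv_apply]
    exact hx i k)

@[simp]
theorem liftPair_of (f : G →* H) (x : ι → H)
    (hx : ∀ i k, x i * f (α i k) = f (β i k) * x i) (g : G) :
    liftPair α β hα hβ f x hx (of g) = f g :=
  lift_of ..

@[simp]
theorem liftPair_t (f : G →* H) (x : ι → H)
    (hx : ∀ i k, x i * f (α i k) = f (β i k) * x i) (i : ι) :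
    liftPair α β hα hβ f x hx (t i) = x i :=
  lift_t ..

end Vale.Agent.P193.C.MHNN

namespace Vale.Agent.P193.C.MHNN

variable {ι : Type*} {G : Type*} [Group G] {A B : ι → Subgroup G} {φ : ∀ i, A i ≃* B i}

/-- Forget the base group. -/
def toFree : MHNN A B φ →* FreeGroup ι :=
  lift 1 FreeGroup.of fun _ _ => by simp

@[simp] theorem toFree_of (g : G) : toFree (of g : MHNN A B φ) = 1 := lift_of ..

@[simp] theorem toFree_t (i : ι) : toFree (t i : MHNN A B φ) = FreeGroup.of i := lift_t ..

@[simp] theorem toFree_tw (a : ι × Bool) : toFree (tw a : MHNN A B φ) = FreeGroup.mk [a] := by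
  obtain ⟨i, _ | _⟩ := a <;> simp <;> rfl

theorem toFree_wprod (l : List ((ι × Bool) × G)) :
    toFree (wprod φ l) = FreeGroup.mk (l.map Prod.fst) := by
  induction l with
  | nil => simp; rfl
  | cons x l ih => simp [ih]

theorem toFree_word (h : G) (l : List ((ι × Bool) × G)) :
    toFree (of h * wprod φ l) = FreeGroup.mk (l.map Prod.fst) := by
  simp [toFree_wprod]

/-- A word whose letter sequence is freely reduced has no pinch. -/
theorem red_of_isReduced {l : List ((ι × Bool) × G)}
    (h : FreeGroup.IsReduced (l.map Prod.fst)) : Red A B l := by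
  rw [FreeGroup.IsReduced, List.isChain_map] at h
  refine List.IsChain.imp (fun x y hxy _ he => ?_) h
  have := hxy (by rw [he, op_fst])
  rw [he] at this
  exact op_ne x.1 (Prod.ext (op_fst x.1) this.symm)

end Vale.Agent.P193.C.MHNN
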