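import Mathlib.Algebra.BigOperators.Group.Finset.Basic
import Mathlib.GroupTheory.HNNExtension
import Vale.Agent.P193.C.MHNN

/-!
# P193, piece C: alignment of reduced forms in `W₂`

`W₂ = HNNExtension W R R (refl)` is `W` with a new letter `w = t` centralising `R`.  A form is a
head `h : W` and a list `l` of pairs (sign, element of `W`); its segments are `seg h l j`,
`j = 0, …, l.length`.

* `ret` sends `t` to `1`.
* `exists_red_items`: a word in `w^±` and items has a reduced form whose segment words are, in
  order, exactly the items of the word (a pinch `w x w⁻¹` is `x`, so the items of `x` stay).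
* `carry_of_prod_eq`: two reduced forms of one element have the same signs, and their segments
  differ by carries in `R`, trivial at both ends.
* `align`: both together.
-/

namespace Vale.Agent.P193.C.Align

open HNNExtension

universe u v

variable {W : Type u} [Group W] (R : Subgroup W)

/-- `W` with a letter centralising `R`. -/
abbrev Ext := HNNExtension W R R (MulEquiv.refl R)

/-- A sign as an element of `W₂`. -/
def tp (u : ℤˣ) : Ext R := t ^ (u : ℤ)

theorem tp_commute (u : ℤˣ) {r : W} (hr : r ∈ R) :
    tp R u * of r = (of r : Ext R) * tp R u := by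
  have h : Commute (t : Ext R) (of r) := t_mul_of (φ := MulEquiv.refl R) ⟨r, hr⟩
  rcases Int.units_eq_one_or u with rfl | rfl
  · simpa [tp] using (show (t : Ext R) * of r = of r * t from h)
  · simp only [tp, Units.val_neg, Units.val_one, Int.reduceNeg, zpow_neg, zpow_one]
    rw [inv_mul_eq_iff_eq_mul, ← mul_assoc, show (t : Ext R) * of r = of r * t from h,
      mul_inv_cancel_right]

theorem tp_neg (u : ℤˣ) : tp R (-u) = (tp R u)⁻¹ := by
  simp [tp]

/-- A pinch is trivial. -/
theorem tp_mul_of_mul_tp_neg (u : ℤˣ) {r : W} (hr : r ∈ R) :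
    tp R u * of r * tp R (-u) = of r := by
  rw [tp_commute R u hr, tp_neg, mul_inv_cancel_right]

/-- The retraction `w ↦ 1`. -/
def ret : Ext R →* W :=
  HNNExtension.lift (MonoidHom.id W) 1 fun a => by simp

@[simp] theorem ret_of (g : W) : ret R (of g) = g := by simp [ret]

@[simp] theorem ret_t : ret R t = 1 := by simp [ret]

@[simp] theorem ret_tp (u : ℤˣ) : ret R (tp R u) = 1 := by simp [tp]

/-- `ret` sends `⟨EE, pf⁻¹ w pf⟩` into `EE`. -/
theorem ret_mem {E : Subgroup W} {pf : W} {x : Ext R}
    (hx : x ∈ Subgroup.closure ((of : W →* Ext R) '' (E : Set W) ∪ {(of pf)⁻¹ * t * of pf})) :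
    ret R x ∈ E := by
  refine (Subgroup.closure_le (E.comap (ret R))).2 ?_ hx
  rintro _ (⟨y, hy, rfl⟩ | rfl)
  · simpa using hy
  · simp

/-- No pinch. -/
def Red (l : List (ℤˣ × W)) : Prop :=
  l.IsChain fun a b => a.2 ∈ R → a.1 = b.1

/-- The value of a form. -/
def fval (h : W) (l : List (ℤˣ × W)) : Ext R :=
  of h * (l.map fun x => tp R x.1 * of x.2).prod

@[simp] theorem fval_nil (h : W) : fval R h [] = of h := by simp [fval]

theorem fval_cons (h : W) (u : ℤˣ) (g : W) (l : List (ℤˣ × W)) :
    fval R h ((u, g) :: l) = of h * tp R u * fval R g l := by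
  simp [fval, mul_assoc]

theorem of_mul_fval (r h : W) (l : List (ℤˣ × W)) :
    of r * fval R h l = fval R (r * h) l := by
  simp [fval, mul_assoc]

theorem ret_fval (h : W) (l : List (ℤˣ × W)) :
    ret R (fval R h l) = h * (l.map Prod.snd).prod := by
  induction l generalizing h with
  | nil => simp
  | cons x l ih => obtain ⟨u, g⟩ := x; simp [fval_cons, ih]

variable {R}

/-- The segments of a form. -/
def seg (h : W) (l : List (ℤˣ × W)) (j : ℕ) : W :=
  (h :: l.map Prod.snd).getD j 1

omit [Group W] in
theorem Red.tail [Group W] {R : Subgroup W} {x : ℤˣ × W} {l : List (ℤˣ × W)}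
    (h : Red R (x :: l)) : Red R l :=
  (List.isChain_cons.1 h).2

@[simp] theorem seg_zero (h : W) (l : List (ℤˣ × W)) : seg h l 0 = h := rfl

@[simp] theorem seg_succ_cons (h : W) (x : ℤˣ × W) (l : List (ℤˣ × W)) (j : ℕ) :
    seg h (x :: l) (j + 1) = seg x.2 l j := rfl

theorem seg_eq_one_of_lt {h : W} {l : List (ℤˣ × W)} {j : ℕ} (hj : l.length < j) :
    seg h l j = 1 :=
  by simp [seg, List.getD_eq_getElem?_getD, List.getElem?_eq_none (l := h :: l.map Prod.snd)
    (i := j) (by simp; omega)]

private theorem toSubgroup_self (u : ℤˣ) : toSubgroup R R u = R := by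
  rcases Int.units_eq_one_or u with rfl | rfl <;> rfl

/-- Two reduced forms of one element: the same signs, and carries in `R`. -/
theorem carry_of_prod_eq {h h' : W} {l l' : List (ℤˣ × W)}
    (hl : Red R l) (hl' : Red R l') (heq : fval R h l = fval R h' l') :
    l.map Prod.fst = l'.map Prod.fst ∧
      ∃ c : ℕ → W, (∀ j, c j ∈ R) ∧ c 0 = 1 ∧ c (l.length + 1) = 1 ∧
        ∀ j ≤ l.length, seg h' l' j = (c j)⁻¹ * seg h l j * c (j + 1) := by
  have main : l.map Prod.fst = l'.map Prod.fst ∧
      ∀ u ∈ l.head?.map Prod.fst, h⁻¹ * h' ∈ R := by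
    let w₁ : NormalWord.ReducedWord W R R := ⟨h, l, hl.imp fun a b hab hm =>
      hab (by rwa [toSubgroup_self] at hm)⟩
    let w₂ : NormalWord.ReducedWord W R R := ⟨h', l', hl'.imp fun a b hab hm =>
      hab (by rwa [toSubgroup_self] at hm)⟩
    have := ReducedWord.map_fst_eq_and_of_prod_eq (MulEquiv.refl R) (w₁ := w₁) (w₂ := w₂) heq
    exact ⟨this.1, fun u hu => by simpa [toSubgroup_self, w₁, w₂] using this.2 u hu⟩
  induction l generalizing h h' l' with
  | nil =>
    obtain rfl : l' = [] := by simpa using main.1.symm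
    obtain rfl : h = h' := HNNExtension.of_injective _ (by simpa using heq)
    exact ⟨main.1, fun _ => 1, fun _ => R.one_mem, rfl, rfl, fun j hj => by simp⟩
  | cons x l ih =>
    obtain ⟨u, g⟩ := x
    cases l' with
    | nil => simp at main
    | cons x' l' =>
      obtain ⟨u', g'⟩ := x'
      obtain rfl : u = u' := by
        have := main.1
        simp only [List.map_cons, List.cons.injEq] at this
        exact this.1
      set r := h⁻¹ * h' with hr
      have hrR : r ∈ R := main.2 u (by simp)
      have heq' : fval R g l = fval R (r * g') l' := by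
        have e : (of h' : Ext R) = of h * of r := by simp [hr]
        rw [fval_cons, fval_cons, e, mul_assoc (of h), mul_assoc (of h), mul_assoc (of h),
          ← tp_commute R u hrR, mul_assoc (tp R u), of_mul_fval] at heq
        exact mul_left_cancel (mul_left_cancel heq)
      refine ⟨main.1, ?_⟩
      obtain ⟨-, c, hcR, hc0, hcn, hc⟩ := ih hl.tail hl'.tail heq' (by
        let w₁ : NormalWord.ReducedWord W R R := ⟨g, l, hl.tail.imp fun a b hab hm =>
          hab (by rwa [toSubgroup_self] at hm)⟩
        let w₂ : NormalWord.ReducedWord W R R := ⟨r * g', l', hl'.tail.imp fun a b hab hm =>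
          hab (by rwa [toSubgroup_self] at hm)⟩
        have := ReducedWord.map_fst_eq_and_of_prod_eq (MulEquiv.refl R) (w₁ := w₁) (w₂ := w₂) heq'
        exact ⟨this.1, fun u hu => by simpa [toSubgroup_self, w₁, w₂] using this.2 u hu⟩)
      refine ⟨fun j => if j = 0 then 1 else if j = 1 then r else c (j - 1), fun j => ?_, rfl,
        by simpa using hcn, fun j hj => ?_⟩
      · simp only
        split_ifs
        exacts [R.one_mem, hrR, hcR _]
      · match j with
        | 0 => simp [hr]
        | 1 =>
          have := hc 0 (Nat.zero_le _)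
          simp only [seg_zero, hc0, inv_one, one_mul] at this
          simp [seg_succ_cons, mul_assoc, ← this]
        | j + 2 =>
          have := hc (j + 1) (by simp at hj; omega)
          simp only [seg_succ_cons] at this ⊢
          simpa [seg] using this

/-- Britton's lemma for `W₂`. -/
theorem eq_nil_of_mem_range {h : W} {l : List (ℤˣ × W)} (hl : Red R l)
    (hmem : fval R h l ∈ (of : W →* Ext R).range) : l = [] := by
  obtain ⟨g, hg⟩ := hmem
  simpa using (carry_of_prod_eq (h := h) (h' := g) (l' := []) hl List.isChain_nil (by simp [hg])).1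

section Items

variable {α : Type v} (ev : α → W)

/-- The value of a list of items. -/
def ival (s : List α) : W := (s.map ev).prod

omit [Group W] in
theorem ival_append [Group W] (ev : α → W) (s s' : List α) :
    ival ev (s ++ s') = ival ev s * ival ev s' := by simp [ival]

variable (R) in
/-- The value in `W₂` of a word in signs and items. -/
def wordVal (d : List (ℤˣ ⊕ α)) : Ext R :=
  (d.map (Sum.elim (tp R) fun a => of (ev a))).prod

/-- The signs of a word. -/
def signs (d : List (ℤˣ ⊕ α)) : List ℤˣ := d.filterMap Sum.getLeft?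

/-- The items of a word. -/
def items (d : List (ℤˣ ⊕ α)) : List α := d.filterMap Sum.getRight?

@[simp] theorem signs_inl (u : ℤˣ) (d : List (ℤˣ ⊕ α)) :
    signs (Sum.inl u :: d) = u :: signs d := rfl

@[simp] theorem signs_inr (a : α) (d : List (ℤˣ ⊕ α)) : signs (Sum.inr a :: d) = signs d := rfl

@[simp] theorem items_inl (u : ℤˣ) (d : List (ℤˣ ⊕ α)) : items (Sum.inl u :: d) = items d := rfl

@[simp] theorem items_inr (a : α) (d : List (ℤˣ ⊕ α)) :
    items (Sum.inr a :: d) = a :: items d := rfl

/-- A word has a reduced form whose segment words are, in order, the items of the word. -/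
theorem exists_red_items (d : List (ℤˣ ⊕ α)) :
    ∃ (s : List α) (l : List (ℤˣ × List α)),
      Red R (l.map fun x => (x.1, ival ev x.2)) ∧
      fval R (ival ev s) (l.map fun x => (x.1, ival ev x.2)) = wordVal R ev d ∧
      s ++ (l.map Prod.snd).flatten = items d ∧
      (l.map Prod.fst).Sublist (signs d) := by
  induction d with
  | nil => exact ⟨[], [], List.isChain_nil, by simp [ival, wordVal], rfl, by simp [signs]⟩
  | cons x d ih =>
    obtain ⟨s, l, hred, hval, hitems, hsub⟩ := ih
    cases x with
    | inr a =>
      refine ⟨a :: s, l, hred, ?_, by simp [← hitems],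
        by simpa using hsub⟩
      have : ival ev (a :: s) = ev a * ival ev s := by simp [ival]
      rw [this, ← of_mul_fval, hval]
      simp [wordVal]
    | inl u =>
      have hw : wordVal R ev (Sum.inl u :: d) = tp R u * wordVal R ev d := by simp [wordVal]
      by_cases hp : ival ev s ∈ R ∧ l.head?.map Prod.fst = some (-u)
      · obtain ⟨hs, hhead⟩ := hp
        cases l with
        | nil => simp at hhead
        | cons y l =>
          obtain ⟨v, g⟩ := y
          obtain rfl : v = -u := by simpa using hhead
          refine ⟨s ++ g, l, hred.tail, ?_, ?_, ?_⟩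
          · rw [hw, ← hval, List.map_cons, fval_cons, ← mul_assoc, ← mul_assoc,
              tp_mul_of_mul_tp_neg R u hs, of_mul_fval, ival_append]
          · simpa [List.append_assoc] using hitems
          · simp only [List.map_cons] at hsub
            simpa using ((List.sublist_cons_self _ _).trans hsub).cons u
      · refine ⟨[], (u, s) :: l, List.isChain_cons.2 ⟨?_, hred⟩, ?_, ?_, ?_⟩
        · intro y hy hm
          rw [List.head?_map] at hy
          obtain ⟨y', hy', rfl⟩ := Option.map_eq_some_iff.1 hy
          by_contra hne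
          refine hp ⟨hm, Option.map_eq_some_iff.2 ⟨y', hy', ?_⟩⟩
          exact Int.units_ne_iff_eq_neg.1 (Ne.symm hne)
        · rw [hw, List.map_cons, fval_cons, ← hval]
          simp [ival]
        · simpa using hitems
        · simpa using hsub.cons_cons u

/-- Alignment: the segments of a reduced form, corrected by carries, are words whose
concatenation consists of the items of any equal word. -/
theorem align {h : W} {l : List (ℤˣ × W)} (hl : Red R l) {d : List (ℤˣ ⊕ α)}
    (heq : fval R h l = wordVal R ev d) :
    (l.map Prod.fst).Sublist (signs d) ∧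
      ∃ (c : ℕ → W) (S : List (List α)), (∀ j, c j ∈ R) ∧ c 0 = 1 ∧ c (l.length + 1) = 1 ∧
        S.length = l.length + 1 ∧ S.flatten = items d ∧
        ∀ j ≤ l.length, ival ev (S.getD j []) = (c j)⁻¹ * seg h l j * c (j + 1) := by
  obtain ⟨s, m, hred, hval, hitems, hsub⟩ := exists_red_items (R := R) ev d
  obtain ⟨hsig, c, hcR, hc0, hcn, hc⟩ := carry_of_prod_eq hl hred (heq.trans hval.symm)
  rw [List.map_map] at hsig
  have hlen : l.length = m.length := by simpa using congrArg List.length hsig
  refine ⟨hsig ▸ hsub, c, s :: m.map Prod.snd, hcR, hc0, hcn, by simp [hlen], hitems,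
    fun j hj => ?_⟩
  rw [← hc j hj, seg]
  have h1 : (1 : W) = ival ev [] := by simp [ival]
  rw [h1, show (ival ev s :: (m.map fun x => (x.1, ival ev x.2)).map Prod.snd) =
    (s :: m.map Prod.snd).map (ival ev) by simp [Function.comp_def]]
  simp only [List.getD_eq_getElem?_getD, List.getElem?_map]
  cases (s :: m.map Prod.snd)[j]? <;> simp

/-- Costs add up. -/
theorem sum_segs (cost : α → ℕ) {S : List (List α)} {d : List (ℤˣ ⊕ α)}
    (hS : S.flatten = items d) :
    (S.map fun s => (s.map cost).sum).sum = ((items d).map cost).sum := by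
  rw [← hS, List.map_flatten, List.sum_flatten, List.map_map]
  rfl

end Items

section Cost

open Finset

/-- The smallest additive monotone predicate containing the given costs of generators. -/
inductive Cost {H : Type*} [Group H] (gen : H → ℕ → Prop) : H → ℕ → Prop
  | of_gen {x n} : gen x n → Cost gen x n
  | one : Cost gen 1 0
  | mul {x y m n} : Cost gen x m → Cost gen y n → Cost gen (x * y) (m + n)
  | mono {x m n} : Cost gen x m → m ≤ n → Cost gen x n

theorem Cost.le_of_subadditive {H : Type*} [Group H] {gen : H → ℕ → Prop} (ν : H → ℕ)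
    (h1 : ν 1 = 0) (hmul : ∀ x y, ν (x * y) ≤ ν x + ν y) (hgen : ∀ x n, gen x n → ν x ≤ n)
    {x : H} {n : ℕ} (h : Cost gen x n) : ν x ≤ n := by
  induction h with
  | of_gen h => exact hgen _ _ h
  | one => exact h1.le
  | mul _ _ ha hb => exact (hmul _ _).trans (add_le_add ha hb)
  | mono _ hle ha => exact ha.trans hle

/-- Costs in `W₂`: those of `W`, and `1` for `w^±`. -/
def gen2 (gen : W → ℕ → Prop) (x : Ext R) (n : ℕ) : Prop :=
  (∃ g, gen g n ∧ of g = x) ∨ ((∃ u, tp R u = x) ∧ n = 1)

variable {gen : W → ℕ → Prop}

/-- The cost of a list of generators. -/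
theorem cost_ival (s : List {p : W × ℕ // gen p.1 p.2}) :
    Cost gen (ival (fun a => a.1.1) s) (s.map fun a => a.1.2).sum := by
  induction s with
  | nil => simpa [ival] using Cost.one
  | cons a s ih => simpa [ival] using Cost.mul (Cost.of_gen a.2) ih

theorem exists_word_of_cost {x : Ext R} {n : ℕ} (h : Cost (gen2 gen) x n) :
    ∃ d : List (ℤˣ ⊕ {p : W × ℕ // gen p.1 p.2}), wordVal R (fun a => a.1.1) d = x ∧
      (signs d).length + ((items d).map fun a => a.1.2).sum ≤ n := by
  induction h with
  | @of_gen x n h =>
    rcases h with ⟨g, hg, rfl⟩ | ⟨⟨u, rfl⟩, rfl⟩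
    · exact ⟨[Sum.inr ⟨(g, n), hg⟩], by simp [wordVal], by simp [signs, items]⟩
    · exact ⟨[Sum.inl u], by simp [wordVal], by simp [signs, items]; rfl⟩
  | one => exact ⟨[], by simp [wordVal], by simp [signs, items]⟩
  | mul _ _ ha hb =>
    obtain ⟨d, rfl, hd⟩ := ha
    obtain ⟨d', rfl, hd'⟩ := hb
    refine ⟨d ++ d', by simp [wordVal], ?_⟩
    simp only [signs, items, List.filterMap_append, List.length_append, List.map_append,
      List.sum_append] at hd hd' ⊢
    omega
  | mono _ hle ha =>
    obtain ⟨d, hd, hd'⟩ := ha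
    exact ⟨d, hd, hd'.trans hle⟩

private theorem sum_range_getD {β : Type*} (f : List β → ℕ) :
    ∀ S : List (List β), ∑ j ∈ range S.length, f (S.getD j []) = (S.map f).sum
  | [] => rfl
  | a :: S => by
    rw [List.length_cons, Finset.sum_range_succ', List.map_cons, List.sum_cons, add_comm]
    simp only [List.getD_cons_zero, List.getD_cons_succ]
    rw [sum_range_getD f S]

/-- Alignment by costs: a reduced form of an element of cost `n` has at most `n` signs, and its
segments, corrected by carries, have costs adding up to at most the rest. -/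
theorem align_cost {h : W} {l : List (ℤˣ × W)} (hl : Red R l) {n : ℕ}
    (hn : Cost (gen2 gen) (fval R h l) n) :
    ∃ (c : ℕ → W) (m : ℕ → ℕ), (∀ j, c j ∈ R) ∧ c 0 = 1 ∧ c (l.length + 1) = 1 ∧
      (∀ j ≤ l.length, Cost gen ((c j)⁻¹ * seg h l j * c (j + 1)) (m j)) ∧
      l.length + ∑ j ∈ range (l.length + 1), m j ≤ n := by
  obtain ⟨d, hd, hle⟩ := exists_word_of_cost hn
  obtain ⟨hsub, c, S, hcR, hc0, hcn, hlen, hflat, hseg⟩ := align _ hl hd.symm
  refine ⟨c, fun j => ((S.getD j []).map fun a => a.1.2).sum, hcR, hc0, hcn,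
    fun j hj => hseg j hj ▸ cost_ival _, ?_⟩
  have hsigns : l.length ≤ (signs d).length := by simpa using hsub.length_le
  have hsum := sum_segs (fun a : {p : W × ℕ // gen p.1 p.2} => a.1.2) hflat
  rw [← hlen, sum_range_getD (fun s : List {p : W × ℕ // gen p.1 p.2} => (s.map fun a => a.1.2).sum) S,
    hsum]
  omega

/-- The prefix through segment `j` of such a form: its retraction times the carry is cheap. -/
theorem cost_prefix {h : W} {l : List (ℤˣ × W)} {c : ℕ → W} {m : ℕ → ℕ} (hc0 : c 0 = 1)
    (hseg : ∀ j ≤ l.length, Cost gen ((c j)⁻¹ * seg h l j * c (j + 1)) (m j)) {j : ℕ}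
    (hj : j ≤ l.length) :
    Cost gen (((h :: l.map Prod.snd).take (j + 1)).prod * c (j + 1)) (∑ i ∈ range (j + 1), m i) := by
  induction j with
  | zero => simpa [hc0] using hseg 0 hj
  | succ j ih =>
    have hlt : j + 1 < (h :: l.map Prod.snd).length := by simp; omega
    have h2 := Cost.mul (ih (by omega)) (hseg (j + 1) hj)
    rw [Finset.sum_range_succ]
    convert h2 using 1
    rw [List.take_succ_eq_append_getElem hlt, List.prod_append, seg, List.getD_eq_getElem?_getD,
      List.getElem?_eq_getElem hlt]
    simp [mul_assoc]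

end Cost

end Vale.Agent.P193.C.Align

namespace Vale.Agent.P193.C.MHNN

variable {ι : Type*} {G : Type*} [Group G] {A B : ι → Subgroup G} {φ : ∀ i, A i ≃* B i}

theorem toFree_ofFree (z : FreeGroup ι) : toFree (ofFree z : MHNN A B φ) = z := by
  refine DFunLike.congr_fun (f := toFree.comp (ofFree : FreeGroup ι →* MHNN A B φ))
    (g := MonoidHom.id _) (FreeGroup.ext_hom _ _ fun i => ?_) z
  simp

theorem ofFree_injective : Function.Injective (ofFree : FreeGroup ι →* MHNN A B φ) :=
  Function.LeftInverse.injective toFree_ofFree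

/-- An element of a subgroup generated by letters is the product of its letter sequence. -/
theorem ofFree_toFree_of_mem {S : Set ι} {x : MHNN A B φ}
    (hx : x ∈ Subgroup.closure (t '' S)) : ofFree (toFree x) = x := by
  have : Subgroup.closure (t '' S) ≤ (ofFree : FreeGroup ι →* MHNN A B φ).range := by
    rw [Subgroup.closure_le]
    rintro _ ⟨i, -, rfl⟩
    exact ⟨FreeGroup.of i, rfl⟩
  obtain ⟨z, rfl⟩ := this hx
  rw [toFree_ofFree]

end Vale.Agent.P193.C.MHNN
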