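import Mathlib
import Vale.Agent.P193.C.MHNN

/-!
# P193, piece C: shared definitions (PROOF v4, C1)

The letters of `L` are `Fin k`; the strings read by the machine are lists of letters, so the value
of a string is a positive word (inverse letters are supplied by the caller as extra letters).

Positions are `ℤ² × F`, `F = FreeGroup (Fin k)`. Stable letters of `W`: the machine rules (identity
on the `F` part), the loading letters `q i` and the letters `e i` at the final point. `R` is
generated by the rules and the `e i`. A letter `r` has an isomorphism `r g r⁻¹ = iso g` and a point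
move `src ↦ tgt`; its edge is `src⁻¹ r⁻¹ tgt`.
-/

namespace Vale.Agent.P193.C

open Multiplicative

/-- A point of the plane. -/
abbrev Pt := ℤ × ℤ

/-- One affine move `(a + M i, b + N j) ↦ (c + M' i, d + N' j)`; moduli are `+ 1` of the fields. -/
structure Move where
  M : ℕ
  N : ℕ
  M' : ℕ
  N' : ℕ
  a : ℤ
  b : ℤ
  c : ℤ
  d : ℤ
  deriving DecidableEq

namespace Move

/-- The source lattice. -/
def Mem (r : Move) (x : Pt) : Prop := ((r.M + 1 : ℤ) ∣ x.1 - r.a) ∧ ((r.N + 1 : ℤ) ∣ x.2 - r.b)

/-- The move. -/
def app (r : Move) (x : Pt) : Pt :=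
  (r.c + (r.M' + 1 : ℤ) * ((x.1 - r.a) / (r.M + 1 : ℤ)),
    r.d + (r.N' + 1 : ℤ) * ((x.2 - r.b) / (r.N + 1 : ℤ)))

end Move

/-- The base of the digits. -/
def base (k : ℕ) : ℕ := 4 * k + 8

/-- The first coordinate of a start configuration (the first letter is the lowest digit). -/
def encode {k : ℕ} : List (Fin k) → ℤ
  | [] => (base k : ℤ) - 1
  | i :: u => (base k : ℤ) * encode u + ((i : ℤ) + 1)

/-- One move of a list of rules. -/
def Step (m : List Move) (x y : Pt) : Prop := ∃ r ∈ m, r.Mem x ∧ r.app x = y

/-- The machine for one program (C0): nothing else is used. -/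
structure Mach (k : ℕ) where
  rules : List Move
  origin : ℤ
  final : Pt
  acc : List (Fin k) → Bool
  acc_nil : acc [] = true
  nodup : rules.Nodup
  deterministic : ∀ r ∈ rules, ∀ r' ∈ rules, ∀ x, r.Mem x → r'.Mem x → r = r'
  final_stuck : ∀ y, ¬ Step rules final y
  live : Pt → Bool
  live_iff : ∀ x, live x = true ↔ Relation.ReflTransGen (Step rules) x final
  accepts : ∀ l, live (encode l, origin) = acc l

variable {k : ℕ}

/-- The free group on the letters of `L`. -/
abbrev F (k : ℕ) := FreeGroup (Fin k)

/-- The value of a string. -/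
def val (l : List (Fin k)) : F k := (l.map FreeGroup.of).prod

/-- Positions. -/
abbrev G0 (k : ℕ) := Multiplicative Pt × F k

/-- The translation to a point. -/
def tau (x : Pt) (f : F k) : G0 k := (ofAdd x, f)

/-- Scaling of the plane. -/
def scale (m n : ℤ) : Multiplicative Pt →* Multiplicative Pt :=
  AddMonoidHom.toMultiplicative ((AddMonoidHom.mulLeft m).prodMap (AddMonoidHom.mulLeft n))

theorem scale_injective {m n : ℤ} (hm : m ≠ 0) (hn : n ≠ 0) :
    Function.Injective (scale m n) := by
  intro x y h
  have h' : (m * x.toAdd.1, n * x.toAdd.2) = (m * y.toAdd.1, n * y.toAdd.2) := congrArg toAdd h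
  simp only [Prod.mk.injEq, mul_eq_mul_left_iff, hm, hn, or_false] at h'
  exact toAdd.injective (Prod.ext h'.1 h'.2)

namespace Mach

variable (M : Mach k)

/-- The stable letters: rules, loading letters `q`, final letters `e`. -/
inductive Letter where
  | rule (i : Fin M.rules.length)
  | q (i : Fin k)
  | e (i : Fin k)
  deriving DecidableEq

/-- The parameter group of a letter. -/
abbrev Par : M.Letter → Type
  | .rule _ => G0 k
  | .q _ => G0 k
  | .e _ => F k

instance parGroup : ∀ r : M.Letter, Group (M.Par r)
  | .rule _ => inferInstanceAs (Group (G0 k))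
  | .q _ => inferInstanceAs (Group (G0 k))
  | .e _ => inferInstanceAs (Group (F k))

/-- The parametrisation of the source subgroup. -/
def dom : ∀ r : M.Letter, M.Par r →* G0 k
  | .rule i => (scale ((M.rules[i]).M + 1) ((M.rules[i]).N + 1)).prodMap (MonoidHom.id _)
  | .q _ => MonoidHom.id _
  | .e _ => MonoidHom.inr _ _

/-- The parametrisation of the target subgroup. -/
def cod : ∀ r : M.Letter, M.Par r →* G0 k
  | .rule i => (scale ((M.rules[i]).M' + 1) ((M.rules[i]).N' + 1)).prodMap (MonoidHom.id _)
  | .q i => (scale (base k) 1).prodMap (MulAut.conj (FreeGroup.of i)).toMonoidHom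
  | .e i => (MonoidHom.inr _ _).comp (MulAut.conj (FreeGroup.of i)).toMonoidHom

theorem dom_injective : ∀ r, Function.Injective (M.dom r)
  | .rule _ => Prod.map_injective.2
      ⟨scale_injective (by omega) (by omega), Function.injective_id⟩
  | .q _ => Function.injective_id
  | .e _ => fun _ _ h => congrArg Prod.snd h

theorem cod_injective : ∀ r, Function.Injective (M.cod r)
  | .rule _ => Prod.map_injective.2
      ⟨scale_injective (by omega) (by omega), Function.injective_id⟩
  | .q i => Prod.map_injective.2
      ⟨scale_injective (by unfold base; omega) one_ne_zero,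
        (MulAut.conj (FreeGroup.of i)).injective⟩
  | .e i => fun _ _ h => (MulAut.conj (FreeGroup.of i)).injective (congrArg Prod.snd h)

/-- The point a letter moves. -/
def src : M.Letter → G0 k
  | .rule i => tau ((M.rules[i]).a, (M.rules[i]).b) 1
  | .q _ => 1
  | .e _ => tau M.final 1

/-- The image of that point. -/
def tgt : M.Letter → G0 k
  | .rule i => tau ((M.rules[i]).c, (M.rules[i]).d) 1
  | .q i => tau ((i : ℤ) + 1, 0) (FreeGroup.of i)
  | .e i => tau M.final (FreeGroup.of i)

/-- The conjugation of a letter. -/
noncomputable def iso (r : M.Letter) : (M.dom r).range ≃* (M.cod r).range :=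
  (MonoidHom.ofInjective (M.dom_injective r)).symm.trans
    (MonoidHom.ofInjective (M.cod_injective r))

/-- The group `W`. -/
abbrev W := MHNN (fun r => (M.dom r).range) (fun r => (M.cod r).range) M.iso

/-- The base group inside `W`. -/
noncomputable abbrev ofG : G0 k →* M.W := MHNN.of

/-- The stable letters of `W`. -/
noncomputable abbrev tL (r : M.Letter) : M.W := MHNN.t r

/-- The edge of a letter. -/
noncomputable def edge (r : M.Letter) : M.W :=
  (M.ofG (M.src r))⁻¹ * (M.tL r)⁻¹ * M.ofG (M.tgt r)

/-- The edge group. -/
noncomputable def EE : Subgroup M.W := Subgroup.closure (Set.range M.edge)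

/-- Membership of a letter in `R`. -/
def isR : M.Letter → Prop
  | .q _ => False
  | _ => True

/-- The subgroup `R`. -/
noncomputable def R : Subgroup M.W := Subgroup.closure (M.tL '' {r | M.isR r})

/-- The loading letters. -/
noncomputable def q : F k →* M.W := FreeGroup.lift fun i => M.tL (.q i)

/-- The start point of the empty string. -/
def P0 : G0 k := tau (encode ([] : List (Fin k)), M.origin) 1

/-- The final point. -/
def Pf : G0 k := tau M.final 1

/-- The start point of a string. -/
def start (l : List (Fin k)) : G0 k := tau (encode l, M.origin) (val l)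

/-- The accepted values: they generate the relators of `L`. -/
def accSet : Set (F k) := val '' {l | M.acc l = true}

/-- The kernel of `F → L`. -/
def relN : Subgroup (F k) := Subgroup.normalClosure M.accSet

instance : M.relN.Normal := Subgroup.normalClosure_normal

/-- The group `L`. -/
abbrev L := F k ⧸ M.relN

/-! ### The statements of C1 -/

/-- W2: an edge word without backtracking is a reduced word. -/
def EdgeRedStmt : Prop :=
  ∀ ω : FreeGroup M.Letter, FreeGroup.lift M.edge ω ∈ (M.ofG).range → ω = 1

/-- Accepted strings are linked to the final point by `R`. -/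
def AccStmt : Prop :=
  ∀ l, M.acc l = true →
    ∃ r ∈ M.R, (M.ofG M.Pf)⁻¹ * r * M.q (val l) * M.ofG M.P0 ∈ M.EE

/-- Two starts linked by `R` are equal or both accepted. -/
def KeyStmt : Prop :=
  ∀ c c' : F k, ∀ r ∈ M.R,
    (M.q c' * M.ofG M.P0)⁻¹ * r * (M.q c * M.ofG M.P0) ∈ M.EE → c⁻¹ * c' ∈ M.relN

end Mach

end Vale.Agent.P193.C
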