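import Mathlib.GroupTheory.HNNExtension
import Mathlib.GroupTheory.SemidirectProduct
import Mathlib.GroupTheory.FreeGroup.Basic
import Mathlib.GroupTheory.GroupAction.Quotient
import Mathlib.Algebra.Group.Subgroup.Basic

/-!
# P193, piece C: the group `Γ₂` and the subgroup `Σ`

`W₂` is `W` with a new letter centralising `R`; `Γ₂` is the semidirect product of the free group on
`W₂ ⧸ EE₂` with `W₂`; `Σ` is its part over `⟨q, w q w⁻¹⟩` and the orbit of the start point. The
stabiliser of the start point in `⟨q, w q w⁻¹⟩` has value in `N`: this is shown with an action of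
`W₂` on `(W ⧸ EE) × (F ⧸ N)`.
-/

noncomputable section

namespace Vale.Agent.P193.C

open SemidirectProduct

/-- A permutation action as an action on a free group. -/
def freeAut {G X : Type} [Group G] (f : G →* Equiv.Perm X) : G →* MulAut (FreeGroup X) where
  toFun g := FreeGroup.freeGroupCongr (f g)
  map_one' := MulEquiv.toMonoidHom_injective (FreeGroup.ext_hom _ _ fun x => by simp)
  map_mul' a b := MulEquiv.toMonoidHom_injective (FreeGroup.ext_hom _ _ fun x => by simp)

@[simp] theorem freeAut_of {G X : Type} [Group G] (f : G →* Equiv.Perm X) (g : G) (x : X) :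
    freeAut f g (FreeGroup.of x) = FreeGroup.of (f g x) := by simp [freeAut]

/-- What the tower takes from the machine group `W`. -/
structure Base (ι κ W : Type) [Group W] where
  /-- The group of the machine letters. -/
  R : Subgroup W
  /-- The edge group. -/
  EE : Subgroup W
  /-- The final point. -/
  pf : W
  /-- The start point of the empty word. -/
  p0 : W
  /-- The loading letters. -/
  q : FreeGroup ι →* W
  /-- The letters `q` are a retract killing `R`. -/
  qproj : W →* FreeGroup ι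
  qproj_q : ∀ a, qproj (q a) = a
  qproj_R : ∀ r ∈ R, qproj r = 1
  /-- The value of a word in the letters `q`. -/
  valh : FreeGroup ι →* FreeGroup κ
  /-- The accepted words. -/
  Acc : Set (FreeGroup ι)
  one_mem_Acc : 1 ∈ Acc
  /-- The relators of `L`. -/
  N : Subgroup (FreeGroup κ)
  normal : N.Normal
  valh_mem : ∀ u ∈ Acc, valh u ∈ N
  acc : ∀ u ∈ Acc, ∃ r ∈ R, pf⁻¹ * r * q u * p0 ∈ EE
  key : ∀ c c', ∀ r ∈ R, (q c' * p0)⁻¹ * r * (q c * p0) ∈ EE → (valh c)⁻¹ * valh c' ∈ N

namespace Base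

variable {ι κ W : Type} [Group W] (B : Base ι κ W)

instance : B.N.Normal := B.normal

/-- The group `L`. -/
abbrev L := FreeGroup κ ⧸ B.N

/-- `W` with a new letter centralising `R`. -/
abbrev W2 := HNNExtension W B.R B.R (MulEquiv.refl _)

/-- The new edge. -/
def ew : B.W2 := (HNNExtension.of B.pf)⁻¹ * HNNExtension.t * HNNExtension.of B.pf

/-- The edge group of `W₂`. -/
def EE2 : Subgroup B.W2 :=
  Subgroup.closure ((HNNExtension.of : W →* B.W2) '' (B.EE : Set W) ∪ {B.ew})

theorem of_mem_EE2 {x : W} (hx : x ∈ B.EE) : (HNNExtension.of x : B.W2) ∈ B.EE2 :=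
  Subgroup.subset_closure (Or.inl ⟨x, hx, rfl⟩)

theorem ew_mem_EE2 : B.ew ∈ B.EE2 := Subgroup.subset_closure (Or.inr rfl)

/-- The points. -/
abbrev Pts := B.W2 ⧸ B.EE2

/-- The start point. -/
def x0 : B.Pts := ((HNNExtension.of B.p0 : B.W2) : B.Pts)

/-- The action on the free group on the points. -/
def act : B.W2 →* MulAut (FreeGroup B.Pts) := freeAut (MulAction.toPermHom B.W2 B.Pts)

/-- `Γ₂`. -/
abbrev Gam := FreeGroup B.Pts ⋊[B.act] B.W2

/-- The element at a point. -/
def pt (x : B.Pts) : B.Gam := inl (FreeGroup.of x)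

theorem conj_pt (g : B.W2) (x : B.Pts) :
    (inr g : B.Gam) * B.pt x * (inr g)⁻¹ = B.pt (g • x) := by
  rw [pt, ← map_inv, ← inl_aut]
  simp [act, pt]
  rfl

/-! ### The subgroup `⟨q, w q w⁻¹⟩` -/

/-- `⟨q, w q w⁻¹⟩`, as an abstract free group. -/
abbrev Om (ι : Type) := FreeGroup (ι ⊕ ι)

/-- Its map to `W₂`. -/
def om : Om ι →* B.W2 :=
  FreeGroup.lift (Sum.elim (fun j => HNNExtension.of (B.q (FreeGroup.of j)))
    fun j => HNNExtension.t * HNNExtension.of (B.q (FreeGroup.of j)) * HNNExtension.t⁻¹)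

theorem om_inl (a : FreeGroup ι) :
    B.om (FreeGroup.map Sum.inl a) = HNNExtension.of (B.q a) := by
  refine DFunLike.congr_fun (f := B.om.comp (FreeGroup.map Sum.inl))
    (g := HNNExtension.of.comp B.q) (FreeGroup.ext_hom _ _ fun j => ?_) a
  simp [om]

theorem om_inr (a : FreeGroup ι) : B.om (FreeGroup.map Sum.inr a) =
    HNNExtension.t * HNNExtension.of (B.q a) * HNNExtension.t⁻¹ := by
  refine DFunLike.congr_fun (f := B.om.comp (FreeGroup.map Sum.inr))
    (g := (MulAut.conj (HNNExtension.t : B.W2)).toMonoidHom.comp (HNNExtension.of.comp B.q))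
    (FreeGroup.ext_hom _ _ fun j => ?_) a
  simp [om]

/-- The value at height zero. -/
def psi : Om ι →* FreeGroup κ :=
  B.valh.comp (FreeGroup.lift (Sum.elim FreeGroup.of fun _ => 1))

@[simp] theorem psi_inl (a : FreeGroup ι) : B.psi (FreeGroup.map Sum.inl a) = B.valh a := by
  refine DFunLike.congr_fun (f := B.psi.comp (FreeGroup.map Sum.inl))
    (g := B.valh) (FreeGroup.ext_hom _ _ fun j => ?_) a
  simp [psi]

@[simp] theorem psi_inr (a : FreeGroup ι) : B.psi (FreeGroup.map Sum.inr a) = 1 := by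
  refine DFunLike.congr_fun (f := B.psi.comp (FreeGroup.map Sum.inr))
    (g := 1) (FreeGroup.ext_hom _ _ fun j => ?_) a
  simp [psi]

/-- The heights, as a permutation. -/
def shift (ι : Type) : Multiplicative ℤ →* Equiv.Perm (ℤ × ι) :=
  zpowersHom _ ((Equiv.addRight (1 : ℤ)).prodCongr (Equiv.refl ι))

/-- The letters `q` with their heights. -/
def heights : B.W2 →* FreeGroup (ℤ × ι) ⋊[freeAut (shift ι)] Multiplicative ℤ :=
  HNNExtension.lift ((inl.comp (FreeGroup.map fun j => ((0 : ℤ), j))).comp B.qproj)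
    (inr (Multiplicative.ofAdd 1)) fun a => by
      simp [B.qproj_R a.1 a.2]

theorem om_injective : Function.Injective B.om := by
  let e : ι ⊕ ι → ℤ × ι := Sum.elim (fun j => (0, j)) fun j => (1, j)
  have he : Function.Injective e := by
    rintro (a | a) (b | b) h <;> simp_all [e]
  have h : B.heights.comp B.om = inl.comp (FreeGroup.map e) := by
    refine FreeGroup.ext_hom _ _ fun x => ?_
    rcases x with j | j
    · simp [heights, om, e, B.qproj_q]
    · simp only [MonoidHom.comp_apply, om, FreeGroup.lift_apply_of, Sum.elim_inr, map_mul,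
        map_inv, heights, HNNExtension.lift_t, HNNExtension.lift_of, B.qproj_q]
      rw [← map_inv, ← inl_aut]
      simp [shift, e]
  intro a b hab
  refine FreeGroup.map_injective he (inl_injective (φ := freeAut (shift ι)) ?_)
  have := congrArg B.heights hab
  rwa [← MonoidHom.comp_apply, ← MonoidHom.comp_apply, h] at this

/-! ### The model -/

/-- The start point of a word, in `W ⧸ EE`. -/
def start (c : FreeGroup ι) : W ⧸ B.EE := ((B.q c * B.p0 : W) : W ⧸ B.EE)

theorem q_smul_start (a c : FreeGroup ι) : B.q a • B.start c = B.start (a * c) := by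
  rw [start, start, MulAction.Quotient.smul_coe, smul_eq_mul, map_mul, mul_assoc]

theorem mk_eq_of_related {c c' : FreeGroup ι} {r : W} (hr : r ∈ B.R)
    (h : r • B.start c = B.start c') : (B.valh c : B.L) = B.valh c' := by
  refine QuotientGroup.eq.2 (B.key c c' r hr ?_)
  rw [start, start, MulAction.Quotient.smul_coe, smul_eq_mul] at h
  have := QuotientGroup.eq.1 h.symm
  rwa [mul_assoc]

open Classical in
/-- The value of a point. -/
def val (x : W ⧸ B.EE) : B.L :=
  if h : ∃ c, ∃ r ∈ B.R, r • B.start c = x then (B.valh h.choose : B.L) else 1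

theorem val_eq {x : W ⧸ B.EE} {c : FreeGroup ι} {r : W} (hr : r ∈ B.R)
    (h : r • B.start c = x) : B.val x = B.valh c := by
  have he : ∃ c, ∃ r ∈ B.R, r • B.start c = x := ⟨c, r, hr, h⟩
  obtain ⟨r', hr', h'⟩ := he.choose_spec
  rw [val, dif_pos he]
  refine B.mk_eq_of_related (B.R.mul_mem (B.R.inv_mem hr) hr') ?_
  rw [mul_smul, h', inv_smul_eq_iff, h]

theorem val_start (c : FreeGroup ι) : B.val (B.start c) = B.valh c :=
  B.val_eq B.R.one_mem (one_smul _ _)

theorem val_smul {r : W} (hr : r ∈ B.R) (x : W ⧸ B.EE) : B.val (r • x) = B.val x := by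
  by_cases he : ∃ c, ∃ r ∈ B.R, r • B.start c = x
  · obtain ⟨c, r', hr', rfl⟩ := he
    rw [B.val_eq hr' rfl, smul_smul, B.val_eq (B.R.mul_mem hr hr') rfl]
  · have he' : ¬∃ c, ∃ r' ∈ B.R, r' • B.start c = r • x := fun ⟨c, r', hr', h⟩ =>
      he ⟨c, r⁻¹ * r', B.R.mul_mem (B.R.inv_mem hr) hr', by rw [mul_smul, h, inv_smul_smul]⟩
    rw [val, val, dif_neg he, dif_neg he']

theorem val_pf : B.val ((B.pf : W) : W ⧸ B.EE) = 1 := by
  obtain ⟨r, hr, h⟩ := B.acc 1 B.one_mem_Acc
  refine (B.val_eq (c := 1) hr ?_).trans (by rw [map_one, QuotientGroup.mk_one])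
  rw [start, MulAction.Quotient.smul_coe, smul_eq_mul]
  refine (QuotientGroup.eq.2 ?_).symm
  simpa [mul_assoc] using h

/-- The states of the model. -/
abbrev State := (W ⧸ B.EE) × B.L

/-- `W` moves the point. -/
def moveW : W →* Equiv.Perm B.State where
  toFun g := (MulAction.toPermHom W (W ⧸ B.EE) g).prodCongr (Equiv.refl B.L)
  map_one' := Equiv.ext fun z => Prod.ext (one_smul W z.1) rfl
  map_mul' a b := Equiv.ext fun z => Prod.ext (mul_smul a b z.1) rfl

/-- `w` records the value of the point. -/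
def moveT : Equiv.Perm B.State :=
  Equiv.prodShear (Equiv.refl _) fun x => Equiv.mulLeft (B.val x)⁻¹

/-- The model. -/
def model : B.W2 →* Equiv.Perm B.State :=
  HNNExtension.lift B.moveW B.moveT fun a => Equiv.ext fun z =>
    Prod.ext rfl (show (B.val ((a : W) • z.1))⁻¹ * z.2 = (B.val z.1)⁻¹ * z.2 by
      rw [B.val_smul a.2])

theorem model_of (g : W) (z : B.State) :
    B.model (HNNExtension.of g) z = (g • z.1, z.2) := by
  rw [model, HNNExtension.lift_of]; rfl

theorem model_t (z : B.State) :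
    B.model HNNExtension.t z = (z.1, (B.val z.1)⁻¹ * z.2) := by
  rw [model, HNNExtension.lift_t]; rfl

theorem model_EE2 {g : B.W2} (hg : g ∈ B.EE2) :
    B.model g (((1 : W) : W ⧸ B.EE), 1) = (((1 : W) : W ⧸ B.EE), 1) := by
  induction hg using Subgroup.closure_induction with
  | mem x hx =>
    rcases hx with ⟨y, hy, rfl⟩ | rfl
    · rw [B.model_of, MulAction.Quotient.smul_coe, smul_eq_mul, mul_one]
      exact Prod.ext (QuotientGroup.eq.2 (by simpa using hy)) rfl
    · rw [ew, map_mul, map_mul, Equiv.Perm.mul_apply, Equiv.Perm.mul_apply, B.model_of,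
        B.model_t, ← map_inv, B.model_of, MulAction.Quotient.smul_coe, smul_eq_mul, mul_one,
        B.val_pf, MulAction.Quotient.smul_coe]
      simp
  | one => rw [map_one]; rfl
  | mul x y _ _ hx hy => rw [map_mul, Equiv.Perm.mul_apply, hy, hx]
  | inv x _ hx =>
    rw [map_inv]
    exact Equiv.Perm.inv_eq_iff_eq.2 hx.symm

theorem model_om (ω : Om ι) : ∀ (c : FreeGroup ι) (s : B.L),
    ∃ c' s', B.model (B.om ω) (B.start c, s) = (B.start c', s') ∧
      (B.valh c' : B.L) * s' = (B.psi ω : B.L) * ((B.valh c : B.L) * s) := by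
  have hl : ∀ a c s, ∃ c' s', B.model (B.om (FreeGroup.map Sum.inl a)) (B.start c, s) =
      (B.start c', s') ∧ (B.valh c' : B.L) * s' = (B.psi (FreeGroup.map Sum.inl a) : B.L) * ((B.valh c : B.L) * s) :=
    fun a c s => ⟨a * c, s, by rw [B.om_inl, B.model_of, B.q_smul_start],
      by rw [B.psi_inl, map_mul, QuotientGroup.mk_mul, mul_assoc]⟩
  have hr : ∀ a c s, ∃ c' s', B.model (B.om (FreeGroup.map Sum.inr a)) (B.start c, s) =
      (B.start c', s') ∧ (B.valh c' : B.L) * s' = (B.psi (FreeGroup.map Sum.inr a) : B.L) * ((B.valh c : B.L) * s) := by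
    intro a c s
    refine ⟨a * c, (B.valh (a * c) : B.L)⁻¹ * ((B.valh c : B.L) * s), ?_, by
      rw [B.psi_inr, QuotientGroup.mk_one, one_mul, mul_inv_cancel_left]⟩
    have ht : (B.model HNNExtension.t)⁻¹ (B.start c, s) = (B.start c, (B.valh c : B.L) * s) :=
      Equiv.Perm.inv_eq_iff_eq.2 (by rw [B.model_t, B.val_start]; simp)
    rw [B.om_inr, map_mul, map_mul, map_inv, Equiv.Perm.mul_apply, Equiv.Perm.mul_apply, ht,
      B.model_of, B.q_smul_start, B.model_t, B.val_start]
  induction ω using FreeGroup.induction_on with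
  | C1 => exact fun c s => ⟨c, s, by simp, by simp⟩
  | of x =>
    rcases x with j | j
    · simpa using hl (FreeGroup.of j)
    · simpa using hr (FreeGroup.of j)
  | inv_of x _ =>
    rcases x with j | j
    · simpa using hl (FreeGroup.of j)⁻¹
    · simpa using hr (FreeGroup.of j)⁻¹
  | mul x y hx hy =>
    intro c s
    obtain ⟨c1, s1, e1, f1⟩ := hy c s
    obtain ⟨c2, s2, e2, f2⟩ := hx c1 s1
    exact ⟨c2, s2, by rw [map_mul, map_mul, Equiv.Perm.mul_apply, e1, e2],
      by rw [f2, f1, map_mul, QuotientGroup.mk_mul]; simp only [mul_assoc]⟩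

/-- The stabiliser of the start point in `⟨q, w q w⁻¹⟩` has value in `N`. -/
theorem psi_mem {ω : Om ι} (h : B.om ω • B.x0 = B.x0) : B.psi ω ∈ B.N := by
  rw [x0, MulAction.Quotient.smul_coe, smul_eq_mul] at h
  have he := B.model_EE2 (QuotientGroup.eq.1 h.symm)
  have h0 : B.model (HNNExtension.of B.p0) (((1 : W) : W ⧸ B.EE), 1) = (B.start 1, 1) := by
    rw [B.model_of, MulAction.Quotient.smul_coe, start]; simp
  rw [map_mul, map_mul, map_inv, Equiv.Perm.mul_apply, Equiv.Perm.mul_apply, h0,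
    Equiv.Perm.inv_eq_iff_eq, h0] at he
  obtain ⟨c', s', e, f⟩ := B.model_om ω 1 1
  rw [he, Prod.ext_iff] at e
  simp only at e
  have hc : (B.valh 1 : B.L) = B.valh c' :=
    B.mk_eq_of_related B.R.one_mem ((one_smul W _).trans e.1)
  rw [← hc, ← e.2] at f
  refine (QuotientGroup.eq_one_iff _).1 ?_
  simpa using f.symm

/-! ### The orbit of the start point -/

theorem t_smul_x0 : (HNNExtension.t : B.W2) • B.x0 = B.x0 := by
  obtain ⟨r, hr, h⟩ := B.acc 1 B.one_mem_Acc
  have e : B.x0 = (HNNExtension.of r : B.W2)⁻¹ • ((HNNExtension.of B.pf : B.W2) : B.Pts) := by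
    rw [x0, MulAction.Quotient.smul_coe, smul_eq_mul]
    refine (QuotientGroup.eq.2 ?_).symm
    simpa [mul_assoc] using B.of_mem_EE2 h
  have hc : (HNNExtension.t : B.W2) * (HNNExtension.of r : B.W2)⁻¹ =
      (HNNExtension.of r : B.W2)⁻¹ * HNNExtension.t := by
    rw [← map_inv]
    simpa using HNNExtension.t_mul_of (φ := MulEquiv.refl B.R) ⟨r⁻¹, B.R.inv_mem hr⟩
  rw [e, smul_smul, hc, mul_smul, smul_left_cancel_iff, MulAction.Quotient.smul_coe, smul_eq_mul]
  refine (QuotientGroup.eq.2 ?_).symm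
  simpa [ew, mul_assoc] using B.ew_mem_EE2

/-- Accepted words give the same point on both sides. -/
theorem om_acc {u : FreeGroup ι} (hu : u ∈ B.Acc) :
    B.om (FreeGroup.map Sum.inl u) • B.x0 = B.om (FreeGroup.map Sum.inr u) • B.x0 := by
  have e : ∀ u ∈ B.Acc, ∃ r ∈ B.R, (HNNExtension.of (B.q u) : B.W2) • B.x0 =
      (HNNExtension.of r : B.W2)⁻¹ • ((HNNExtension.of B.pf : B.W2) : B.Pts) := by
    intro u hu
    obtain ⟨r, hr, h⟩ := B.acc u hu
    refine ⟨r, hr, ?_⟩
    rw [x0, MulAction.Quotient.smul_coe, MulAction.Quotient.smul_coe, smul_eq_mul, smul_eq_mul]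
    refine (QuotientGroup.eq.2 ?_).symm
    simpa [mul_assoc] using B.of_mem_EE2 h
  obtain ⟨r, hr, h⟩ := e u hu
  have hc : (HNNExtension.t : B.W2) * (HNNExtension.of r : B.W2)⁻¹ =
      (HNNExtension.of r : B.W2)⁻¹ * HNNExtension.t := by
    rw [← map_inv]
    simpa using HNNExtension.t_mul_of (φ := MulEquiv.refl B.R) ⟨r⁻¹, B.R.inv_mem hr⟩
  have hi : (HNNExtension.t : B.W2)⁻¹ • B.x0 = B.x0 := inv_smul_eq_iff.2 B.t_smul_x0.symm
  rw [B.om_inl, B.om_inr, mul_smul, mul_smul, hi, h, smul_smul HNNExtension.t, hc, mul_smul,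
    smul_left_cancel_iff, MulAction.Quotient.smul_coe, smul_eq_mul]
  refine QuotientGroup.eq.2 ?_
  simpa [ew, mul_assoc] using B.ew_mem_EE2

/-- The orbit of the start point under `⟨q, w q w⁻¹⟩`. -/
def Orb := {x : B.Pts // ∃ ω, B.om ω • B.x0 = x}

instance : MulAction (Om ι) B.Orb where
  smul ω x := ⟨B.om ω • x.1, by
    obtain ⟨ω', h⟩ := x.2
    exact ⟨ω * ω', by rw [map_mul, mul_smul, h]⟩⟩
  one_smul x := Subtype.ext (show B.om 1 • x.1 = x.1 by rw [map_one, one_smul])
  mul_smul a b x := Subtype.ext (show B.om (a * b) • x.1 = B.om a • B.om b • x.1 by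
    rw [map_mul, mul_smul])

/-- The start point in the orbit. -/
def o0 : B.Orb := ⟨B.x0, 1, by rw [map_one, one_smul]⟩

theorem smul_o0_val (ω : Om ι) : (ω • B.o0).1 = B.om ω • B.x0 := rfl

theorem exists_smul_o0 (x : B.Orb) : ∃ ω : Om ι, ω • B.o0 = x :=
  ⟨x.2.choose, Subtype.ext x.2.choose_spec⟩

theorem psi_eq_of_smul_eq {ω ω' : Om ι} (h : ω • B.o0 = ω' • B.o0) :
    (B.psi ω : B.L) = B.psi ω' := by
  refine QuotientGroup.eq.2 ?_
  rw [← map_inv, ← map_mul]
  refine B.psi_mem ?_
  rw [← B.smul_o0_val, mul_smul, ← h, inv_smul_smul]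
  rfl

/-- `Σ`. -/
abbrev Sig := FreeGroup B.Orb ⋊[freeAut (MulAction.toPermHom (Om ι) B.Orb)] Om ι

/-- The inclusion of `Σ` in `Γ₂`. -/
def incl : B.Sig →* B.Gam :=
  SemidirectProduct.map (FreeGroup.map Subtype.val) B.om fun ω =>
    FreeGroup.ext_hom _ _ fun x => by simp [act]; rfl

theorem incl_injective : Function.Injective B.incl := fun a b h => by
  have hl := congrArg SemidirectProduct.left h
  have hr := congrArg SemidirectProduct.right h
  exact SemidirectProduct.ext (FreeGroup.map_injective Subtype.val_injective hl)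
    (B.om_injective hr)

end Base

end Vale.Agent.P193.C
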