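import Vale.Agent.P193.C.Tower
import Vale.Agent.P193.C.Align
import Mathlib.GroupTheory.FreeGroup.Reduce

/-!
# P193, piece C: the linear bound for `φ`

A form is a head and a list of (sign, element) pairs, read in `W₂` through a homomorphism to `W`.
`core`: if `η p0⁻¹ x p0 ξ` (`η ξ` in `EE₂`, `x` a word in `q` and `w`) costs `l` then, at every
height, the value of `x` is, modulo `N`, a word of length `≤ 2 l`. Induction on the number of `w`:
pinches inside the three parts merge, a pinch at a junction deletes a syllable with value in `N`,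
and otherwise the reduced form is split at the crossings of `x`; the two end pieces use the
hypothesis `endBound` of `Costs`.
`phi_bound`: an element of `Σ` of cost `n` in `Γ₂` has an image of length `≤ 6 n` in `L₊`.
-/

noncomputable section

namespace Vale.Agent.P193.C

namespace Align

variable {W : Type*} [Group W] {R : Subgroup W}

/-- Concatenation of forms. -/
def cat {X : Type*} [Group X] : X → List (ℤˣ × X) → X × List (ℤˣ × X) → X × List (ℤˣ × X)
  | h, [], P => (h * P.1, P.2)
  | h, (u, g) :: l, P => (h, (u, (cat g l P).1) :: (cat g l P).2)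

/-- A map on the list of a form. -/
def mapS {X Y : Type*} (f : X → Y) (l : List (ℤˣ × X)) : List (ℤˣ × Y) :=
  l.map fun p => (p.1, f p.2)

theorem length_cat {X : Type*} [Group X] (h : X) (l : List (ℤˣ × X)) (P : X × List (ℤˣ × X)) :
    (cat h l P).2.length = l.length + P.2.length := by
  induction l generalizing h with
  | nil => simp [cat]
  | cons x l ih => simp [cat, ih]; omega

theorem map_cat {X Y : Type*} [Group X] [Group Y] (f : X →* Y) (h : X) (l : List (ℤˣ × X))
    (P : X × List (ℤˣ × X)) :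
    (f (cat h l P).1, mapS f (cat h l P).2) = cat (f h) (mapS f l) (f P.1, mapS f P.2) := by
  induction l generalizing h with
  | nil => simp [cat, mapS]
  | cons x l ih =>
    have := ih x.2
    simp only [cat, mapS, List.map_cons] at this ⊢
    rw [← this]

theorem fval_cat (h : W) (l : List (ℤˣ × W)) (P : W × List (ℤˣ × W)) :
    fval R (cat h l P).1 (cat h l P).2 = fval R h l * fval R P.1 P.2 := by
  induction l generalizing h with
  | nil => rw [cat, ← of_mul_fval, fval_nil]
  | cons x l ih => obtain ⟨u, g⟩ := x; simp [cat, fval_cons, ih, mul_assoc]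

/-- The value of a form read through `f`. -/
def V {X : Type*} [Group X] (R : Subgroup W) (f : X →* W) (P : X × List (ℤˣ × X)) : Ext R :=
  fval R (f P.1) (mapS f P.2)

theorem V_nil {X : Type*} [Group X] (f : X →* W) (x : X) :
    V R f (x, []) = HNNExtension.of (f x) := by simp [V, mapS]

theorem V_cons {X : Type*} [Group X] (f : X →* W) (x y : X) (u : ℤˣ) (l : List (ℤˣ × X)) :
    V R f (x, (u, y) :: l) = HNNExtension.of (f x) * tp R u * V R f (y, l) := by
  simp [V, mapS, fval_cons]

theorem V_mul_head {X : Type*} [Group X] (f : X →* W) (x y : X) (l : List (ℤˣ × X)) :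
    V R f (x * y, l) = HNNExtension.of (f x) * V R f (y, l) := by
  simp [V, of_mul_fval]

theorem V_cat {X : Type*} [Group X] (f : X →* W) (h : X) (l : List (ℤˣ × X))
    (P : X × List (ℤˣ × X)) : V R f (cat h l P) = V R f (h, l) * V R f P := by
  have e := map_cat f h l P
  rw [V, show f (cat h l P).1 = (cat (f h) (mapS f l) (f P.1, mapS f P.2)).1 from congrArg Prod.fst e,
    show mapS f (cat h l P).2 = (cat (f h) (mapS f l) (f P.1, mapS f P.2)).2 from congrArg Prod.snd e,
    fval_cat]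
  rfl

theorem ret_V {X : Type*} [Group X] (f : X →* W) (P : X × List (ℤˣ × X)) :
    ret R (V R f P) = f (P.1 * (P.2.map Prod.snd).prod) := by
  rw [V, ret_fval, map_mul, map_list_prod, mapS, List.map_map, List.map_map]
  rfl

/-- Removing the pinches of a form. -/
theorem exists_red_form {X : Type*} [Group X] (f : X →* W) (x : X) (l : List (ℤˣ × X)) :
    ∃ P : X × List (ℤˣ × X), Red R (mapS f P.2) ∧ P.2.length ≤ l.length ∧
      V R f P = V R f (x, l) := by
  induction l generalizing x with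
  | nil => exact ⟨(x, []), List.isChain_nil, le_rfl, rfl⟩
  | cons a l ih =>
    obtain ⟨u, y⟩ := a
    obtain ⟨⟨y', l'⟩, hr, hlen, hv⟩ := ih y
    by_cases hp : f y' ∈ R ∧ l'.head?.map Prod.fst = some (-u)
    · obtain ⟨hy, hh⟩ := hp
      rcases l' with _ | ⟨⟨v, z⟩, l'⟩
      · simp at hh
      obtain rfl : v = -u := by simpa using hh
      refine ⟨(x * y' * z, l'), hr.tail, by simp at hlen ⊢; omega, ?_⟩
      rw [V_cons, ← hv, V_cons, V_mul_head, map_mul, map_mul]
      conv_rhs => simp only [← mul_assoc]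
      rw [mul_assoc (HNNExtension.of (f x)) (tp R u),
        mul_assoc (HNNExtension.of (f x)) (tp R u * HNNExtension.of (f y')),
        tp_mul_of_mul_tp_neg R u hy]
    · refine ⟨(x, (u, y') :: l'), List.isChain_cons.2 ⟨?_, hr⟩, by simpa using hlen, ?_⟩
      · intro b hb hm
        rw [List.head?_map] at hb
        obtain ⟨b', hb', rfl⟩ := Option.map_eq_some_iff.1 hb
        by_contra hne
        exact hp ⟨hm, Option.map_eq_some_iff.2
          ⟨b', hb', Int.units_ne_iff_eq_neg.1 (Ne.symm hne)⟩⟩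
      · rw [V_cons, V_cons, hv]

/-- A form is reduced when its parts and their junction are. -/
theorem red_cat (h : W) {l : List (ℤˣ × W)} {P : W × List (ℤˣ × W)} (hl : Red R l)
    (hP : Red R P.2)
    (hj : ∀ x ∈ l.getLast?, ∀ y ∈ P.2.head?, x.2 * P.1 ∈ R → x.1 = y.1) :
    Red R (cat h l P).2 := by
  induction l generalizing h with
  | nil => exact hP
  | cons x l ih =>
    refine List.isChain_cons.2 ⟨fun y hy => ?_, ?_⟩
    · rcases l with _ | ⟨x', l⟩
      · exact hj x (by simp) y hy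
      · intro hm
        simp only [cat, List.head?_cons, Option.mem_def, Option.some.injEq] at hy
        subst hy
        exact (List.isChain_cons.1 hl).1 x' (by simp) hm
    · refine ih x.2 hl.tail fun z hz => hj z ?_
      rcases l with _ | ⟨x', l⟩
      · simp at hz
      · simpa [List.getLast?_cons_cons] using hz

section Costs

variable {gen : W → ℕ → Prop}

theorem Cost.inv' {H : Type*} [Group H] {g : H → ℕ → Prop} (hg : ∀ x n, g x n → g x⁻¹ n)
    {x : H} {n : ℕ} (h : Cost g x n) : Cost g x⁻¹ n := by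
  induction h with
  | of_gen h => exact .of_gen (hg _ _ h)
  | one => rw [inv_one]; exact .one
  | mul _ _ ha hb => rw [mul_inv_rev, add_comm]; exact hb.mul ha
  | mono _ hle ha => exact ha.mono hle

theorem gen2_inv (hg : ∀ x n, gen x n → gen x⁻¹ n) (x : Ext R) (n : ℕ)
    (h : gen2 gen x n) : gen2 (R := R) gen x⁻¹ n := by
  rcases h with ⟨g, hgn, rfl⟩ | ⟨⟨u, rfl⟩, rfl⟩
  · exact Or.inl ⟨g⁻¹, hg _ _ hgn, map_inv _ _⟩
  · exact Or.inr ⟨⟨-u, tp_neg R u⟩, rfl⟩

theorem cost_of {g : W} {n : ℕ} (h : Cost gen g n) :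
    Cost (gen2 (R := R) gen) (HNNExtension.of g) n := by
  induction h with
  | of_gen h => exact .of_gen (Or.inl ⟨_, h, rfl⟩)
  | one => rw [map_one]; exact .one
  | mul _ _ ha hb => rw [map_mul]; exact ha.mul hb
  | mono _ hle ha => exact ha.mono hle

theorem cost_ret {x : Ext R} {n : ℕ} (h : Cost (gen2 gen) x n) : Cost gen (ret R x) n := by
  induction h with
  | of_gen h =>
    rcases h with ⟨g, hg, rfl⟩ | ⟨⟨u, rfl⟩, rfl⟩
    · rw [ret_of]; exact .of_gen hg
    · rw [ret_tp]; exact .mono .one (Nat.zero_le _)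
  | one => rw [map_one]; exact .one
  | mul _ _ ha hb => rw [map_mul]; exact ha.mul hb
  | mono _ hle ha => exact ha.mono hle

/-- Corrected segments of given costs bound the cost of a form. -/
theorem cost_fval {h : W} {l : List (ℤˣ × W)} {c : ℕ → W} {m : ℕ → ℕ} (hcR : ∀ j, c j ∈ R)
    (hseg : ∀ j ≤ l.length, Cost gen ((c j)⁻¹ * seg h l j * c (j + 1)) (m j)) :
    Cost (gen2 (R := R) gen)
      ((HNNExtension.of (c 0))⁻¹ * fval R h l * HNNExtension.of (c (l.length + 1)))
      (l.length + ∑ j ∈ Finset.range (l.length + 1), m j) := by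
  induction l generalizing h c m with
  | nil => simpa using cost_of (R := R) (hseg 0 le_rfl)
  | cons x l ih =>
    obtain ⟨u, g⟩ := x
    have h0 := cost_of (R := R) (hseg 0 (Nat.zero_le _))
    have h1 : Cost (gen2 (R := R) gen) (tp R u) 1 := .of_gen (Or.inr ⟨⟨u, rfl⟩, rfl⟩)
    have h2 := ih (h := g) (c := fun j => c (j + 1)) (m := fun j => m (j + 1))
      (fun j => hcR _) fun j hj => by simpa using hseg (j + 1) (by simpa using hj)
    refine Cost.mono (n := _) ?_ (le_of_eq ?_) (m := m 0 + 1 +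
      (l.length + ∑ j ∈ Finset.range (l.length + 1), m (j + 1)))
    · convert (h0.mul h1).mul h2 using 1
      simp only [zero_add, List.length_cons, seg_zero, map_mul, map_inv, fval_cons]
      rw [mul_assoc (_ * _) (HNNExtension.of (c 1)) (tp R u), ← tp_commute R u (hcR 1)]
      group
    · rw [List.length_cons, Finset.sum_range_succ' _ (l.length + 1)]
      omega

/-- Splitting off the head of a reduced form. -/
theorem head_peel {h g : W} {u : ℤˣ} {l : List (ℤˣ × W)} (hl : Red R ((u, g) :: l)) {n : ℕ}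
    (hn : Cost (gen2 gen) (fval R h ((u, g) :: l)) n) :
    ∃ r ∈ R, ∃ a b, Cost gen (h * r) a ∧ Cost (gen2 gen) (fval R (r⁻¹ * g) l) b ∧
      a + b + 1 ≤ n := by
  obtain ⟨c, m, hcR, hc0, hcn, hseg, hle⟩ := align_cost hl hn
  refine ⟨c 1, hcR 1, m 0, l.length + ∑ j ∈ Finset.range (l.length + 1), m (j + 1),
    by simpa [hc0] using hseg 0 (Nat.zero_le _), ?_, ?_⟩
  · have h2 := cost_fval (R := R) (h := g) (l := l) (c := fun j => c (j + 1))
      (m := fun j => m (j + 1)) (fun j => hcR _)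
      fun j hj => by simpa using hseg (j + 1) (by simpa using hj)
    rw [show c (l.length + 1 + 1) = 1 from hcn, map_one, mul_one, zero_add, ← map_inv,
      of_mul_fval] at h2
    exact h2
  · rw [List.length_cons, Finset.sum_range_succ' _ (l.length + 1)] at hle
    omega

/-- Splitting a reduced form at the first crossing after a concatenation. -/
theorem split_cat {h x : W} {δ : ℤˣ} {l L : List (ℤˣ × W)} {P : W × List (ℤˣ × W)}
    (hP : P.2 = (δ, x) :: L) (hr : Red R (cat h l P).2) {n : ℕ}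
    (hn : Cost (gen2 gen) (fval R (cat h l P).1 (cat h l P).2) n) :
    ∃ r ∈ R, ∃ a b, Cost gen (ret R (fval R h l) * P.1 * r) a ∧
      Cost (gen2 gen) (fval R (r⁻¹ * x) L) b ∧ a + b + 1 ≤ n := by
  induction l generalizing h n with
  | nil =>
    simp only [cat] at hr hn
    rw [hP] at hr hn
    simpa [fval_nil] using head_peel hr hn
  | cons a l ih =>
    obtain ⟨u, g⟩ := a
    simp only [cat] at hr hn
    obtain ⟨r, hrR, a₁, b₁, ha, hb, hab⟩ := head_peel hr hn
    have e : ∀ P : W × List (ℤˣ × W), cat (r⁻¹ * g) l P = (r⁻¹ * (cat g l P).1, (cat g l P).2) := by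
      intro P
      cases l with
      | nil => simp [cat, mul_assoc]
      | cons y l => simp [cat]
    obtain ⟨s, hsR, a₂, b₂, ha', hb', hab'⟩ :=
      ih (h := r⁻¹ * g) (n := b₁) (by rw [e]; exact hr.tail) (by rw [e]; exact hb)
    refine ⟨s, hsR, a₁ + a₂, b₂, ?_, hb', by omega⟩
    convert ha.mul ha' using 1
    rw [fval_cons, map_mul, map_mul, ret_of, ret_tp, ← of_mul_fval, map_mul, ret_of]
    group

end Costs

end Align

namespace Base

open Align

variable {ι κ W : Type} [Group W] (B : Base ι κ W)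

section Costs

variable [DecidableEq κ]

/-- What the bound uses about the costs of the generators of `W`. -/
structure Costs where
  /-- The costs of the generators. -/
  gen : W → ℕ → Prop
  inv : ∀ g n, gen g n → gen g⁻¹ n
  p0_zero : Cost gen B.p0 0
  qproj_le : ∀ g n, gen g n → (B.valh (B.qproj g)).norm ≤ n
  /-- A value on `W` which forgets points and edges. -/
  H : W →* FreeGroup κ
  H_EE : ∀ e ∈ B.EE, H e = 1
  H_p0 : H B.p0 = 1
  H_q : ∀ c, H (B.q c) = B.valh c
  H_le : ∀ g n, gen g n → (H g).norm ≤ n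
  endBound : ∀ e ∈ B.EE, ∀ r ∈ B.R, ∀ c n, Cost gen (e * B.p0⁻¹ * B.q c * r) n →
    ∃ a : FreeGroup κ, a.norm ≤ 2 * n ∧ (a : B.L) = B.valh c

variable {B}

theorem cost_qproj (S : B.Costs) {g : W} {n : ℕ} (h : Cost S.gen g n) :
    (B.valh (B.qproj g)).norm ≤ n :=
  Cost.le_of_subadditive (fun g => (B.valh (B.qproj g)).norm) (by simp)
    (fun x y => by simpa using FreeGroup.norm_mul_le _ _) S.qproj_le h

theorem cost_H (S : B.Costs) {g : W} {n : ℕ} (h : Cost S.gen g n) : (S.H g).norm ≤ n :=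
  Cost.le_of_subadditive (fun g => (S.H g).norm) (by simp)
    (fun x y => by simpa using FreeGroup.norm_mul_le _ _) S.H_le h

end Costs

/-! ### Heights -/


theorem shift_apply (m : Multiplicative ℤ) (p : ℤ × ι) :
    shift ι m p = (p.1 + m.toAdd, p.2) := by
  obtain ⟨z, rfl⟩ := Multiplicative.ofAdd.surjective m
  induction z using Int.induction_on generalizing p with
  | zero => simp [shift]
  | succ i ih =>
    rw [ofAdd_add, map_mul, Equiv.Perm.mul_apply]
    rw [show shift ι (Multiplicative.ofAdd 1) p = (p.1 + 1, p.2) by ext <;> simp [shift], ih]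
    simp [add_comm, add_left_comm]
  | pred i ih =>
    rw [sub_eq_add_neg, ofAdd_add, map_mul, Equiv.Perm.mul_apply]
    rw [show shift ι (Multiplicative.ofAdd (-1)) p = (p.1 + -1, p.2) by
      ext <;> simp [shift, Equiv.Perm.inv_def], ih]
    simp [add_comm, add_left_comm]

/-- The value at height `j` of an element of the free group on letters with heights. -/
def pr (j : ℤ) : FreeGroup (ℤ × ι) →* FreeGroup κ :=
  FreeGroup.lift fun p => if p.1 = j then B.valh (FreeGroup.of p.2) else 1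

theorem pr_shift (j : ℤ) (m : Multiplicative ℤ) (z : FreeGroup (ℤ × ι)) :
    B.pr j (freeAut (shift ι) m z) = B.pr (j - m.toAdd) z := by
  refine DFunLike.congr_fun (f := (B.pr j).comp (freeAut (shift ι) m).toMonoidHom)
    (FreeGroup.ext_hom _ _ fun p => ?_) z
  simp [pr, shift_apply, eq_sub_iff_add_eq]

/-- The exponent of `w`. -/
def deg (x : B.W2) : ℤ := (B.heights x).right.toAdd

/-- The value at height `j`. -/
def ht (j : ℤ) (x : B.W2) : FreeGroup κ := B.pr j (B.heights x).left

theorem ht_mul (j : ℤ) (x y : B.W2) : B.ht j (x * y) = B.ht j x * B.ht (j - B.deg x) y := by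
  simp [ht, deg, pr_shift]

theorem ht_one (j : ℤ) : B.ht j 1 = 1 := by simp [ht]

theorem ht_of (j : ℤ) (g : W) :
    B.ht j (HNNExtension.of g) = if j = 0 then B.valh (B.qproj g) else 1 := by
  rw [ht, heights, HNNExtension.lift_of]
  simp only [MonoidHom.comp_apply, SemidirectProduct.left_inl]
  refine DFunLike.congr_fun (f := (B.pr j).comp (FreeGroup.map fun a => ((0 : ℤ), a)))
    (g := if j = 0 then B.valh else 1) (FreeGroup.ext_hom _ _ fun a => ?_) (B.qproj g) |>.trans ?_
  · rcases eq_or_ne j 0 with rfl | hj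
    · simp [pr]
    · simp [pr, hj, Ne.symm hj]
  · split_ifs <;> simp

theorem deg_of (g : W) : B.deg (HNNExtension.of g) = 0 := by simp [deg, heights]

theorem heights_tp (u : ℤˣ) : B.heights (tp B.R u) =
    SemidirectProduct.inr (Multiplicative.ofAdd (u : ℤ)) := by
  rw [tp, map_zpow, heights, HNNExtension.lift_t, ← map_zpow, ← ofAdd_zsmul]
  simp

theorem ht_tp (j : ℤ) (u : ℤˣ) : B.ht j (tp B.R u) = 1 := by simp [ht, heights_tp]

theorem deg_tp (u : ℤˣ) : B.deg (tp B.R u) = u := by simp [deg, heights_tp]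

theorem ht_of_mul (j : ℤ) (g : W) (x : B.W2) :
    B.ht j (HNNExtension.of g * x) = B.ht j (HNNExtension.of g) * B.ht j x := by
  rw [ht_mul, deg_of, sub_zero]

theorem ht_of_tp_mul (j : ℤ) (g : W) (u : ℤˣ) (x : B.W2) :
    B.ht j (HNNExtension.of g * tp B.R u * x) =
      B.ht j (HNNExtension.of g) * B.ht (j - u) x := by
  rw [mul_assoc, ht_of_mul, ht_mul, ht_tp, one_mul, deg_tp]

theorem ht_om (ω : Om ι) : B.ht 0 (B.om ω) = B.psi ω := by
  have h : B.heights.comp B.om = SemidirectProduct.inl.comp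
      (FreeGroup.map (Sum.elim (fun j => ((0 : ℤ), j)) fun j => ((1 : ℤ), j))) := by
    refine FreeGroup.ext_hom _ _ fun x => ?_
    rcases x with j | j
    · simp [heights, om, B.qproj_q]
    · simp only [MonoidHom.comp_apply, om, FreeGroup.lift_apply_of, Sum.elim_inr, map_mul,
        map_inv, heights, HNNExtension.lift_t, HNNExtension.lift_of, B.qproj_q]
      rw [← map_inv, ← SemidirectProduct.inl_aut]
      simp [shift_apply]
  rw [ht, ← MonoidHom.comp_apply, h]
  simp only [MonoidHom.comp_apply, SemidirectProduct.left_inl]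
  refine DFunLike.congr_fun (f := (B.pr 0).comp (FreeGroup.map _)) (g := B.psi)
    (FreeGroup.ext_hom _ _ fun x => ?_) ω
  rcases x with j | j <;> simp [pr, psi]

theorem ht_le [DecidableEq κ] (S : B.Costs) {x : B.W2} {n : ℕ} (h : Cost (gen2 (R := B.R) S.gen) x n) :
    ∀ j, (B.ht j x).norm ≤ n := by
  induction h with
  | of_gen h =>
    intro j
    rcases h with ⟨g, hg, rfl⟩ | ⟨⟨u, rfl⟩, rfl⟩
    · rw [ht_of]; split_ifs
      · exact S.qproj_le _ _ hg
      · simp
    · simp [ht_tp]
  | one => simp [ht_one]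
  | mul _ _ ha hb =>
    intro j
    rw [ht_mul]
    exact (FreeGroup.norm_mul_le _ _).trans (add_le_add (ha j) (hb _))
  | mono _ hle ha => exact fun j => (ha j).trans hle

/-! ### The forms of `EE₂` and of `⟨q, w q w⁻¹⟩` -/

/-- Conjugation by the final point, on the edge group. -/
def fe : B.EE →* W := (MulAut.conj B.pf).toMonoidHom.comp B.EE.subtype

theorem fe_apply (e : B.EE) : B.fe e = B.pf * e * B.pf⁻¹ := rfl

theorem of_fe (e : B.EE) : (HNNExtension.of (B.fe e) : B.W2) =
    HNNExtension.of B.pf * HNNExtension.of (e : W) * (HNNExtension.of B.pf)⁻¹ := by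
  simp [fe_apply]

/-- The element of `EE₂` of a form. -/
def eval (P : B.EE × List (ℤˣ × B.EE)) : B.W2 :=
  (HNNExtension.of B.pf)⁻¹ * V B.R B.fe P * HNNExtension.of B.pf

theorem exists_eval {x : B.W2} (hx : x ∈ B.EE2) : ∃ P, B.eval P = x := by
  have htp : ∀ u : ℤˣ, ∀ y, (∃ P, B.eval P = y) → ∃ P, B.eval P =
      (HNNExtension.of B.pf)⁻¹ * tp B.R u * HNNExtension.of B.pf * y := by
    rintro u y ⟨⟨a, l⟩, rfl⟩
    exact ⟨(1, (u, a) :: l), by simp [eval, V_cons]; group⟩
  have hof : ∀ e : B.EE, ∀ y, (∃ P, B.eval P = y) → ∃ P, B.eval P =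
      HNNExtension.of (e : W) * y := by
    rintro e y ⟨⟨a, l⟩, rfl⟩
    exact ⟨(e * a, l), by rw [eval, eval, V_mul_head, of_fe]; group⟩
  induction hx using Subgroup.closure_induction_left with
  | one => exact ⟨(1, []), by simp [eval, V_nil]⟩
  | mul_left z hz y _ ih =>
    rcases hz with ⟨e, he, rfl⟩ | rfl
    · exact hof ⟨e, he⟩ y ih
    · simpa [ew, tp] using htp 1 y ih
  | inv_mul_cancel z hz y _ ih =>
    rcases hz with ⟨e, he, rfl⟩ | rfl
    · simpa using hof ⟨e, he⟩⁻¹ y ih
    · simpa [ew, tp, mul_assoc] using htp (-1) y ih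

theorem ret_eval_mem (P : B.EE × List (ℤˣ × B.EE)) : ret B.R (B.eval P) ∈ B.EE := by
  rw [eval, map_mul, map_mul, map_inv, ret_of, ret_V, fe_apply]
  simp only [mul_assoc, inv_mul_cancel_left, inv_mul_cancel, mul_one]
  exact Subtype.prop _

theorem exists_qForm (ω : Om ι) : ∃ P, V B.R B.q P = B.om ω := by
  have hr : ∀ a, V B.R B.q (1, [(1, a), (-1, 1)]) = B.om (FreeGroup.map Sum.inr a) := fun a => by
    simp [V_cons, V_nil, om_inr, tp, mul_assoc]
  induction ω using FreeGroup.induction_on with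
  | C1 => exact ⟨(1, []), by simp [V_nil]⟩
  | of x =>
    rcases x with j | j
    · exact ⟨(FreeGroup.of j, []), by simp [V_nil, om]⟩
    · exact ⟨_, (hr (FreeGroup.of j)).trans (by simp)⟩
  | inv_of x _ =>
    rcases x with j | j
    · exact ⟨((FreeGroup.of j)⁻¹, []), by simp [V_nil, om]⟩
    · exact ⟨_, (hr (FreeGroup.of j)⁻¹).trans (by simp)⟩
  | mul x y hx hy =>
    obtain ⟨⟨a, l⟩, ha⟩ := hx
    obtain ⟨P, hP⟩ := hy
    exact ⟨cat a l P, by rw [V_cat, ha, hP, map_mul]⟩

theorem valh_mem_of_junction {c : FreeGroup ι} {e : B.EE}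
    (h : B.q c * B.p0 * e * B.pf⁻¹ ∈ B.R) : B.valh c ∈ B.N := by
  obtain ⟨r₀, hr₀, h₀⟩ := B.acc 1 B.one_mem_Acc
  rw [map_one, mul_one] at h₀
  simpa using B.key 1 c _ (B.R.mul_mem h hr₀) (by
    rw [show (B.q c * B.p0)⁻¹ * (B.q c * B.p0 * e * B.pf⁻¹ * r₀) * (B.q 1 * B.p0) =
      (e : W) * (B.pf⁻¹ * r₀ * B.p0) by simp; group]
    exact B.EE.mul_mem e.2 h₀)

theorem hL_eq_one {c : FreeGroup ι} (hc : B.valh c ∈ B.N) (j : ℤ) :
    (B.ht j (HNNExtension.of (B.q c)) : B.L) = 1 := by
  rw [ht_of]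
  split_ifs
  · rw [B.qproj_q]; exact (QuotientGroup.eq_one_iff _).2 hc
  · rfl

/-! ### The bound -/

variable {B}
variable [DecidableEq κ]

/-- A word of length `≤ 2 n` equals `b` modulo `N`. -/
def Short (b : B.L) (n : ℕ) : Prop := ∃ a : FreeGroup κ, a.norm ≤ 2 * n ∧ (a : B.L) = b

theorem Short.mul {b b' : B.L} {m n : ℕ} (h : Short b m) (h' : Short b' n) :
    Short (b * b') (m + n) := by
  obtain ⟨a, ha, rfl⟩ := h
  obtain ⟨a', ha', rfl⟩ := h'
  exact ⟨a * a', (FreeGroup.norm_mul_le _ _).trans (by omega), QuotientGroup.mk_mul _ _ _⟩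

theorem Short.one (n : ℕ) : Short (1 : B.L) n := ⟨1, by simp, rfl⟩

theorem Short.mono {b : B.L} {m n : ℕ} (h : Short b m) (hle : m ≤ n) : Short b n := by
  obtain ⟨a, ha, e⟩ := h
  exact ⟨a, by omega, e⟩

theorem short_middle (S : B.Costs) {r r' : W} (hr : r ∈ B.R) (hr' : r' ∈ B.R) {c : FreeGroup ι}
    {n : ℕ} (h : Cost S.gen (r⁻¹ * B.q c * r') n) : Short (B.valh c : B.L) n := by
  refine ⟨B.valh c, ?_, rfl⟩
  have := cost_qproj S h
  simp only [map_mul, map_inv, B.qproj_R r hr, B.qproj_R r' hr', B.qproj_q, inv_one, one_mul,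
    mul_one] at this
  omega

/-- The part of a reduced form after the first crossing. -/
theorem tail_bound (S : B.Costs) (ξ : B.EE × List (ℤˣ × B.EE))
    (P : W × List (ℤˣ × W)) (hP : fval B.R P.1 P.2 = HNNExtension.of B.p0 * B.eval ξ)
    (M : List (ℤˣ × FreeGroup ι)) :
    ∀ (r : W), r ∈ B.R → ∀ (c : FreeGroup ι) (b : ℕ), Red B.R (cat (B.q c) (mapS B.q M) P).2 →
      Cost (gen2 (R := B.R) S.gen)
        ((HNNExtension.of r)⁻¹ * fval B.R (cat (B.q c) (mapS B.q M) P).1
          (cat (B.q c) (mapS B.q M) P).2) b →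
      ∀ j, Short (B.ht j (V B.R B.q (c, M)) : B.L) b := by
  induction M with
  | nil =>
    intro r hr c b _ hb j
    rw [V_nil, ht_of, B.qproj_q]
    split_ifs
    · rw [fval_cat, show mapS B.q ([] : List (ℤˣ × FreeGroup ι)) = [] from rfl, fval_nil, hP] at hb
      have h := cost_ret hb
      simp only [map_mul, map_inv, ret_of] at h
      obtain ⟨a, ha, e⟩ := S.endBound _ (B.EE.inv_mem (B.ret_eval_mem ξ)) r hr c⁻¹ b (by
        have := Cost.inv' S.inv h
        simpa [mul_assoc] using this)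
      refine ⟨a⁻¹, by simpa using ha, ?_⟩
      rw [QuotientGroup.mk_inv, e, map_inv, QuotientGroup.mk_inv, inv_inv]
    · rw [QuotientGroup.mk_one]; exact Short.one b
  | cons x M ih =>
    obtain ⟨u, c'⟩ := x
    intro r hr c b hred hb j
    simp only [mapS, List.map_cons, cat] at hred hb ih
    rw [← map_inv, of_mul_fval] at hb
    obtain ⟨s, hs, a, b', ha, hb', hab⟩ := head_peel hred hb
    rw [← of_mul_fval, map_inv] at hb'
    have hrec := ih s hs c' b' hred.tail hb' (j - u)
    rw [V_cons, ht_of_tp_mul, ht_of, B.qproj_q, QuotientGroup.mk_mul]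
    refine (Short.mul (m := a) ?_ hrec).mono (by omega)
    split_ifs
    · exact short_middle S hr hs ha
    · rw [QuotientGroup.mk_one]; exact Short.one a

/-- The bound at every height. -/
theorem core (S : B.Costs) : ∀ (n : ℕ) (η ξ : B.EE × List (ℤˣ × B.EE))
    (ν : FreeGroup ι × List (ℤˣ × FreeGroup ι)),
    η.2.length + ν.2.length + ξ.2.length ≤ n → ∀ l,
    Cost (gen2 (R := B.R) S.gen) (B.eval η * (HNNExtension.of B.p0)⁻¹ * V B.R B.q ν *
      HNNExtension.of B.p0 * B.eval ξ) l →
    ∀ j, Short (B.ht j (V B.R B.q ν) : B.L) l := by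
  intro n
  induction n using Nat.strong_induction_on with
  | _ n ih =>
    intro η₀ ξ₀ ν₀ hlen l hcost j
    obtain ⟨⟨e₀, L⟩, hLr, hLn, hLv⟩ := exists_red_form (R := B.R) B.fe η₀.1 η₀.2
    obtain ⟨⟨f₀, L'⟩, hL'r, hL'n, hL'v⟩ := exists_red_form (R := B.R) B.fe ξ₀.1 ξ₀.2
    obtain ⟨⟨c₀, M⟩, hMr, hMn, hMv⟩ := exists_red_form (R := B.R) B.q ν₀.1 ν₀.2
    rw [eval, eval, ← hLv, ← hL'v, ← hMv] at hcost
    rw [← hMv]
    simp only at hLn hL'n hMn
    rcases M with _ | ⟨⟨δ, c₁⟩, M⟩
    · -- no crossing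
      rw [V_nil, ht_of, B.qproj_q]
      split_ifs
      · refine ⟨B.valh c₀, ?_, rfl⟩
        have h := cost_H S (cost_ret hcost)
        have e1 := S.H_EE _ (B.ret_eval_mem (e₀, L))
        have e2 := S.H_EE _ (B.ret_eval_mem (f₀, L'))
        simp only [map_mul, map_inv, ret_of, V_nil, eval] at h e1 e2
        rw [e1] at h
        simp only [S.H_p0, S.H_q, inv_one, one_mul, mul_one, mul_assoc] at h e2
        rw [e2, mul_one] at h
        omega
      · rw [QuotientGroup.mk_one]; exact Short.one l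
    -- a crossing
    by_cases hjl : ∃ (L₁ : List (ℤˣ × B.EE)) (y : B.EE), L = L₁ ++ [(-δ, y)] ∧ B.pf * (y : W) * B.p0⁻¹ * B.q c₀ ∈ B.R
    · obtain ⟨L₁, y, rfl, hy⟩ := hjl
      have hc : B.valh c₀ ∈ B.N := by
        have h' : B.q c₀⁻¹ * B.p0 * (y⁻¹ : B.EE) * B.pf⁻¹ ∈ B.R := by
          simpa [mul_assoc] using B.R.inv_mem hy
        simpa using B.valh_mem_of_junction h'
      have hlt : (cat e₀ L₁ (y, [])).2.length + M.length + L'.length < n := by
        simp [length_cat] at hLn hMn ⊢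
        omega
      have := ih _ hlt (cat e₀ L₁ (y, [])) (f₀, L') (c₀ * c₁, M) le_rfl l ?_ (j - δ)
      · rw [V_cons, ht_of_tp_mul, QuotientGroup.mk_mul, B.hL_eq_one hc, one_mul]
        rw [V_mul_head, ht_of_mul, QuotientGroup.mk_mul, B.hL_eq_one hc, one_mul] at this
        exact this
      · convert hcost using 1
        have hz := tp_mul_of_mul_tp_neg B.R (-δ) hy
        rw [neg_neg, map_mul, map_mul, map_mul, map_inv] at hz
        have e : V B.R B.fe (e₀, L₁ ++ [(-δ, y)]) =
            V B.R B.fe (e₀, L₁) * tp B.R (-δ) * HNNExtension.of (B.fe y) := by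
          have : cat e₀ L₁ (1, [(-δ, y)]) = (e₀, L₁ ++ [(-δ, y)]) := by
            clear * -
            induction L₁ generalizing e₀ with
            | nil => simp [cat]
            | cons a l ih => simp [cat, ih a.2]
          rw [← this, V_cat, V_cons, V_nil, map_one, map_one, one_mul, mul_assoc]
        simp only [eval, V_cat, V_nil, V_mul_head, e, V_cons, of_fe]
        calc _ = (HNNExtension.of B.pf)⁻¹ * V B.R B.fe (e₀, L₁) *
              (HNNExtension.of B.pf * HNNExtension.of (y : W) * (HNNExtension.of B.p0)⁻¹ *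
                HNNExtension.of (B.q c₀)) * V B.R B.q (c₁, M) * HNNExtension.of B.p0 *
              ((HNNExtension.of B.pf)⁻¹ * V B.R B.fe (f₀, L') * HNNExtension.of B.pf) := by group
          _ = _ := by rw [← hz]; group
    by_cases hjr : ∃ M₁ u c, (δ, c₁) :: M = M₁ ++ [(u, c)] ∧ L'.head?.map Prod.fst = some (-u) ∧
        B.q c * B.p0 * f₀ * B.pf⁻¹ ∈ B.R
    · obtain ⟨M₁, u, c, hM, hu, hy⟩ := hjr
      rcases L' with _ | ⟨⟨v, f₁⟩, L'⟩
      · simp at hu
      obtain rfl : v = -u := by simpa using hu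
      have hc : B.valh c ∈ B.N := B.valh_mem_of_junction hy
      have hMlen : M.length + 1 = M₁.length + 1 := by
        simpa using congrArg List.length hM
      have hlt : L.length + (cat c₀ M₁ (c, [])).2.length + L'.length < n := by
        simp [length_cat] at hL'n hMn ⊢
        omega
      have := ih _ hlt (e₀, L) (f₀ * f₁, L') (cat c₀ M₁ (c, [])) le_rfl l ?_ j
      · have e : V B.R B.q (c₀, (δ, c₁) :: M) =
            V B.R B.q (c₀, M₁) * (tp B.R u * HNNExtension.of (B.q c)) := by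
          rw [hM]
          have : cat c₀ M₁ (1, [(u, c)]) = (c₀, M₁ ++ [(u, c)]) := by
            clear * -
            induction M₁ generalizing c₀ with
            | nil => simp [cat]
            | cons a l ih => simp [cat, ih a.2]
          rw [← this, V_cat, V_cons, V_nil, map_one, map_one, one_mul]
        rw [e, ht_mul, ht_mul, ht_tp, one_mul, QuotientGroup.mk_mul, B.hL_eq_one hc, mul_one]
        rw [V_cat, V_nil, ht_mul, QuotientGroup.mk_mul, B.hL_eq_one hc, mul_one] at this
        exact this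
      · convert hcost using 1
        have hz := tp_mul_of_mul_tp_neg B.R u hy
        rw [map_mul, map_mul, map_mul, map_inv] at hz
        have e : V B.R B.q (c₀, (δ, c₁) :: M) =
            V B.R B.q (c₀, M₁) * (tp B.R u * HNNExtension.of (B.q c)) := by
          rw [hM]
          have : cat c₀ M₁ (1, [(u, c)]) = (c₀, M₁ ++ [(u, c)]) := by
            clear * -
            induction M₁ generalizing c₀ with
            | nil => simp [cat]
            | cons a l ih => simp [cat, ih a.2]
          rw [← this, V_cat, V_cons, V_nil, map_one, map_one, one_mul]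
        rw [e]
        simp only [eval, V_cat, V_nil, V_mul_head, V_cons, of_fe]
        calc _ = (HNNExtension.of B.pf)⁻¹ * V B.R B.fe (e₀, L) * HNNExtension.of B.pf *
              (HNNExtension.of B.p0)⁻¹ * V B.R B.q (c₀, M₁) *
              (HNNExtension.of (B.q c) * HNNExtension.of B.p0 * HNNExtension.of (f₀ : W) *
                (HNNExtension.of B.pf)⁻¹) * V B.R B.fe (f₁, L') * HNNExtension.of B.pf := by group
          _ = _ := by rw [← hz]; group
    -- the glued form is reduced
    let P : W × List (ℤˣ × W) :=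
      cat (B.p0 * B.pf⁻¹ * B.fe f₀) (mapS B.fe L') (B.pf, [])
    have hP : fval B.R P.1 P.2 = HNNExtension.of B.p0 * B.eval (f₀, L') := by
      simp only [P, fval_cat, fval_nil, eval, V, ← of_mul_fval, map_mul, map_inv]
      group
    let Q : W × List (ℤˣ × W) := cat (B.q c₀) (mapS B.q ((δ, c₁) :: M)) P
    let Q' : W × List (ℤˣ × W) := (B.pf * B.p0⁻¹ * Q.1, Q.2)
    have hPr : Red B.R P.2 := red_cat _ hL'r List.isChain_nil (by simp)
    have hQr : Red B.R Q.2 := by
      refine red_cat _ hMr hPr fun x hx y hy hm => ?_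
      by_contra hne
      refine hjr ?_
      simp only [mapS, List.getLast?_map, Option.mem_def, Option.map_eq_some_iff] at hx
      obtain ⟨⟨u, c⟩, huc, rfl⟩ := hx
      obtain ⟨M₁, hM₁⟩ := List.getLast?_eq_some_iff.1 huc
      refine ⟨M₁, u, c, hM₁, ?_, ?_⟩
      · rcases L' with _ | ⟨⟨v, f₁⟩, L'⟩
        · simp [P, cat, mapS] at hy
        · obtain rfl : y.1 = v := by
            simp [P, cat, mapS] at hy
            rw [← hy]
          simpa using Int.units_ne_iff_eq_neg.1 (Ne.symm hne)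
      · rcases L' with _ | ⟨⟨v, f₁⟩, L'⟩
        · simp [P, cat, mapS] at hy
        · simpa [P, cat, mapS, fe_apply, mul_assoc] using hm
    have hQ1 : Q'.1 = B.pf * B.p0⁻¹ * B.q c₀ := by simp [Q', Q, cat, mapS]
    have hDr : Red B.R (cat (B.pf⁻¹ * B.fe e₀) (mapS B.fe L) Q').2 := by
      refine red_cat _ hLr hQr fun x hx y hy hm => ?_
      by_contra hne
      refine hjl ?_
      simp only [mapS, List.getLast?_map, Option.mem_def, Option.map_eq_some_iff] at hx
      obtain ⟨⟨u, e⟩, hue, rfl⟩ := hx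
      obtain ⟨L₁, hL₁⟩ := List.getLast?_eq_some_iff.1 hue
      obtain rfl : y.1 = δ := by
        simp [Q', Q, cat, mapS] at hy
        rw [← hy]
      refine ⟨L₁, e, ?_, ?_⟩
      · rwa [← Int.units_ne_iff_eq_neg.1 hne]
      · rw [hQ1] at hm
        simpa [fe_apply, mul_assoc] using hm
    have hD : Cost (gen2 (R := B.R) S.gen)
        (fval B.R (cat (B.pf⁻¹ * B.fe e₀) (mapS B.fe L) Q').1
          (cat (B.pf⁻¹ * B.fe e₀) (mapS B.fe L) Q').2) l := by
      convert hcost using 1
      rw [fval_cat]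
      simp only [Q', ← of_mul_fval]
      rw [show fval B.R Q.1 Q.2 = V B.R B.q (c₀, (δ, c₁) :: M) * fval B.R P.1 P.2 from fval_cat ..,
        hP]
      simp only [eval, V, map_mul, map_inv]
      group
    obtain ⟨r, hr, a, b, ha, hb, hab⟩ :=
      split_cat (x := (cat (B.q c₁) (mapS B.q M) P).1) (δ := δ)
        (L := (cat (B.q c₁) (mapS B.q M) P).2) (by simp [Q', Q, cat, mapS]) hDr hD
    have htail := tail_bound S (f₀, L') P hP M r hr c₁ b hQr.tail
      (by rw [← of_mul_fval, map_inv] at hb; exact hb) (j - δ)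
    rw [V_cons, ht_of_tp_mul, QuotientGroup.mk_mul, ht_of, B.qproj_q]
    refine (Short.mul (m := a) ?_ htail).mono (by omega)
    split_ifs
    · refine S.endBound _ (B.ret_eval_mem (e₀, L)) r hr c₀ a ?_
      convert ha using 1
      rw [hQ1, eval, V, ← of_mul_fval]
      simp only [map_mul, map_inv, ret_of]
      group
    · rw [QuotientGroup.mk_one]; exact Short.one a

/-- Two starts at distance `l`. -/
theorem gap (S : B.Costs) {ω₁ ω₂ : Om ι} {x₁ x₂ : B.W2} (h₁ : x₁ ∈ B.EE2) (h₂ : x₂ ∈ B.EE2)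
    {l : ℕ} (h : Cost (gen2 (R := B.R) S.gen)
      ((B.om ω₁ * HNNExtension.of B.p0 * x₁)⁻¹ * (B.om ω₂ * HNNExtension.of B.p0 * x₂)) l) :
    Short ((B.psi ω₁ : B.L)⁻¹ * (B.psi ω₂ : B.L)) l := by
  obtain ⟨η, hη⟩ := B.exists_eval (B.EE2.inv_mem h₁)
  obtain ⟨ξ, hξ⟩ := B.exists_eval h₂
  obtain ⟨ν, hν⟩ := B.exists_qForm (ω₁⁻¹ * ω₂)
  have := core S _ η ξ ν le_rfl l (by
    convert h using 1
    rw [hη, hξ, hν, map_mul, map_inv]
    group) 0
  rwa [hν, ht_om, map_mul, map_inv, QuotientGroup.mk_mul, QuotientGroup.mk_inv] at this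

/-! ### The points of a word of `Γ₂` -/

/-- The costs of the generators of `Γ₂`. -/
def gen3 (S : B.Costs) (x : B.Gam) (n : ℕ) : Prop :=
  (∃ g, gen2 (R := B.R) S.gen g n ∧ SemidirectProduct.inr g = x) ∨
    ((x = B.pt ((1 : B.W2) : B.Pts) ∨ x = (B.pt ((1 : B.W2) : B.Pts))⁻¹) ∧ n = 1)

/-- A list of points met on a way of cost `n`. -/
def Occ (S : B.Costs) : B.W2 → List (B.Pts × Bool) → B.W2 → ℕ → Prop
  | g, [], g', n => Cost (gen2 (R := B.R) S.gen) (g⁻¹ * g') n
  | g, p :: L, g', n => ∃ h a b, Cost (gen2 (R := B.R) S.gen) (g⁻¹ * h) a ∧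
      (h : B.Pts) = p.1 ∧ Occ S h L g' b ∧ a + b + 1 ≤ n

theorem Occ.mono {S : B.Costs} {g g' : B.W2} {L : List (B.Pts × Bool)} {m n : ℕ}
    (h : Occ S g L g' m) (hle : m ≤ n) : Occ S g L g' n := by
  cases L with
  | nil => exact Cost.mono h hle
  | cons p L =>
    obtain ⟨k, a, b, h1, h2, h3, h4⟩ := h
    exact ⟨k, a, b, h1, h2, h3, h4.trans hle⟩

theorem Occ.left {S : B.Costs} {g g' k : B.W2} {L : List (B.Pts × Bool)} {m n : ℕ}
    (hc : Cost (gen2 (R := B.R) S.gen) (k⁻¹ * g) m) (h : Occ S g L g' n) :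
    Occ S k L g' (m + n) := by
  cases L with
  | nil => simpa [Occ, mul_assoc] using hc.mul h
  | cons p L =>
    obtain ⟨x, a, b, h1, h2, h3, h4⟩ := h
    exact ⟨x, m + a, b, by simpa [mul_assoc] using hc.mul h1, h2, h3, by omega⟩

theorem Occ.sublist {S : B.Costs} {g' : B.W2} {L L' : List (B.Pts × Bool)} (h : L'.Sublist L) :
    ∀ {g : B.W2} {n : ℕ}, Occ S g L g' n → Occ S g L' g' n := by
  induction h with
  | slnil => exact id
  | cons p _ ih =>
    rintro g n ⟨x, a, b, h1, -, h3, h4⟩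
    exact ((ih h3).left h1).mono (by omega)
  | cons_cons p _ ih =>
    rintro g n ⟨x, a, b, h1, h2, h3, h4⟩
    exact ⟨x, a, b, h1, h2, ih h3, h4⟩

theorem Occ.append {S : B.Costs} {g k g' : B.W2} {L L' : List (B.Pts × Bool)} {m n : ℕ}
    (h : Occ S g L k m) (h' : Occ S k L' g' n) : Occ S g (L ++ L') g' (m + n) := by
  induction L generalizing g m with
  | nil => exact h'.left h
  | cons p L ih =>
    obtain ⟨x, a, b, h1, h2, h3, h4⟩ := h
    exact ⟨x, a, b + n, h1, h2, ih h3, by omega⟩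

theorem Occ.smul {S : B.Costs} {g g' : B.W2} {L : List (B.Pts × Bool)} {n : ℕ}
    (h : Occ S g L g' n) (k : B.W2) :
    Occ S (k * g) (L.map fun p => (k • p.1, p.2)) (k * g') n := by
  induction L generalizing g n with
  | nil => simpa [Occ, mul_assoc] using h
  | cons p L ih =>
    obtain ⟨x, a, b, h1, h2, h3, h4⟩ := h
    refine ⟨k * x, a, b, by simpa [mul_assoc] using h1, ?_, ih h3, h4⟩
    show _ = k • p.1
    rw [← h2, MulAction.Quotient.smul_coe, smul_eq_mul]

theorem exists_occ (S : B.Costs) {x : B.Gam} {n : ℕ} (h : Cost (gen3 S) x n) :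
    ∃ L, FreeGroup.mk L = x.left ∧ Occ S 1 L x.right n := by
  induction h with
  | @of_gen x n h =>
    rcases h with ⟨g, hg, rfl⟩ | ⟨hx, rfl⟩
    · exact ⟨[], by simp [FreeGroup.one_eq_mk], by simpa [Occ] using Cost.of_gen hg⟩
    · have hone : Cost (gen2 (R := B.R) S.gen) ((1 : B.W2)⁻¹ * 1) 0 := by simpa using Cost.one
      rcases hx with rfl | rfl
      · exact ⟨[(((1 : B.W2) : B.Pts), true)], rfl, 1, 0, 0, hone, rfl,
          by simpa [Occ, Base.pt] using hone, le_rfl⟩
      · exact ⟨[(((1 : B.W2) : B.Pts), false)], by simp [Base.pt, FreeGroup.of, FreeGroup.invRev],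
          1, 0, 0, hone, rfl, by simpa [Occ, Base.pt] using hone, le_rfl⟩
  | one => exact ⟨[], by simp [FreeGroup.one_eq_mk], by simpa [Occ] using Cost.one⟩
  | @mul x y m n _ _ hx hy =>
    obtain ⟨L, hL, hO⟩ := hx
    obtain ⟨L', hL', hO'⟩ := hy
    refine ⟨L ++ L'.map fun p => (x.right • p.1, p.2), ?_, ?_⟩
    · rw [← FreeGroup.mul_mk, hL, SemidirectProduct.mul_left, ← hL']
      simp [act, freeAut, FreeGroup.freeGroupCongr]
    · rw [SemidirectProduct.mul_right]
      exact hO.append (by simpa using hO'.smul x.right)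
  | mono _ hle ha =>
    obtain ⟨L, hL, hO⟩ := ha
    exact ⟨L, hL, hO.mono hle⟩

/-! ### The bound for `φ` -/

/-- The letters of `L₊` used by `φ`: the free factor and the stable letter. -/
def genP (B : Base ι κ W) (x : B.Lp) (n : ℕ) : Prop :=
  n = 1 ∧ ((∃ k b, x = B.gF (FreeGroup.mk [(k, b)])) ∨
    x = HNNExtension.t ∨ x = (HNNExtension.t : B.Lp)⁻¹)

theorem cost_gF (a : FreeGroup κ) : Cost B.genP (B.gF a) a.norm := by
  suffices h : ∀ L : List (κ × Bool), Cost B.genP (B.gF (FreeGroup.mk L)) L.length by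
    simpa [FreeGroup.norm, FreeGroup.mk_toWord] using h a.toWord
  intro L
  induction L with
  | nil => simpa [← FreeGroup.one_eq_mk] using Cost.one
  | cons p L ih =>
    rw [← List.singleton_append, ← FreeGroup.mul_mk, map_mul, List.length_append,
      List.length_singleton]
    exact (Cost.of_gen ⟨rfl, Or.inl ⟨p.1, p.2, rfl⟩⟩).mul ih

omit [DecidableEq κ] in
theorem orbVal_eq {ω : Om ι} {a : FreeGroup κ} (h : (a : B.L) = B.psi ω) :
    B.orbVal (ω • B.o0) = B.gF a * HNNExtension.t * (B.gF a)⁻¹ := by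
  have hc := B.commute_t_gF (QuotientGroup.eq.1 h)
  rw [map_mul, map_inv] at hc
  rw [orbVal_smul]
  calc B.gF (B.psi ω) * HNNExtension.t * (B.gF (B.psi ω))⁻¹
      = B.gF a * ((B.gF a)⁻¹ * B.gF (B.psi ω) * HNNExtension.t) * (B.gF (B.psi ω))⁻¹ := by group
    _ = B.gF a * (HNNExtension.t * ((B.gF a)⁻¹ * B.gF (B.psi ω))) * (B.gF (B.psi ω))⁻¹ := by
        rw [hc.eq]
    _ = _ := by group

theorem phi_points (S : B.Costs) (L : List (B.Orb × Bool)) :
    ∀ (ω : Om ι) (ξ g' : B.W2) (n : ℕ) (a : FreeGroup κ), ξ ∈ B.EE2 → (a : B.L) = B.psi ω →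
      Occ S (B.om ω * HNNExtension.of B.p0 * ξ) (L.map fun p => (p.1.1, p.2)) g' n →
      ∃ a' : FreeGroup κ, (a⁻¹ * a').norm ≤ 2 * n ∧
        Cost B.genP ((B.gF a)⁻¹ * FreeGroup.lift B.orbVal (FreeGroup.mk L) * B.gF a') (3 * n) := by
  induction L with
  | nil =>
    intro ω ξ g' n a _ _ _
    exact ⟨a, by simp, by simpa [← FreeGroup.one_eq_mk] using Cost.one.mono (Nat.zero_le _)⟩
  | cons p L ih =>
    intro ω ξ g' n a hξ ha h
    obtain ⟨x, σ⟩ := p
    obtain ⟨k, m, b, h1, h2, h3, h4⟩ := h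
    obtain ⟨ω', rfl⟩ := B.exists_smul_o0 x
    have hk : (B.om ω' * HNNExtension.of B.p0)⁻¹ * k ∈ B.EE2 := by
      refine QuotientGroup.eq.1 ?_
      simp only at h2
      rw [h2, smul_o0_val, x0, MulAction.Quotient.smul_coe, smul_eq_mul]
    set ξ' := (B.om ω' * HNNExtension.of B.p0)⁻¹ * k with hξ'
    have hk' : k = B.om ω' * HNNExtension.of B.p0 * ξ' := by rw [hξ']; group
    rw [hk'] at h1 h3
    obtain ⟨d, hd, hd'⟩ := gap S hξ hk h1
    have ha' : ((a * d : FreeGroup κ) : B.L) = B.psi ω' := by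
      rw [QuotientGroup.mk_mul, ha, hd', mul_inv_cancel_left]
    obtain ⟨a', hn', hc'⟩ := ih ω' ξ' g' b (a * d) hk ha' h3
    refine ⟨a', ?_, ?_⟩
    · rw [show a⁻¹ * a' = d * ((a * d)⁻¹ * a') by group]
      exact (FreeGroup.norm_mul_le _ _).trans (by omega)
    · have hs : Cost B.genP (cond σ (HNNExtension.t : B.Lp) HNNExtension.t⁻¹) 1 :=
        .of_gen ⟨rfl, Or.inr (by cases σ <;> simp)⟩
      have h := Cost.mono (n := 3 * n) (((cost_gF d).mono hd).mul hs |>.mul hc') (by omega)
      convert h using 1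
      rw [← List.singleton_append, ← FreeGroup.mul_mk, map_mul, map_mul]
      have hl : FreeGroup.lift B.orbVal (FreeGroup.mk [(ω' • B.o0, σ)]) =
          B.gF (a * d) * cond σ (HNNExtension.t : B.Lp) HNNExtension.t⁻¹ * (B.gF (a * d))⁻¹ := by
        cases σ <;> simp [FreeGroup.lift_mk, orbVal_eq ha', mul_assoc]
      rw [hl, map_mul]
      group

/-- An element of `Σ` of cost `n` in `Γ₂` has an image of cost `≤ 6 n`. -/
theorem phi_bound (S : B.Costs) {z : B.Sig} {n : ℕ} (h : Cost (gen3 S) (B.incl z) n) :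
    Cost B.genP (B.phi z) (6 * n) := by
  classical
  obtain ⟨L, hL, hO⟩ := exists_occ S h
  have hsub : ((z.left.toWord).map fun p => ((p.1.1 : B.Pts), p.2)).Sublist L := by
    have e : FreeGroup.reduce L = z.left.toWord.map fun p => ((p.1.1 : B.Pts), p.2) := by
      rw [← FreeGroup.toWord_mk, hL]
      have : (B.incl z).left = FreeGroup.mk (z.left.toWord.map fun p => ((p.1.1 : B.Pts), p.2)) := by
        have e1 : (B.incl z).left = FreeGroup.map (fun o : B.Orb => o.1) z.left := by
          simp [Base.incl]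
        rw [e1]
        exact (congrArg _ z.left.mk_toWord.symm).trans (FreeGroup.map.mk ..)
      rw [this, FreeGroup.toWord_mk]
      refine FreeGroup.IsReduced.reduce_eq ?_
      rw [FreeGroup.IsReduced, List.isChain_map]
      exact z.left.isReduced_toWord.imp fun p q hpq hpq' => hpq (Subtype.ext hpq')
    exact e ▸ FreeGroup.reduce.red.sublist
  have hO' : Occ S (B.om 1 * HNNExtension.of B.p0 * 1)
      ((z.left.toWord).map fun p => ((p.1.1 : B.Pts), p.2)) (B.incl z).right n := by
    have h0 : Cost (gen2 (R := B.R) S.gen) ((HNNExtension.of B.p0 : B.W2)⁻¹ * 1) 0 := by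
      simpa using cost_of (R := B.R) (Cost.inv' S.inv S.p0_zero)
    have h1 := (hO.sublist hsub).left h0
    rw [Nat.zero_add] at h1
    simpa using h1
  obtain ⟨a', ha', hc⟩ := phi_points S _ 1 1 _ n 1 B.EE2.one_mem (by simp) hO'
  have hψ : (B.psi z.right).norm ≤ n := by
    have hr : Cost (gen2 (R := B.R) S.gen) (B.om z.right) n := by
      have := (hO.sublist (List.nil_sublist L))
      simpa [Occ, Base.incl] using this
    simpa [ht_om] using B.ht_le S hr 0
  have hφ : B.phi z = ((B.gF 1)⁻¹ * FreeGroup.lift B.orbVal (FreeGroup.mk z.left.toWord) *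
      B.gF a') * B.gF (a'⁻¹ * B.psi z.right) := by
    rw [FreeGroup.mk_toWord, map_one, inv_one, one_mul, map_mul, map_inv]
    conv_lhs => rw [← SemidirectProduct.inl_left_mul_inr_right z]
    simp [Base.phi, mul_assoc]
    rfl
  rw [hφ]
  refine (hc.mul (cost_gF _)).mono ?_
  have h1 := FreeGroup.norm_mul_le a'⁻¹ (B.psi z.right)
  simp only [inv_one, one_mul, FreeGroup.norm_inv_eq] at ha' h1
  omega

end Base

end Vale.Agent.P193.C
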