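import Vale.Agent.P193.C.Defs

/-!
# P193, piece C: the group `W` of a machine (PROOF v4, C1)

A word in the stable letters *runs* from a point `P` to a point `P'` when its letters, read from the
right, move the point from `P` to `P'`. The peeling lemma `exists_peel` says that in
`ω · P · ξ` (`ω` a reduced letter word, `ξ` a reduced edge word) only a runnable piece at the
junction cancels. Hence `ω P = P' ω̂` forces `ω` to run (`run_of_eq`), and the statements of C1
follow: `edgeRed`, `accLink`, `key`.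
-/

noncomputable section

namespace Vale.Agent.P193.C.Mach

open Multiplicative MHNN

variable {k : ℕ} (M : Mach k)

/-! ### Homomorphisms -/

/-- The value of a letter in `F`. -/
def hL : M.Letter → F k
  | .rule _ => 1
  | .q i => FreeGroup.of i
  | .e i => FreeGroup.of i

/-- The `F` coordinate. -/
def H : M.W →* F k :=
  liftPair M.dom M.cod M.dom_injective M.cod_injective (MonoidHom.snd _ _) M.hL
    (by
      intro r p
      cases r <;> simp [hL, dom, cod, MulAut.conj_apply])

@[simp] theorem H_ofG (g : G0 k) : M.H (M.ofG g) = g.2 := liftPair_of ..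

@[simp] theorem H_tL (r : M.Letter) : M.H (M.tL r) = M.hL r := liftPair_t ..

theorem H_q (a : F k) : M.H (M.q a) = a := by
  have h : M.H.comp M.q = MonoidHom.id _ :=
    FreeGroup.ext_hom _ _ fun i => by simp [q, hL]
  exact DFunLike.congr_fun h a

/-- The letters as a map on the free group. -/
abbrev T : FreeGroup M.Letter →* M.W := MHNN.ofFree

/-- The edges as a map on the free group. -/
def Ed : FreeGroup M.Letter →* M.W := FreeGroup.lift fun r => (M.edge r)⁻¹

theorem H_T (z : FreeGroup M.Letter) : M.H (M.T z) = FreeGroup.lift M.hL z := by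
  refine DFunLike.congr_fun (f := M.H.comp M.T) (FreeGroup.ext_hom _ _ fun r => ?_) z
  simp [T]

@[simp] theorem H_edge (r : M.Letter) : M.H (M.edge r) = 1 := by
  cases r <;> simp [edge, hL, src, tgt, tau]

@[simp] theorem H_Ed (z : FreeGroup M.Letter) : M.H (M.Ed z) = 1 := by
  refine DFunLike.congr_fun (f := M.H.comp M.Ed) (g := 1) (FreeGroup.ext_hom _ _ fun r => ?_) z
  simp [Ed]

theorem toFree_T (z : FreeGroup M.Letter) : toFree (M.T z) = z := by
  refine DFunLike.congr_fun (f := toFree.comp M.T) (g := MonoidHom.id _)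
    (FreeGroup.ext_hom _ _ fun r => ?_) z
  simp [T]

theorem toFree_Ed (z : FreeGroup M.Letter) : toFree (M.Ed z) = z := by
  refine DFunLike.congr_fun (f := toFree.comp M.Ed) (g := MonoidHom.id _)
    (FreeGroup.ext_hom _ _ fun r => ?_) z
  simp [Ed, edge, ofG, tL]

theorem Ed_mem (z : FreeGroup M.Letter) : M.Ed z ∈ M.EE := by
  have h : M.Ed.range ≤ M.EE := FreeGroup.range_lift_le (by
    rintro _ ⟨r, rfl⟩
    exact M.EE.inv_mem (Subgroup.subset_closure ⟨r, rfl⟩))
  exact h ⟨z, rfl⟩

theorem exists_Ed {x : M.W} (hx : x ∈ M.EE) : ∃ z, M.Ed z = x := by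
  have h : M.EE ≤ M.Ed.range := (Subgroup.closure_le _).2 (by
    rintro _ ⟨r, rfl⟩
    exact ⟨(FreeGroup.of r)⁻¹, by simp [Ed]⟩)
  exact h hx

/-- W2. -/
theorem edgeRed : M.EdgeRedStmt := by
  rintro ω ⟨g, hg⟩
  have he : FreeGroup.lift M.edge ω = M.Ed (FreeGroup.lift (fun r => (FreeGroup.of r)⁻¹) ω) := by
    refine DFunLike.congr_fun (g := M.Ed.comp (FreeGroup.lift fun r => (FreeGroup.of r)⁻¹))
      (FreeGroup.ext_hom _ _ fun r => ?_) ω
    simp [Ed]
  have h1 := congrArg toFree hg
  rw [he, M.toFree_Ed, toFree_of] at h1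
  have h2 : (FreeGroup.lift fun r => (FreeGroup.of r)⁻¹).comp
      (FreeGroup.lift fun r => (FreeGroup.of r)⁻¹) = MonoidHom.id (FreeGroup M.Letter) :=
    FreeGroup.ext_hom _ _ fun r => by simp
  have h3 := DFunLike.congr_fun h2 ω
  rw [MonoidHom.comp_apply, ← h1, map_one] at h3
  exact h3.symm

/-! ### Moves -/

/-- The conjugation domain of a signed letter. -/
abbrev sub (a : M.Letter × Bool) : Subgroup (G0 k) :=
  toSub (fun r => (M.dom r).range) (fun r => (M.cod r).range) a

/-- The point moved by a signed letter. -/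
def srcS (a : M.Letter × Bool) : G0 k := cond a.2 (M.src a.1) (M.tgt a.1)

/-- Where it goes. -/
def tgtS (a : M.Letter × Bool) : G0 k := M.srcS (op a)

/-- A signed letter moves the point `Q` to `Q'`. -/
def Moves (a : M.Letter × Bool) (Q Q' : G0 k) : Prop :=
  ∃ p : M.sub a, Q = p * M.srcS a ∧ Q' = (toSubEquiv M.iso a p : G0 k) * M.tgtS a

theorem Ed_single (a : M.Letter × Bool) :
    M.Ed (FreeGroup.mk [a]) = (M.ofG (M.tgtS a))⁻¹ * tw a * M.ofG (M.srcS a) := by
  obtain ⟨r, _ | _⟩ := a <;>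
    simp [Ed, FreeGroup.lift_mk, edge, tgtS, srcS, op, mul_assoc]

theorem T_single (a : M.Letter × Bool) : M.T (FreeGroup.mk [a]) = tw a := by
  obtain ⟨r, _ | _⟩ := a
  · change M.T (FreeGroup.of r)⁻¹ = _
    simp [T]
  · rfl

theorem T_cons (a : M.Letter × Bool) (L : List (M.Letter × Bool)) :
    M.T (FreeGroup.mk (a :: L)) = tw a * M.T (FreeGroup.mk L) := by
  rw [← T_single, ← map_mul, FreeGroup.mul_mk, List.singleton_append]

theorem Ed_cons (a : M.Letter × Bool) (L : List (M.Letter × Bool)) :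
    M.Ed (FreeGroup.mk (a :: L)) =
      (M.ofG (M.tgtS a))⁻¹ * tw a * M.ofG (M.srcS a) * M.Ed (FreeGroup.mk L) := by
  rw [← Ed_single, ← map_mul, FreeGroup.mul_mk, List.singleton_append]

variable {M}

theorem Moves.eq {a : M.Letter × Bool} {Q Q' : G0 k} (h : M.Moves a Q Q') :
    tw a * M.ofG Q = M.ofG Q' * M.Ed (FreeGroup.mk [a]) := by
  obtain ⟨p, rfl, rfl⟩ := h
  rw [Ed_single, map_mul, map_mul, ← mul_assoc, tw_mul_of]
  simp [mul_assoc]

theorem Moves.symm {a : M.Letter × Bool} {Q Q' : G0 k} (h : M.Moves a Q Q') :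
    M.Moves (op a) Q' Q := by
  obtain ⟨p, rfl, rfl⟩ := h
  exact ⟨toSubEquiv M.iso a p, rfl, by rw [toSubEquiv_op_apply, tgtS, op_op]⟩

theorem Moves.of_false {r : M.Letter} {Q Q' : G0 k} (h : M.Moves (r, false) Q Q') :
    M.Moves (r, true) Q' Q := h.symm

theorem Moves.unique {a : M.Letter × Bool} {Q Q₁ Q₂ : G0 k} (h₁ : M.Moves a Q Q₁)
    (h₂ : M.Moves a Q Q₂) : Q₁ = Q₂ := by
  obtain ⟨p, rfl, rfl⟩ := h₁
  obtain ⟨p', he, rfl⟩ := h₂
  rw [Subtype.ext (mul_right_cancel he)]

theorem moves_true_iff {r : M.Letter} {Q Q' : G0 k} :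
    M.Moves (r, true) Q Q' ↔
      ∃ p, Q = M.dom r p * M.src r ∧ Q' = M.cod r p * M.tgt r := by
  constructor
  · rintro ⟨⟨_, p, rfl⟩, hQ, hQ'⟩
    refine ⟨p, hQ, hQ'.trans ?_⟩
    congr 1
    exact pairEquiv_apply M.dom M.cod M.dom_injective M.cod_injective r p
  · rintro ⟨p, rfl, rfl⟩
    refine ⟨⟨M.dom r p, p, rfl⟩, rfl, ?_⟩
    congr 1
    exact (pairEquiv_apply M.dom M.cod M.dom_injective M.cod_injective r p).symm

variable (M)

/-- The point of a position. -/
abbrev pt (Q : G0 k) : Pt := Q.1.toAdd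

theorem moves_rule (i : Fin M.rules.length) {x : Pt} (hx : (M.rules[i]).Mem x) (f : F k) :
    M.Moves (.rule i, true) (tau x f) (tau ((M.rules[i]).app x) f) := by
  obtain ⟨⟨m, hm⟩, ⟨n, hn⟩⟩ := hx
  simp only [Fin.getElem_fin] at hm hn ⊢
  refine moves_true_iff.2 ⟨tau (m, n) f, ?_, ?_⟩
  · refine Prod.ext (toAdd.injective (Prod.ext ?_ ?_)) (by simp [dom, src, tau])
    · simp [dom, src, tau, scale]; linarith
    · simp [dom, src, tau, scale]; linarith
  · have hm' : (x.1 - (M.rules[i.1]).a) / ((M.rules[i.1]).M + 1 : ℤ) = m := by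
      rw [hm, Int.mul_ediv_cancel_left _ (by omega)]
    have hn' : (x.2 - (M.rules[i.1]).b) / ((M.rules[i.1]).N + 1 : ℤ) = n := by
      rw [hn, Int.mul_ediv_cancel_left _ (by omega)]
    refine Prod.ext (toAdd.injective (Prod.ext ?_ ?_)) (by simp [cod, tgt, tau])
    · simp [cod, tgt, tau, scale, Move.app, hm']; ring
    · simp [cod, tgt, tau, scale, Move.app, hn']; ring

theorem moves_q (i : Fin k) (x : Pt) (f : F k) :
    M.Moves (.q i, true) (tau x f)
      (tau ((base k : ℤ) * x.1 + ((i : ℤ) + 1), x.2) (FreeGroup.of i * f)) := by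
  refine moves_true_iff.2 ⟨tau x f, (mul_one _).symm, ?_⟩
  refine Prod.ext (toAdd.injective (Prod.ext ?_ ?_)) ?_
  · simp [cod, tgt, tau, scale]
  · simp [cod, tgt, tau, scale]
  · simp [cod, tgt, tau, MulAut.conj_apply]

theorem moves_q_start (i : Fin k) (u : List (Fin k)) :
    M.Moves (.q i, true) (M.start u) (M.start (i :: u)) := by
  have h := M.moves_q i (encode u, M.origin) (val u)
  simpa [start, encode, val] using h

theorem moves_e (i : Fin k) (f : F k) :
    M.Moves (.e i, true) (tau M.final f) (tau M.final (FreeGroup.of i * f)) :=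
  moves_true_iff.2 ⟨f, by simp [dom, src, tau], by simp [cod, tgt, tau, MulAut.conj_apply]⟩

/-! ### Runs -/

/-- The word, read from the right, moves `P` to `P'`. -/
def Run : List (M.Letter × Bool) → G0 k → G0 k → Prop
  | [], P, P' => P' = P
  | a :: L, P, P' => ∃ Q, Run L P Q ∧ M.Moves a Q P'

theorem run_append {A B : List (M.Letter × Bool)} {P P' : G0 k} :
    M.Run (A ++ B) P P' ↔ ∃ Q, M.Run B P Q ∧ M.Run A Q P' := by
  induction A generalizing P' with
  | nil => simp [Run]
  | cons a A ih =>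
    simp only [List.cons_append, Run, ih]
    constructor
    · rintro ⟨Q, ⟨R, h₁, h₂⟩, h₃⟩
      exact ⟨R, h₁, Q, h₂, h₃⟩
    · rintro ⟨R, h₁, Q, h₂, h₃⟩
      exact ⟨Q, ⟨R, h₁, h₂⟩, h₃⟩

theorem run_singleton {a : M.Letter × Bool} {P P' : G0 k} :
    M.Run [a] P P' ↔ M.Moves a P P' := by simp [Run]

variable {M}

theorem Run.eq {L : List (M.Letter × Bool)} {P P' : G0 k} (h : M.Run L P P') :
    M.T (FreeGroup.mk L) * M.ofG P = M.ofG P' * M.Ed (FreeGroup.mk L) := by
  induction L generalizing P' with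
  | nil =>
    obtain rfl : P' = P := h
    rw [← FreeGroup.one_eq_mk]
    simp
  | cons a L ih =>
    obtain ⟨Q, hQ, ha⟩ := h
    rw [M.T_cons, mul_assoc, ih hQ, ← mul_assoc, ha.eq, M.Ed_single, M.Ed_cons]
    simp [mul_assoc]

theorem Run.invRev {L : List (M.Letter × Bool)} {P P' : G0 k} (h : M.Run L P P') :
    M.Run (FreeGroup.invRev L) P' P := by
  induction L generalizing P' with
  | nil => exact (show P' = P from h).symm
  | cons a L ih =>
    obtain ⟨Q, hQ, ha⟩ := h
    rw [FreeGroup.invRev_cons, run_append]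
    exact ⟨Q, (M.run_singleton).2 ha.symm, ih hQ⟩

/-- The `F` coordinate along a run. -/
theorem Run.snd {L : List (M.Letter × Bool)} {P P' : G0 k} (h : M.Run L P P') :
    P'.2 = FreeGroup.lift M.hL (FreeGroup.mk L) * P.2 := by
  simpa [H_T] using (congrArg M.H h.eq).symm

/-! ### Peeling -/

variable (M)

/-- The head of the word `L · g`. -/
def letHead : List (M.Letter × Bool) → G0 k → G0 k
  | [], g => g
  | _ :: _, _ => 1

/-- The syllables of the word `L · g`. -/
def letList : List (M.Letter × Bool) → G0 k → List ((M.Letter × Bool) × G0 k)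
  | [], _ => []
  | a :: L, g => (a, M.letHead L g) :: letList L g

/-- The head of the word `g · L̂`. -/
def edgeHead (g : G0 k) : List (M.Letter × Bool) → G0 k
  | [] => g
  | a :: _ => g * (M.tgtS a)⁻¹

/-- The syllables of the word `g · L̂`. -/
def edgeList : List (M.Letter × Bool) → List ((M.Letter × Bool) × G0 k)
  | [] => []
  | a :: L => (a, M.edgeHead (M.srcS a) L) :: edgeList L

/-- The head of the word `ω · P · ξ̂`. -/
def jHead (ω : List (M.Letter × Bool)) (P : G0 k) (ξ : List (M.Letter × Bool)) : G0 k :=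
  M.letHead ω (M.edgeHead P ξ)

/-- The syllables of the word `ω · P · ξ̂`. -/
def jList (ω : List (M.Letter × Bool)) (P : G0 k) (ξ : List (M.Letter × Bool)) :
    List ((M.Letter × Bool) × G0 k) :=
  M.letList ω (M.edgeHead P ξ) ++ M.edgeList ξ

@[simp] theorem map_fst_letList (L : List (M.Letter × Bool)) (g : G0 k) :
    (M.letList L g).map Prod.fst = L := by
  induction L with
  | nil => rfl
  | cons a L ih => simp [letList, ih]

@[simp] theorem map_fst_edgeList (L : List (M.Letter × Bool)) :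
    (M.edgeList L).map Prod.fst = L := by
  induction L with
  | nil => rfl
  | cons a L ih => simp [edgeList, ih]

@[simp] theorem map_fst_jList (ω : List (M.Letter × Bool)) (P : G0 k)
    (ξ : List (M.Letter × Bool)) : (M.jList ω P ξ).map Prod.fst = ω ++ ξ := by
  simp [jList]

theorem letWord_eq (L : List (M.Letter × Bool)) (g : G0 k) :
    M.ofG (M.letHead L g) * wprod M.iso (M.letList L g) =
      M.T (FreeGroup.mk L) * M.ofG g := by
  induction L with
  | nil => rw [← FreeGroup.one_eq_mk]; simp [letHead, letList]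
  | cons a L ih =>
    rw [show M.letHead (a :: L) g = 1 from rfl, letList, wprod_cons, M.T_cons, map_one, one_mul,
      mul_assoc, ih, mul_assoc]

theorem edgeWord_eq (g : G0 k) (L : List (M.Letter × Bool)) :
    M.ofG (M.edgeHead g L) * wprod M.iso (M.edgeList L) =
      M.ofG g * M.Ed (FreeGroup.mk L) := by
  induction L generalizing g with
  | nil => rw [← FreeGroup.one_eq_mk]; simp [edgeHead, edgeList]
  | cons a L ih =>
    rw [show M.edgeHead g (a :: L) = g * (M.tgtS a)⁻¹ from rfl, edgeList, wprod_cons, M.Ed_cons,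
      map_mul, map_inv]
    simp only [mul_assoc]
    rw [ih]

theorem jWord_eq (ω : List (M.Letter × Bool)) (P : G0 k) (ξ : List (M.Letter × Bool)) :
    M.ofG (M.jHead ω P ξ) * wprod M.iso (M.jList ω P ξ) =
      M.T (FreeGroup.mk ω) * M.ofG P * M.Ed (FreeGroup.mk ξ) := by
  rw [jHead, jList, wprod_append, ← mul_assoc, letWord_eq, mul_assoc, edgeWord_eq, mul_assoc]

theorem letHead_one (L : List (M.Letter × Bool)) : M.letHead L 1 = 1 := by
  cases L <;> rfl

theorem letList_concat (L : List (M.Letter × Bool)) (a : M.Letter × Bool) (g : G0 k) :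
    M.letList (L ++ [a]) g = M.letList L 1 ++ [(a, g)] := by
  induction L with
  | nil => rfl
  | cons b L ih =>
    simp only [List.cons_append, letList, ih, letHead_one]
    cases L <;> rfl

/-- W3: only a runnable piece at the junction cancels. -/
theorem exists_peel (ω ξ : List (M.Letter × Bool)) (P : G0 k) (hω : FreeGroup.IsReduced ω)
    (hξ : FreeGroup.IsReduced ξ) :
    ∃ ω₁ π ξ₁ P', ω = ω₁ ++ π ∧ ξ = FreeGroup.invRev π ++ ξ₁ ∧ M.Run π P P' ∧
      Red (fun r => (M.dom r).range) (fun r => (M.cod r).range) (M.jList ω₁ P' ξ₁) := by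
  induction ω using List.reverseRecOn generalizing ξ P with
  | nil => exact ⟨[], [], ξ, P, rfl, rfl, rfl, red_of_isReduced (by simpa using hξ)⟩
  | append_singleton L a ih =>
    by_cases hp : ξ.head? = some (op a) ∧ P * (M.srcS a)⁻¹ ∈ M.sub a
    · obtain ⟨hh, hmem⟩ := hp
      obtain ⟨ξ', rfl⟩ : ∃ ξ', ξ = op a :: ξ' := by
        cases ξ with
        | nil => simp at hh
        | cons b ξ' => exact ⟨ξ', by simp at hh; rw [hh]⟩
      have hmv : M.Moves a P ((toSubEquiv M.iso a ⟨_, hmem⟩ : G0 k) * M.tgtS a) :=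
        ⟨⟨_, hmem⟩, by simp, rfl⟩
      obtain ⟨ω₁, π, ξ₁, P', rfl, hξ', hr, hred⟩ := ih ξ'
        ((toSubEquiv M.iso a ⟨_, hmem⟩ : G0 k) * M.tgtS a)
        (List.IsChain.left_of_append hω) (List.IsChain.tail hξ)
      refine ⟨ω₁, π ++ [a], ξ₁, P', by simp, ?_, ?_, hred⟩
      · rw [FreeGroup.invRev_append, hξ']
        simp [FreeGroup.invRev, op]
      · exact (M.run_append).2 ⟨_, (M.run_singleton).2 hmv, hr⟩
    · refine ⟨L ++ [a], [], ξ, P, by simp, rfl, rfl, red_append.2
        ⟨red_of_isReduced (by simpa using hω), red_of_isReduced (by simpa using hξ), ?_⟩⟩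
      intro x hx y hy
      rw [letList_concat] at hx
      obtain rfl : (a, M.edgeHead P ξ) = x := by simpa using hx
      cases ξ with
      | nil => simp [edgeList] at hy
      | cons b ξ' =>
        obtain rfl : (b, M.edgeHead (M.srcS b) ξ') = y := by simpa [edgeList] using hy
        intro hm hb
        refine hp ⟨by simpa using hb, ?_⟩
        simp only [edgeHead, tgtS] at hm
        rw [show b = op a from hb, op_op] at hm
        exact hm

/-- The reduced letters of a peeled word occur in every equal word. -/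
theorem peel_sublist {ω₁ π ξ₁ : List (M.Letter × Bool)} {P P' : G0 k} (hr : M.Run π P P')
    (hred : Red (fun r => (M.dom r).range) (fun r => (M.cod r).range) (M.jList ω₁ P' ξ₁))
    {h : G0 k} {l : List ((M.Letter × Bool) × G0 k)}
    (heq : M.T (FreeGroup.mk (ω₁ ++ π)) * M.ofG P *
        M.Ed (FreeGroup.mk (FreeGroup.invRev π ++ ξ₁)) = M.ofG h * wprod M.iso l) :
    (ω₁ ++ ξ₁).Sublist (l.map Prod.fst) := by
  have he : M.ofG (M.jHead ω₁ P' ξ₁) * wprod M.iso (M.jList ω₁ P' ξ₁) =
      M.ofG h * wprod M.iso l := by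
    rw [jWord_eq, ← heq, ← FreeGroup.mul_mk, ← FreeGroup.mul_mk, ← FreeGroup.inv_mk, map_mul,
      map_mul, map_inv, mul_assoc (M.T _) (M.T _), hr.eq]
    simp [mul_assoc]
  simpa using sublist_of_prod_eq hred he

/-- A reduced word that carries a point to a point runs there. -/
theorem run_of_eq {L : List (M.Letter × Bool)} {P P' : G0 k} (hL : FreeGroup.IsReduced L)
    (h : M.T (FreeGroup.mk L) * M.ofG P = M.ofG P' * M.Ed (FreeGroup.mk L)) :
    M.Run L P P' := by
  obtain ⟨ω₁, π, ξ₁, P'', rfl, hξ, hr, hred⟩ :=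
    M.exists_peel L (FreeGroup.invRev L) P hL
      (FreeGroup.IsReduced.of_reduce_eq (by rw [FreeGroup.reduce_invRev, hL.reduce_eq]))
  have he : M.T (FreeGroup.mk (ω₁ ++ π)) * M.ofG P *
      M.Ed (FreeGroup.mk (FreeGroup.invRev π ++ ξ₁)) = M.ofG P' * wprod M.iso [] := by
    rw [← hξ, h, ← FreeGroup.inv_mk, map_inv]
    simp
  have hnil := M.peel_sublist hr hred he
  simp only [List.map_nil, List.sublist_nil, List.append_eq_nil_iff] at hnil
  obtain ⟨rfl, rfl⟩ := hnil
  have h' : M.T (FreeGroup.mk π) * M.ofG P = M.ofG P' * M.Ed (FreeGroup.mk π) := h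
  rw [hr.eq, mul_left_inj] at h'
  rwa [← (show P'' = P' from of_injective h')]

/-! ### Runs of `R` and of the loading letters -/

theorem live_final : M.live M.final = true := (M.live_iff _).2 .refl

theorem live_step {x x' : Pt} (h : Step M.rules x x') : M.live x = M.live x' := by
  rw [Bool.eq_iff_iff, M.live_iff, M.live_iff]
  refine ⟨fun hx => ?_, fun hx => hx.head h⟩
  rcases hx.cases_head with rfl | ⟨z, ⟨r, hr, hrm, rfl⟩, hz⟩
  · exact absurd h (M.final_stuck _)
  · obtain ⟨r', hr', hrm', rfl⟩ := h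
    rwa [M.deterministic r' hr' r hr x hrm' hrm]

variable {M}

theorem Moves.rule_step {i : Fin M.rules.length} {Q Q' : G0 k}
    (h : M.Moves (.rule i, true) Q Q') : Step M.rules (pt Q) (pt Q') ∧ Q'.2 = Q.2 := by
  obtain ⟨p, rfl, rfl⟩ := moves_true_iff.1 h
  refine ⟨⟨M.rules[i], List.getElem_mem _, ⟨⟨p.1.toAdd.1, ?_⟩, ⟨p.1.toAdd.2, ?_⟩⟩, ?_⟩, ?_⟩
  · simp [pt, dom, src, tau, scale]
  · simp [pt, dom, src, tau, scale]
  · have h1 : ((M.rules[i.1]).M + 1 : ℤ) ≠ 0 := by omega
    have h2 : ((M.rules[i.1]).N + 1 : ℤ) ≠ 0 := by omega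
    ext <;> simp [pt, dom, src, cod, tgt, tau, scale, Move.app,
      Int.mul_ediv_cancel_left _ h1, Int.mul_ediv_cancel_left _ h2] <;> ring
  · simp [dom, src, cod, tgt, tau]

theorem Moves.q_fst {i : Fin k} {Q Q' : G0 k} (h : M.Moves (.q i, true) Q Q') :
    (pt Q').1 = (base k : ℤ) * (pt Q).1 + ((i : ℤ) + 1) := by
  obtain ⟨p, rfl, rfl⟩ := moves_true_iff.1 h
  simp [pt, dom, src, cod, tgt, tau, scale]

theorem Moves.e_fst {i : Fin k} {Q Q' : G0 k} (h : M.Moves (.e i, true) Q Q') :
    pt Q = M.final ∧ pt Q' = M.final := by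
  obtain ⟨p, rfl, rfl⟩ := moves_true_iff.1 h
  simp [pt, dom, src, cod, tgt, tau]

/-- A letter of `R` keeps liveness, and moves the `F` coordinate only on live points. -/
theorem Moves.isR {a : M.Letter × Bool} (ha : M.isR a.1) {Q Q' : G0 k} (h : M.Moves a Q Q') :
    M.live (pt Q') = M.live (pt Q) ∧ (M.live (pt Q) = false → Q'.2 = Q.2) := by
  have main : ∀ (r : M.Letter), M.isR r → ∀ Q Q', M.Moves (r, true) Q Q' →
      M.live (pt Q') = M.live (pt Q) ∧ (M.live (pt Q) = false → Q'.2 = Q.2) := by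
    intro r hr Q Q' h
    cases r with
    | rule i => exact ⟨(M.live_step h.rule_step.1).symm, fun _ => h.rule_step.2⟩
    | q i => exact hr.elim
    | e i => simp [h.e_fst.1, h.e_fst.2, M.live_final]
  obtain ⟨r, _ | _⟩ := a
  · obtain ⟨h1, h2⟩ := main r ha Q' Q h.of_false
    exact ⟨h1.symm, fun hl => (h2 (h1 ▸ hl)).symm⟩
  · exact main r ha Q Q' h

/-- A run of `R` keeps liveness, and moves the `F` coordinate only on live points. -/
theorem Run.isR {L : List (M.Letter × Bool)} {Q Q' : G0 k} (h : M.Run L Q Q')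
    (hL : ∀ a ∈ L, M.isR a.1) :
    M.live (pt Q') = M.live (pt Q) ∧ (M.live (pt Q) = false → Q'.2 = Q.2) := by
  induction L generalizing Q' with
  | nil => simp [show Q' = Q from h]
  | cons a L ih =>
    obtain ⟨Q₁, h₁, ha⟩ := h
    simp only [List.forall_mem_cons] at hL
    obtain ⟨i1, i2⟩ := ih h₁ hL.2
    obtain ⟨j1, j2⟩ := ha.isR hL.1
    exact ⟨j1.trans i1, fun hl => (j2 (i1 ▸ hl)).trans (i2 hl)⟩

/-- A run of `R` through an `e` letter is on live points. -/
theorem Run.live_of_e_mem {L : List (M.Letter × Bool)} {Q Q' : G0 k} (h : M.Run L Q Q')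
    (hL : ∀ a ∈ L, M.isR a.1) {i : Fin k} {b : Bool} (he : (.e i, b) ∈ L) :
    M.live (pt Q) = true := by
  obtain ⟨A, B, rfl⟩ := List.append_of_mem he
  obtain ⟨Q₁, hB, hA⟩ := M.run_append.1 h
  obtain ⟨Q₀, hB', ha⟩ := hB
  have hQ₀ : M.live (pt Q₀) = true := by
    cases b
    · rw [ha.of_false.e_fst.2]; exact M.live_final
    · rw [ha.e_fst.1]; exact M.live_final
  rw [← (hB'.isR fun a ha => hL a (by simp [ha])).1, hQ₀]

variable (M)

/-- A signed loading letter. -/
abbrev qE (a : Fin k × Bool) : M.Letter × Bool := (.q a.1, a.2)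

theorem val_eq_mk (u : List (Fin k)) : val u = FreeGroup.mk (u.map fun i => (i, true)) := by
  induction u with
  | nil => rfl
  | cons i u ih =>
    simp only [val, List.map_cons, List.prod_cons] at ih ⊢
    rw [ih]
    rfl

/-- A runnable block of loading letters from the start point is positive. -/
theorem positive_of_run {w : List (Fin k × Bool)} (hw : FreeGroup.IsReduced w) {Q : G0 k}
    (h : M.Run (w.map M.qE) M.P0 Q) : ∃ u, w = u.map (·, true) ∧ Q = M.start u := by
  induction w generalizing Q with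
  | nil => exact ⟨[], rfl, (show Q = M.P0 from h).trans (by simp [P0, start, val])⟩
  | cons a w ih =>
    obtain ⟨Q₁, h₁, ha⟩ := h
    obtain ⟨u, rfl, rfl⟩ := ih (List.IsChain.tail hw) h₁
    obtain ⟨i, _ | _⟩ := a
    · exfalso
      have he := Moves.q_fst (M := M) ha.of_false
      simp only [pt, start, tau, toAdd_ofAdd] at he
      have hb : (base k : ℤ) = 4 * k + 8 := by simp [base]
      have hi : (i : ℤ) < k := by exact_mod_cast i.2
      have hi0 : (0 : ℤ) ≤ i := Int.natCast_nonneg _
      cases u with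
      | nil =>
        simp only [encode] at he
        have hd : (base k : ℤ) ∣ (i : ℤ) + 2 :=
          ⟨1 - Q.1.toAdd.1, by linarith⟩
        have := Int.le_of_dvd (by omega) hd
        omega
      | cons j u =>
        simp only [encode] at he
        have hj : (j : ℤ) < k := by exact_mod_cast j.2
        have hj0 : (0 : ℤ) ≤ j := Int.natCast_nonneg _
        have hd : (base k : ℤ) ∣ (i : ℤ) - j :=
          ⟨encode u - Q.1.toAdd.1, by linarith⟩
        have hij := Int.eq_zero_of_abs_lt_dvd hd (by rw [abs_lt]; constructor <;> omega)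
        have := (FreeGroup.isReduced_cons_cons.1 hw).1 (Fin.ext (by simp; omega))
        simp at this
    · exact ⟨i :: u, rfl, Moves.unique ha (M.moves_q_start i u)⟩

/-! ### The statements of C1 -/

theorem q_eq_T (c : F k) : M.q c = M.T (FreeGroup.map Letter.q c) := by
  refine DFunLike.congr_fun (g := M.T.comp (FreeGroup.map Letter.q))
    (FreeGroup.ext_hom _ _ fun i => ?_) c
  simp [q, T]

/-- The elements of `R` are the values of reduced words in its letters. -/
theorem exists_word_of_mem_R {r : M.W} (hr : r ∈ M.R) :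
    ∃ L, FreeGroup.IsReduced L ∧ (∀ a ∈ L, M.isR a.1) ∧ M.T (FreeGroup.mk L) = r := by
  classical
  have h : M.R ≤ (M.T.comp (FreeGroup.map (Subtype.val : {r // M.isR r} → M.Letter))).range :=
    (Subgroup.closure_le _).2 (by
      rintro _ ⟨r, hr, rfl⟩
      exact ⟨FreeGroup.of ⟨r, hr⟩, by simp [T]⟩)
  obtain ⟨z, rfl⟩ := h hr
  refine ⟨z.toWord.map fun a => (a.1.1, a.2), ?_, ?_, ?_⟩
  · exact List.isChain_map_of_isChain _ (fun a b hab he => hab (Subtype.ext he))
      FreeGroup.isReduced_toWord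
  · simp only [List.mem_map]
    rintro _ ⟨a, -, rfl⟩
    exact a.1.2
  · rw [MonoidHom.comp_apply, ← FreeGroup.map.mk, FreeGroup.mk_toWord]

theorem isReduced_map_qE {w : List (Fin k × Bool)} (hw : FreeGroup.IsReduced w) :
    FreeGroup.IsReduced (w.map M.qE) :=
  List.isChain_map_of_isChain _ (fun a b hab he => hab (by simpa [qE] using he)) hw

theorem isReduced_append {A B : List (M.Letter × Bool)} (hA : FreeGroup.IsReduced A)
    (hB : FreeGroup.IsReduced B) (h : ∀ a ∈ A, ∀ b ∈ B, a.1 ≠ b.1) :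
    FreeGroup.IsReduced (A ++ B) :=
  List.isChain_append.2 ⟨hA, hB, fun x hx y hy he =>
    absurd he (h x (List.mem_of_getLast? hx) y (List.mem_of_head? hy))⟩

/-- Two starts linked by `R` are equal or both accepted. -/
theorem key : M.KeyStmt := by
  intro c c' r hr hE
  obtain ⟨η, hη⟩ := M.exists_Ed hE
  obtain ⟨z, hz, hzR, rfl⟩ := M.exists_word_of_mem_R hr
  rw [mul_inv_rev] at hη
  have hH := congrArg M.H hη
  simp only [map_mul, map_inv, H_Ed, H_q, H_ofG, H_T, P0, tau, inv_one, one_mul, mul_one] at hH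
  rcases z with _ | ⟨z₀, z'⟩
  · rw [← FreeGroup.one_eq_mk, map_one, mul_one] at hH
    rw [inv_mul_eq_one.1 hH.symm, inv_mul_cancel]
    exact one_mem _
  · generalize hzdef : z₀ :: z' = z at *
    have hne : z ≠ [] := by simp [← hzdef]
    -- the reduced word
    let A := FreeGroup.invRev (c'.toWord.map M.qE)
    let C := c.toWord.map M.qE
    have hA : FreeGroup.IsReduced A := FreeGroup.IsReduced.of_reduce_eq (by
      rw [FreeGroup.reduce_invRev, (M.isReduced_map_qE FreeGroup.isReduced_toWord).reduce_eq])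
    have hC : FreeGroup.IsReduced C := M.isReduced_map_qE FreeGroup.isReduced_toWord
    have hAz : ∀ a ∈ A, ∀ b ∈ z, a.1 ≠ b.1 := by
      intro a ha b hb he
      have := hzR b hb
      simp only [A, FreeGroup.invRev, List.mem_reverse, List.mem_map] at ha
      obtain ⟨_, ⟨x, -, rfl⟩, rfl⟩ := ha
      rw [← he] at this
      exact this
    have hzC : ∀ a ∈ z, ∀ b ∈ C, a.1 ≠ b.1 := by
      intro a ha b hb he
      have := hzR a ha
      simp only [C, List.mem_map] at hb
      obtain ⟨x, -, rfl⟩ := hb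
      rw [he] at this
      exact this
    have hred : FreeGroup.IsReduced (A ++ z ++ C) :=
      (M.isReduced_append hA hz hAz).append_overlap (M.isReduced_append hz hC hzC) hne
    have hmq : ∀ d : F k, FreeGroup.mk (d.toWord.map M.qE) = FreeGroup.map Letter.q d := by
      intro d
      conv_rhs => rw [← FreeGroup.mk_toWord (x := d), FreeGroup.map.mk]
    have hT : M.T (FreeGroup.mk (A ++ z ++ C)) =
        (M.q c')⁻¹ * M.T (FreeGroup.mk z) * M.q c := by
      rw [← FreeGroup.mul_mk, ← FreeGroup.mul_mk, map_mul, map_mul, q_eq_T, q_eq_T, ← map_inv]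
      simp only [A, C, ← FreeGroup.inv_mk, hmq]
    have hη' : η = FreeGroup.mk (A ++ z ++ C) := by
      have h := congrArg toFree hη
      rw [M.toFree_Ed] at h
      rw [← M.toFree_T (FreeGroup.mk (A ++ z ++ C)), hT, h]
      simp [mul_assoc]
    have hrun : M.Run (A ++ z ++ C) M.P0 M.P0 := by
      refine M.run_of_eq hred ?_
      rw [← hη', hη, hη', hT]
      simp [mul_assoc]
    obtain ⟨Q₁, h₁, h₂⟩ := M.run_append.1 hrun
    obtain ⟨Q₂, hzrun, h₃⟩ := M.run_append.1 h₂
    have h₃' := h₃.invRev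
    simp only [A, FreeGroup.invRev_invRev] at h₃'
    obtain ⟨u, hu, rfl⟩ := M.positive_of_run FreeGroup.isReduced_toWord h₁
    obtain ⟨u', hu', rfl⟩ := M.positive_of_run FreeGroup.isReduced_toWord h₃'
    have hc : c = val u := by rw [val_eq_mk, ← hu, FreeGroup.mk_toWord]
    have hc' : c' = val u' := by rw [val_eq_mk, ← hu', FreeGroup.mk_toWord]
    obtain ⟨hl, hf⟩ := hzrun.isR hzR
    cases hlu : M.live (pt (M.start u)) with
    | false =>
      have : val u' = val u := hf hlu
      rw [hc, hc', this, inv_mul_cancel]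
      exact one_mem _
    | true =>
      have hu1 : M.acc u = true := (M.accepts u).symm.trans hlu
      have hu2 : M.acc u' = true := (M.accepts u').symm.trans (hl.trans hlu)
      rw [hc, hc']
      exact mul_mem (inv_mem (Subgroup.subset_normalClosure ⟨u, hu1, rfl⟩))
        (Subgroup.subset_normalClosure ⟨u', hu2, rfl⟩)

/-- `x` carries the class of `Q` to the class of `Q'`. -/
def Link (x : M.W) (Q Q' : G0 k) : Prop := (M.ofG Q')⁻¹ * x * M.ofG Q ∈ M.EE

variable {M}

theorem Moves.link {a : M.Letter × Bool} {Q Q' : G0 k} (h : M.Moves a Q Q') :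
    M.Link (tw a) Q Q' := by
  rw [Link, mul_assoc, h.eq, inv_mul_cancel_left]
  exact M.Ed_mem _

theorem Link.trans {x y : M.W} {Q Q' Q'' : G0 k} (hx : M.Link x Q Q') (hy : M.Link y Q' Q'') :
    M.Link (y * x) Q Q'' := by
  have h := M.EE.mul_mem hy hx
  simpa [Link, mul_assoc] using h

theorem Link.inv {x : M.W} {Q Q' : G0 k} (hx : M.Link x Q Q') : M.Link x⁻¹ Q' Q := by
  simpa [Link, mul_assoc] using M.EE.inv_mem hx

variable (M)

theorem link_one (Q : G0 k) : M.Link 1 Q Q := by simp [Link, one_mem]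

theorem tL_mem_R {r : M.Letter} (hr : M.isR r) : M.tL r ∈ M.R :=
  Subgroup.subset_closure ⟨r, hr, rfl⟩

theorem link_live {x : Pt} (h : Relation.ReflTransGen (Step M.rules) x M.final) (f : F k) :
    ∃ r ∈ M.R, M.Link r (tau x f) (tau M.final f) := by
  induction h using Relation.ReflTransGen.head_induction_on with
  | refl => exact ⟨1, one_mem _, M.link_one _⟩
  | head hs _ ih =>
    obtain ⟨r, hr, hlink⟩ := ih
    obtain ⟨m, hm, hmem, rfl⟩ := hs
    obtain ⟨i, hi, rfl⟩ := List.getElem_of_mem hm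
    exact ⟨r * M.tL (.rule ⟨i, hi⟩), mul_mem hr (M.tL_mem_R trivial),
      (M.moves_rule ⟨i, hi⟩ hmem f).link.trans hlink⟩

theorem link_final (g : F k) : ∀ f, ∃ r ∈ M.R, M.Link r (tau M.final f) (tau M.final (g * f)) := by
  induction g using FreeGroup.induction_on with
  | C1 => exact fun f => ⟨1, one_mem _, by rw [one_mul]; exact M.link_one _⟩
  | of i => exact fun f => ⟨M.tL (.e i), M.tL_mem_R trivial, (M.moves_e i f).link⟩
  | inv_of i ih =>
    intro f
    obtain ⟨r, hr, h⟩ := ih ((FreeGroup.of i)⁻¹ * f)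
    rw [mul_inv_cancel_left] at h
    exact ⟨r⁻¹, inv_mem hr, h.inv⟩
  | mul a b ha hb =>
    intro f
    obtain ⟨r, hr, h⟩ := hb f
    obtain ⟨r', hr', h'⟩ := ha (b * f)
    exact ⟨r' * r, mul_mem hr' hr, by rw [mul_assoc]; exact h.trans h'⟩

theorem link_start (l : List (Fin k)) : M.Link (M.q (val l)) M.P0 (M.start l) := by
  induction l with
  | nil => simpa [val, P0, start] using M.link_one M.P0
  | cons i l ih =>
    have h := ih.trans (M.moves_q_start i l).link
    simpa [val, q] using h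

/-- Accepted strings are linked to the final point by `R`. -/
theorem accLink : M.AccStmt := by
  intro l hl
  obtain ⟨r, hr, h⟩ := M.link_live ((M.live_iff _).1 ((M.accepts l).trans hl)) (val l)
  obtain ⟨r', hr', h'⟩ := M.link_final (val l)⁻¹ (val l)
  rw [inv_mul_cancel] at h'
  refine ⟨r' * r, mul_mem hr' hr, ?_⟩
  have := (M.link_start l).trans (h.trans h')
  simpa [Link, Pf, mul_assoc] using this

end Vale.Agent.P193.C.Mach
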