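import Vale.Agent.P193.C.Gamma
import Mathlib.GroupTheory.PresentedGroup
import Mathlib.GroupTheory.NoncommCoprod
import Mathlib.GroupTheory.FinitelyPresentedGroup

/-!
# P193, piece C: `L₊`, `K`, the finite presentation of `K`, and `L → K`

`L₊` is an HNN extension of `F × L`, `K` one of `Γ₂ × L₊` along the graph of `φ : Σ → L₊`. `L` embeds in
`K`, and `K` is presented by finitely many relations which do not mention the relators of `L`.
-/

noncomputable section

namespace Vale.Agent.P193.C

open SemidirectProduct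

section Graph

variable {S G H P : Type} [Group S] [Group G] [Group H] [Group P]

theorem prod_injective_of_left {i : S →* G} (hi : Function.Injective i) (f : S →* H) :
    Function.Injective (i.prod f) := fun _ _ h => hi (Prod.ext_iff.1 h).1

/-- The isomorphism from `i S × 1` to the graph of `f`. -/
def graphEquiv (i : S →* G) (hi : Function.Injective i) (f : S →* H) :
    (i.prod (1 : S →* H)).range ≃* (i.prod f).range :=
  (MonoidHom.ofInjective (prod_injective_of_left hi (1 : S →* H))).symm.trans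
    (MonoidHom.ofInjective (prod_injective_of_left hi f))

theorem graphEquiv_apply (i : S →* G) (hi : Function.Injective i) (f : S →* H) (s : S) :
    ((graphEquiv i hi f ⟨(i s, 1), s, rfl⟩ : (i.prod f).range) : G × H) = (i s, f s) := by
  have e : MonoidHom.ofInjective (prod_injective_of_left hi (1 : S →* H)) s =
      (⟨(i s, 1), s, rfl⟩ : (i.prod (1 : S →* H)).range) := Subtype.ext rfl
  rw [graphEquiv, MulEquiv.trans_apply, ← e, MulEquiv.symm_apply_apply]
  rfl

theorem graph_cond (i : S →* G) (hi : Function.Injective i) (f : S →* H) (g : G × H →* P)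
    (x : P) (h : ∀ s, x * g (i s, 1) = g (i s, f s) * x) (a : (i.prod (1 : S →* H)).range) :
    x * g a = g (graphEquiv i hi f a) * x := by
  obtain ⟨_, s, rfl⟩ := a
  exact (h s).trans (by rw [← graphEquiv_apply i hi f s]; rfl)

theorem commute_closure {x : P} {h : G →* P} {T : Set G} (hx : ∀ z ∈ T, Commute x (h z)) {z : G}
    (hz : z ∈ Subgroup.closure T) : Commute x (h z) := by
  induction hz using Subgroup.closure_induction with
  | mem z hz => exact hx z hz
  | one => rw [map_one]; exact Commute.one_right x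
  | mul a b _ _ ha hb => rw [map_mul]; exact ha.mul_right hb
  | inv a _ ha => rw [map_inv]; exact ha.inv_right

theorem commute_free {α : Type} {x : P} {h : FreeGroup α →* P}
    (hx : ∀ a, Commute x (h (FreeGroup.of a))) (z : FreeGroup α) : Commute x (h z) := by
  induction z using FreeGroup.induction_on with
  | C1 => rw [map_one]; exact Commute.one_right x
  | of a => exact hx a
  | inv_of a ha => rw [map_inv]; exact ha.inv_right
  | mul a b ha hb => rw [map_mul]; exact ha.mul_right hb

end Graph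

namespace Base

variable {ι κ W : Type} [Group W] (B : Base ι κ W)

/-- `L₊`. -/
abbrev Lp := HNNExtension (FreeGroup κ × B.L) _ _
  (graphEquiv (MonoidHom.id (FreeGroup κ)) Function.injective_id (QuotientGroup.mk' B.N))

/-- The free factor in `L₊`. -/
def gF : FreeGroup κ →* B.Lp := HNNExtension.of.comp (MonoidHom.inl _ _)

theorem t_gF (a : FreeGroup κ) : (HNNExtension.t : B.Lp) * B.gF a =
    HNNExtension.of (a, (a : B.L)) * HNNExtension.t := by
  have h := HNNExtension.t_mul_of (G := FreeGroup κ × B.L)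
    (φ := graphEquiv (MonoidHom.id (FreeGroup κ)) Function.injective_id (QuotientGroup.mk' B.N))
    ⟨(a, 1), a, rfl⟩
  have e := graphEquiv_apply (MonoidHom.id (FreeGroup κ)) Function.injective_id
    (QuotientGroup.mk' B.N) a
  simp only [MonoidHom.id_apply] at e
  rw [e] at h
  exact h

theorem commute_t_gF {n : FreeGroup κ} (hn : n ∈ B.N) :
    Commute (HNNExtension.t : B.Lp) (B.gF n) := by
  refine (B.t_gF n).trans ?_
  rw [(QuotientGroup.eq_one_iff n).2 hn]
  rfl

/-- The value of `φ` at a point of the orbit. -/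
def orbVal (x : B.Orb) : B.Lp :=
  B.gF (B.psi (B.exists_smul_o0 x).choose) * HNNExtension.t *
    (B.gF (B.psi (B.exists_smul_o0 x).choose))⁻¹

theorem orbVal_smul (ω : Om ι) :
    B.orbVal (ω • B.o0) = B.gF (B.psi ω) * HNNExtension.t * (B.gF (B.psi ω))⁻¹ := by
  have hm := QuotientGroup.eq.1
    (B.psi_eq_of_smul_eq (B.exists_smul_o0 (ω • B.o0)).choose_spec)
  have hc := B.commute_t_gF hm
  rw [orbVal]
  generalize B.psi (B.exists_smul_o0 (ω • B.o0)).choose = a at hc ⊢
  rw [map_mul, map_inv] at hc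
  calc B.gF a * HNNExtension.t * (B.gF a)⁻¹
      = B.gF a * (HNNExtension.t * ((B.gF a)⁻¹ * B.gF (B.psi ω))) * (B.gF (B.psi ω))⁻¹ := by group
    _ = B.gF a * ((B.gF a)⁻¹ * B.gF (B.psi ω) * HNNExtension.t) * (B.gF (B.psi ω))⁻¹ := by
        rw [hc.eq]
    _ = _ := by group

/-- `φ : Σ → L₊`. -/
def phi : B.Sig →* B.Lp :=
  SemidirectProduct.lift (FreeGroup.lift B.orbVal) (B.gF.comp B.psi) fun ω =>
    FreeGroup.ext_hom _ _ fun x => by
      obtain ⟨η, rfl⟩ := B.exists_smul_o0 x
      simp only [MonoidHom.comp_apply, MulEquiv.coe_toMonoidHom, freeAut_of,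
        FreeGroup.lift_apply_of, MulAction.toPermHom_apply, MulAction.toPerm_apply,
        MulAut.conj_apply]
      rw [smul_smul, B.orbVal_smul, B.orbVal_smul, map_mul, map_mul]
      group

/-- `K`. -/
abbrev K := HNNExtension (B.Gam × B.Lp) _ _ (graphEquiv B.incl B.incl_injective B.phi)

/-- `L → K`. -/
def toL : B.L →* B.K :=
  HNNExtension.of.comp ((MonoidHom.inr B.Gam B.Lp).comp
    (HNNExtension.of.comp (MonoidHom.inr (FreeGroup κ) B.L)))

/-- `L` embeds in `K`, whatever the machine accepts. -/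
theorem toL_injective : Function.Injective B.toL := fun a b h => by
  have h1 : ((1 : B.Gam), (HNNExtension.of ((1 : FreeGroup κ), a) : B.Lp)) =
      ((1 : B.Gam), (HNNExtension.of ((1 : FreeGroup κ), b) : B.Lp)) :=
    HNNExtension.of_injective _ h
  exact (Prod.ext_iff.1 (HNNExtension.of_injective _ (Prod.ext_iff.1 h1).2)).2

/-- A finite description of the data: a presentation of `W` and words for the rest. -/
structure Words (α : Type) where
  /-- The evaluation of words. -/
  π : FreeGroup α →* W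
  π_surjective : Function.Surjective π
  /-- The relations of `W`. -/
  relW : Set (FreeGroup α)
  π_ker : π.ker = Subgroup.normalClosure relW
  /-- Generators of `R`. -/
  Rw : Set (FreeGroup α)
  R_eq : B.R = Subgroup.closure (π '' Rw)
  /-- The edges. -/
  Ew : Set (FreeGroup α)
  EE_eq : B.EE = Subgroup.closure (π '' Ew)
  /-- The final point. -/
  pfw : FreeGroup α
  pfw_eq : π pfw = B.pf
  /-- The start point. -/
  p0w : FreeGroup α
  p0w_eq : π p0w = B.p0
  /-- The loading letters. -/
  qw : ι → FreeGroup α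
  qw_eq : ∀ j, π (qw j) = B.q (FreeGroup.of j)

end Base

/-- The generators of `K`. -/
inductive KGen (α κ : Type) : Type
  | w (a : α) | cw | t | y (k : κ) | y' (k : κ) | s | v

instance {α κ : Type} [Finite α] [Finite κ] : Finite (KGen α κ) :=
  Finite.of_surjective (fun x : (α ⊕ κ ⊕ κ) ⊕ Fin 4 => match x with
    | .inl (.inl a) => KGen.w a
    | .inl (.inr (.inl k)) => KGen.y k
    | .inl (.inr (.inr k)) => KGen.y' k
    | .inr i => ![KGen.cw, KGen.t, KGen.s, KGen.v] i) fun g => by
    cases g with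
    | w a => exact ⟨.inl (.inl a), rfl⟩
    | y k => exact ⟨.inl (.inr (.inl k)), rfl⟩
    | y' k => exact ⟨.inl (.inr (.inr k)), rfl⟩
    | cw => exact ⟨.inr 0, rfl⟩
    | t => exact ⟨.inr 1, rfl⟩
    | s => exact ⟨.inr 2, rfl⟩
    | v => exact ⟨.inr 3, rfl⟩

/-- The commutator. -/
def comm {G : Type} [Group G] (a b : G) : G := a * b * a⁻¹ * b⁻¹

theorem comm_eq_one_iff {G : Type} [Group G] {a b : G} : comm a b = 1 ↔ Commute a b := by
  rw [comm, mul_inv_eq_one, mul_inv_eq_iff_eq_mul]
  rfl

theorem map_comm {G H : Type} [Group G] [Group H] (f : G →* H) (a b : G) :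
    f (comm a b) = comm (f a) (f b) := by simp [comm]

namespace Base

variable {ι κ W : Type} [Group W] {B : Base ι κ W} {α : Type} (D : B.Words α)

namespace Words

open KGen

/-- A word of `W` as a word of `K`. -/
abbrev ww : FreeGroup α →* FreeGroup (KGen α κ) := FreeGroup.map w
/-- The first copy of `F`. -/
abbrev yw : FreeGroup κ →* FreeGroup (KGen α κ) := FreeGroup.map y
/-- The word of `t` at the start point. -/
def T0 : FreeGroup (KGen α κ) := ww D.p0w * .of t * (ww D.p0w)⁻¹

/-- The generators of `Γ₂`. -/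
def gamGen : α ⊕ Bool → FreeGroup (KGen α κ) :=
  Sum.elim (fun a => .of (w a)) fun b => .of (bif b then cw else t)

/-- The generators of `L₊`. -/
def lpGen : κ ⊕ κ ⊕ Unit → FreeGroup (KGen α κ) :=
  Sum.elim (fun k => .of (y k)) (Sum.elim (fun k => .of (y' k)) fun _ => .of s)

/-- The relations of `K`. -/
def krels : Set (FreeGroup (KGen α κ)) :=
  ww '' D.relW ∪ (fun r => comm (.of cw) (ww r)) '' D.Rw ∪
  (fun r => comm (.of t) (ww r)) '' D.Ew ∪
  {comm (.of t) ((ww D.pfw)⁻¹ * .of cw * ww D.pfw)} ∪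
  Set.range (fun p : κ × κ => comm (.of (y p.1)) (.of (y' p.2))) ∪
  Set.range (fun k => .of s * .of (y k) * (.of s)⁻¹ * (.of (y k) * .of (y' k))⁻¹) ∪
  Set.range (fun p : (α ⊕ Bool) × (κ ⊕ κ ⊕ Unit) => comm (gamGen p.1) (lpGen p.2)) ∪
  Set.range (fun j => .of v * ww (D.qw j) * (.of v)⁻¹ *
    (ww (D.qw j) * yw (B.valh (.of j)))⁻¹) ∪
  Set.range (fun j => comm (.of v) (.of cw * ww (D.qw j) * (.of cw)⁻¹)) ∪
  {.of v * D.T0 * (.of v)⁻¹ * (D.T0 * .of s)⁻¹}

theorem krels_finite [Finite α] [Finite ι] [Finite κ] (h1 : D.relW.Finite) (h2 : D.Rw.Finite)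
    (h3 : D.Ew.Finite) : D.krels.Finite := by
  unfold krels
  repeat' apply Set.Finite.union
  all_goals first
    | exact Set.finite_singleton _
    | exact Set.finite_range _
    | exact h1.image _
    | exact h2.image _
    | exact h3.image _

/-- The evaluation of words in `K`. -/
def toK : FreeGroup (KGen α κ) →* B.K :=
  FreeGroup.lift fun g => match g with
    | .w a => HNNExtension.of (inr (HNNExtension.of (D.π (.of a))), 1)
    | .cw => HNNExtension.of (inr HNNExtension.t, 1)
    | .t => HNNExtension.of (B.pt ((1 : B.W2) : B.Pts), 1)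
    | .y k => HNNExtension.of (1, B.gF (.of k))
    | .y' k => HNNExtension.of (1, HNNExtension.of (1, (FreeGroup.of k : B.L)))
    | .s => HNNExtension.of (1, HNNExtension.t)
    | .v => HNNExtension.t

theorem toK_ww (x : FreeGroup α) :
    D.toK (ww x) = HNNExtension.of (inr (HNNExtension.of (D.π x)), 1) :=
  DFunLike.congr_fun (f := D.toK.comp ww)
    (g := HNNExtension.of.comp ((MonoidHom.inl _ _).comp (inr.comp (HNNExtension.of.comp D.π))))
    (FreeGroup.ext_hom _ _ fun a => by simp [toK]) x

theorem toK_yw (x : FreeGroup κ) : D.toK (yw x) = HNNExtension.of (1, B.gF x) :=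
  DFunLike.congr_fun (f := D.toK.comp yw)
    (g := HNNExtension.of.comp ((MonoidHom.inr _ _).comp B.gF))
    (FreeGroup.ext_hom _ _ fun a => by simp [toK]) x

theorem v_of (σ : B.Sig) : (HNNExtension.t : B.K) * HNNExtension.of (B.incl σ, 1) *
    (HNNExtension.t : B.K)⁻¹ = HNNExtension.of (B.incl σ, B.phi σ) := by
  have h := HNNExtension.equiv_eq_conj (G := B.Gam × B.Lp)
    (φ := graphEquiv B.incl B.incl_injective B.phi) ⟨(B.incl σ, 1), σ, rfl⟩
  rw [graphEquiv_apply] at h
  exact h.symm

theorem incl_inr (ω : Om ι) : B.incl (inr ω) = inr (B.om ω) := by simp [Base.incl]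

theorem phi_inr (ω : Om ι) : B.phi (inr ω) = B.gF (B.psi ω) := by simp [Base.phi]

theorem pt_smul_one (g : B.W2) : B.pt (g : B.Pts) =
    inr g * B.pt ((1 : B.W2) : B.Pts) * (inr g)⁻¹ := by
  rw [B.conj_pt, MulAction.Quotient.smul_coe, smul_eq_mul, mul_one]

theorem incl_o0 : B.incl (inl (FreeGroup.of B.o0)) = B.pt B.x0 := by
  simp [Base.incl, Base.pt, Base.o0]
  rfl

theorem phi_o0 : B.phi (inl (FreeGroup.of B.o0)) = HNNExtension.t := by
  have h := B.orbVal_smul 1
  rw [one_smul] at h
  simp [Base.phi, h]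

theorem commute_pt_one {g : B.W2} (hg : g ∈ B.EE2) :
    Commute (B.pt ((1 : B.W2) : B.Pts)) (inr g) := by
  refine (mul_inv_eq_iff_eq_mul.1 ?_).symm
  rw [← pt_smul_one]
  exact congrArg B.pt (QuotientGroup.eq.2 (by simpa using hg))

theorem toK_krels {r : FreeGroup (KGen α κ)} (hr : r ∈ D.krels) : D.toK r = 1 := by
  simp only [krels, Set.mem_union, Set.mem_image, Set.mem_range, Set.mem_singleton_iff] at hr
  rcases hr with ((((((((⟨x, hx, rfl⟩ | ⟨x, hx, rfl⟩) | ⟨x, hx, rfl⟩) | rfl) | ⟨p, rfl⟩) |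
    ⟨k, rfl⟩) | ⟨p, rfl⟩) | ⟨j, rfl⟩) | ⟨j, rfl⟩) | rfl
  · have : D.π x = 1 := by
      rw [← MonoidHom.mem_ker, D.π_ker]; exact Subgroup.subset_normalClosure hx
    rw [toK_ww, this, map_one, map_one]
    exact map_one _
  · have hR : D.π x ∈ B.R := by rw [D.R_eq]; exact Subgroup.subset_closure ⟨x, hx, rfl⟩
    rw [map_comm, comm_eq_one_iff, toK_ww]
    simp only [toK, FreeGroup.lift_apply_of]
    refine (Commute.map ?_ HNNExtension.of)
    refine Prod.ext ?_ rfl
    show inr _ * inr _ = inr _ * inr _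
    rw [← map_mul, ← map_mul, HNNExtension.t_mul_of (φ := MulEquiv.refl B.R) ⟨D.π x, hR⟩]
    rfl
  · have hE : D.π x ∈ B.EE := by rw [D.EE_eq]; exact Subgroup.subset_closure ⟨x, hx, rfl⟩
    rw [map_comm, comm_eq_one_iff, toK_ww]
    simp only [toK, FreeGroup.lift_apply_of]
    refine Commute.map ?_ HNNExtension.of
    exact Prod.ext (commute_pt_one (B.of_mem_EE2 hE)).eq rfl
  · rw [map_comm, comm_eq_one_iff, map_mul, map_mul, map_inv, toK_ww, D.pfw_eq]
    simp only [toK, FreeGroup.lift_apply_of]
    rw [← map_inv, ← map_mul, ← map_mul]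
    refine Commute.map (Prod.ext ?_ (by simp)) HNNExtension.of
    have h : Commute (B.pt ((1 : B.W2) : B.Pts)) (inr B.ew) := commute_pt_one B.ew_mem_EE2
    have h' := h.eq
    simpa [Base.ew] using h' 
  · rw [map_comm, comm_eq_one_iff]
    simp only [toK, FreeGroup.lift_apply_of, Base.gF, MonoidHom.comp_apply,
      MonoidHom.inl_apply]
    refine Commute.map ?_ HNNExtension.of
    refine Prod.ext rfl ?_
    show Commute (HNNExtension.of (FreeGroup.of p.1, (1 : B.L)))
      (HNNExtension.of ((1 : FreeGroup κ), (FreeGroup.of p.2 : B.L)))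
    refine Commute.map ?_ HNNExtension.of
    exact Prod.ext (by simp) (by simp)
  · rw [map_mul, map_inv, mul_inv_eq_one]
    simp only [map_mul, map_inv, toK, FreeGroup.lift_apply_of]
    rw [← map_inv, ← map_mul, ← map_mul, ← map_mul]
    refine congrArg _ (Prod.ext (by simp) ?_)
    show HNNExtension.t * B.gF (.of k) * HNNExtension.t⁻¹ = B.gF (.of k) * _
    rw [B.t_gF, mul_inv_cancel_right, Base.gF, MonoidHom.comp_apply, ← map_mul]
    simp
  · rw [map_comm, comm_eq_one_iff]
    rcases p with ⟨a | b, k | k | u⟩ <;> try cases b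
    all_goals
      simp only [gamGen, lpGen, Sum.elim_inl, Sum.elim_inr, cond_true, cond_false, toK,
        FreeGroup.lift_apply_of]
      exact Commute.map (Prod.ext (by simp) (by simp)) HNNExtension.of
  · rw [map_mul, map_inv, mul_inv_eq_one, map_mul, map_mul, map_mul, map_inv, toK_ww, toK_yw,
      D.qw_eq]
    have h := v_of (B := B) (inr (FreeGroup.map Sum.inl (.of j)))
    rw [incl_inr, B.om_inl, phi_inr, B.psi_inl] at h
    simp only [toK, FreeGroup.lift_apply_of]
    rw [h, ← map_mul]
    simp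
  · rw [map_comm, comm_eq_one_iff, map_mul, map_mul, map_inv, toK_ww, D.qw_eq]
    simp only [toK, FreeGroup.lift_apply_of]
    have h := v_of (B := B) (inr (FreeGroup.map Sum.inr (.of j)))
    rw [incl_inr, B.om_inr, phi_inr, B.psi_inr, map_one, map_mul, map_mul, map_inv] at h
    rw [← map_inv, ← map_mul, ← map_mul]
    have h' := mul_inv_eq_iff_eq_mul.1 h
    simpa [Commute, SemiconjBy] using h'
  · rw [map_mul, map_inv, mul_inv_eq_one, map_mul, map_mul, map_mul, map_inv]
    have e : D.toK D.T0 = HNNExtension.of (B.pt B.x0, 1) := by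
      rw [T0, map_mul, map_mul, map_inv, toK_ww, D.p0w_eq]
      simp only [toK, FreeGroup.lift_apply_of]
      rw [← map_inv, ← map_mul, ← map_mul, Base.x0, pt_smul_one (B := B) (HNNExtension.of B.p0)]
      simp
    have h := v_of (B := B) (inl (FreeGroup.of B.o0))
    rw [incl_o0, phi_o0] at h
    rw [e]
    simp only [toK, FreeGroup.lift_apply_of]
    rw [h, ← map_mul]
    simp

/-- The presented group. -/
abbrev P := PresentedGroup D.krels

/-- The evaluation of words in the presented group. -/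
abbrev m : FreeGroup (KGen α κ) →* D.P := PresentedGroup.mk D.krels

theorem m_eq_one {r : FreeGroup (KGen α κ)} (hr : r ∈ D.krels) : D.m r = 1 :=
  (QuotientGroup.eq_one_iff r).2 (Subgroup.subset_normalClosure hr)

theorem m_commute {a b : FreeGroup (KGen α κ)} (h : comm a b ∈ D.krels) :
    Commute (D.m a) (D.m b) := by
  rw [← comm_eq_one_iff, ← map_comm]
  exact D.m_eq_one h

theorem pker_le : D.π.ker ≤ (D.m.comp ww).ker := by
  rw [D.π_ker]
  refine Subgroup.normalClosure_le_normal fun r hr => D.m_eq_one ?_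
  simp only [krels, Set.mem_union]
  repeat apply Or.inl
  exact ⟨r, hr, rfl⟩

/-- `W` in the presented group. -/
def pW : W →* D.P :=
  (QuotientGroup.lift D.π.ker (D.m.comp ww) D.pker_le).comp
    (QuotientGroup.quotientKerEquivOfSurjective D.π D.π_surjective).symm.toMonoidHom

theorem pW_π (x : FreeGroup α) : D.pW (D.π x) = D.m (ww x) := by
  have e : (QuotientGroup.quotientKerEquivOfSurjective D.π D.π_surjective).symm (D.π x) = x :=
    (MulEquiv.symm_apply_eq _).2 rfl
  simp [pW, e]

theorem commute_cw {r : W} (hr : r ∈ B.R) : Commute (D.m (.of cw)) (D.pW r) := by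
  rw [D.R_eq] at hr
  refine commute_closure ?_ hr
  rintro _ ⟨x, hx, rfl⟩
  rw [pW_π]
  refine D.m_commute ?_
  simp only [krels, Set.mem_union]
  iterate 8 apply Or.inl
  exact Or.inr ⟨x, hx, rfl⟩

/-- `W₂` in the presented group. -/
def pW2 : B.W2 →* D.P :=
  HNNExtension.lift D.pW (D.m (.of cw)) fun a => D.commute_cw a.2

theorem pW2_of (x : W) : D.pW2 (HNNExtension.of x) = D.pW x := HNNExtension.lift_of ..

theorem pW2_t : D.pW2 HNNExtension.t = D.m (.of cw) := HNNExtension.lift_t ..

theorem commute_t {g : B.W2} (hg : g ∈ B.EE2) : Commute (D.m (.of t)) (D.pW2 g) := by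
  refine commute_closure ?_ hg
  rintro _ (⟨e, he, rfl⟩ | rfl)
  · rw [D.pW2_of]
    rw [SetLike.mem_coe, D.EE_eq] at he
    refine commute_closure ?_ he
    rintro _ ⟨x, hx, rfl⟩
    rw [pW_π]
    refine D.m_commute ?_
    simp only [krels, Set.mem_union]
    iterate 7 apply Or.inl
    exact Or.inr ⟨x, hx, rfl⟩
  · rw [Base.ew, map_mul, map_mul, map_inv, D.pW2_of, D.pW2_t, ← D.pfw_eq, pW_π, ← map_inv,
      ← map_mul, ← map_mul]
    refine D.m_commute ?_
    simp only [krels, Set.mem_union]
    iterate 6 apply Or.inl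
    exact Or.inr rfl

/-- A point in the presented group. -/
def pPt (x : B.Pts) : D.P := D.pW2 x.out * D.m (.of t) * (D.pW2 x.out)⁻¹

theorem pPt_coe (g : B.W2) :
    D.pPt (g : B.Pts) = D.pW2 g * D.m (.of t) * (D.pW2 g)⁻¹ := by
  obtain ⟨h, he⟩ := QuotientGroup.mk_out_eq_mul B.EE2 g
  have hc : D.pW2 (h : B.W2) * D.m (.of t) = D.m (.of t) * D.pW2 (h : B.W2) :=
    ((D.commute_t h.2).eq).symm
  rw [pPt, he, map_mul, mul_inv_rev, mul_assoc (D.pW2 g), hc]
  group

/-- `Γ₂` in the presented group. -/
def pGam : B.Gam →* D.P :=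
  SemidirectProduct.lift (FreeGroup.lift D.pPt) D.pW2 fun g => FreeGroup.ext_hom _ _ fun x => by
    obtain ⟨h, rfl⟩ := QuotientGroup.mk_surjective x
    simp only [MonoidHom.comp_apply, MulEquiv.coe_toMonoidHom, Base.act, freeAut_of,
      FreeGroup.lift_apply_of, MulAction.toPermHom_apply, MulAction.toPerm_apply,
      MulAut.conj_apply]
    rw [MulAction.Quotient.smul_coe, smul_eq_mul, pPt_coe, pPt_coe, map_mul]
    group

theorem commute_lpGen (k : κ ⊕ κ ⊕ Unit) (x : B.Gam) :
    Commute (D.pGam x) (D.m (lpGen k)) := by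
  have h1 : ∀ a, Commute (D.m (gamGen a)) (D.m (lpGen k)) := fun a => by
    refine D.m_commute ?_
    simp only [krels, Set.mem_union]
    iterate 3 apply Or.inl
    exact Or.inr ⟨(a, k), rfl⟩
  have hW : ∀ g, Commute (D.pW2 g) (D.m (lpGen k)) := fun g => by
    induction g using HNNExtension.induction_on with
    | of g =>
      obtain ⟨z, rfl⟩ := D.π_surjective g
      rw [D.pW2_of, pW_π]
      exact (commute_free (h := D.m.comp ww) (fun a => (h1 (.inl a)).symm) z).symm
    | t => rw [D.pW2_t]; exact h1 (.inr true)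
    | mul a b ha hb => rw [map_mul]; exact ha.mul_left hb
    | inv a ha => rw [map_inv]; exact ha.inv_left
  rw [← inl_left_mul_inr_right x, map_mul]
  refine Commute.mul_left ?_ (by rw [pGam, SemidirectProduct.lift_inr]; exact hW _)
  rw [pGam, SemidirectProduct.lift_inl]
  refine (commute_free (h := FreeGroup.lift D.pPt) (fun y => ?_) x.left).symm
  obtain ⟨g, rfl⟩ := QuotientGroup.mk_surjective y
  rw [FreeGroup.lift_apply_of, pPt_coe]
  exact (((hW g).mul_left (h1 (.inr false))).mul_left (hW g).inv_left).symm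

theorem commute_y (a b : FreeGroup κ) :
    Commute (D.m (yw a)) (D.m (FreeGroup.map y' b)) := by
  refine commute_free (h := D.m.comp (FreeGroup.map y')) (fun j => ?_) b
  refine (commute_free (h := D.m.comp yw) (fun i => ?_) a).symm
  refine (D.m_commute ?_).symm
  simp only [krels, Set.mem_union]
  iterate 5 apply Or.inl
  exact Or.inr ⟨(i, j), rfl⟩

theorem commute_yw (x : B.Gam) (a : FreeGroup κ) : Commute (D.pGam x) (D.m (yw a)) :=
  commute_free (h := D.m.comp yw) (fun i => D.commute_lpGen (.inl i) x) a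

/-- Conjugation by `v` on `⟨q, w q w⁻¹⟩`. -/
theorem v_om (ω : Om ι) : D.m (.of v) * D.pW2 (B.om ω) * (D.m (.of v))⁻¹ =
    D.pW2 (B.om ω) * D.m (yw (B.psi ω)) := by
  have hc : ∀ a b, Commute (D.pW2 a) (D.m (yw b)) := fun a b => by
    have := D.commute_yw (inr a) b
    rwa [pGam, SemidirectProduct.lift_inr] at this
  refine DFunLike.congr_fun
    (f := (MulAut.conj (D.m (.of v))).toMonoidHom.comp (D.pW2.comp B.om))
    (g := (D.pW2.noncommCoprod (D.m.comp yw) hc).comp (B.om.prod B.psi))
    (FreeGroup.ext_hom _ _ fun x => ?_) ω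
  simp only [MonoidHom.comp_apply, MulEquiv.coe_toMonoidHom, MulAut.conj_apply,
    MonoidHom.prod_apply, MonoidHom.noncommCoprod_apply]
  rcases x with j | j
  · rw [show FreeGroup.of (Sum.inl j) = FreeGroup.map Sum.inl (FreeGroup.of j) by simp, B.om_inl,
      B.psi_inl, D.pW2_of, ← D.qw_eq, pW_π, ← map_inv, ← map_mul, ← map_mul, ← map_mul]
    refine mul_inv_eq_one.1 ?_
    rw [← map_inv, ← map_mul]
    refine D.m_eq_one ?_
    simp only [krels, Set.mem_union]
    iterate 2 apply Or.inl
    exact Or.inr ⟨j, rfl⟩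
  · rw [show FreeGroup.of (Sum.inr j) = FreeGroup.map Sum.inr (FreeGroup.of j) by simp, B.om_inr,
      B.psi_inr, map_one, map_one, mul_one, map_mul, map_mul, map_inv, D.pW2_of, D.pW2_t,
      ← D.qw_eq, pW_π, ← map_inv, ← map_mul, ← map_mul]
    refine mul_inv_eq_iff_eq_mul.2 (D.m_commute ?_)
    simp only [krels, Set.mem_union]
    exact Or.inl (Or.inr ⟨j, rfl⟩)

theorem v_T0 : D.m (.of v) * D.pGam (B.pt B.x0) * (D.m (.of v))⁻¹ =
    D.pGam (B.pt B.x0) * D.m (.of s) := by
  have e : D.pGam (B.pt B.x0) = D.m D.T0 := by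
    rw [Base.pt, pGam, SemidirectProduct.lift_inl, FreeGroup.lift_apply_of, Base.x0, pPt_coe,
      D.pW2_of, ← D.p0w_eq, pW_π, T0, map_mul, map_mul, map_inv]
  rw [e, ← map_inv, ← map_mul, ← map_mul, ← map_mul]
  refine mul_inv_eq_one.1 ?_
  rw [← map_inv, ← map_mul]
  refine D.m_eq_one ?_
  simp only [krels, Set.mem_union]
  exact Or.inr rfl

/-- Conjugation by `v` at a point of the orbit. -/
theorem v_pt (ω : Om ι) :
    D.m (.of v) * D.pGam (B.pt (B.om ω • B.x0)) * (D.m (.of v))⁻¹ =
      D.pGam (B.pt (B.om ω • B.x0)) *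
        (D.m (yw (B.psi ω)) * D.m (.of s) * (D.m (yw (B.psi ω)))⁻¹) := by
  have hG : D.pGam (inr (B.om ω)) = D.pW2 (B.om ω) := by rw [pGam, SemidirectProduct.lift_inr]
  have cT : Commute (D.pGam (B.pt B.x0)) (D.m (yw (B.psi ω))) := D.commute_yw _ _
  have cs : Commute (D.pW2 (B.om ω)) (D.m (.of s)) := hG ▸ D.commute_lpGen (.inr (.inr ())) _
  have cy : Commute (D.pW2 (B.om ω)) (D.m (yw (B.psi ω))) := hG ▸ D.commute_yw _ _
  have h1 := D.v_om ω
  have h2 := D.v_T0
  rw [← B.conj_pt, map_mul, map_mul, map_inv, hG]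
  generalize D.pW2 (B.om ω) = g, D.pGam (B.pt B.x0) = T, D.m (yw (B.psi ω)) = a,
    D.m (FreeGroup.of KGen.s) = σ, D.m (FreeGroup.of KGen.v) = V at *
  calc V * (g * T * g⁻¹) * V⁻¹ = (V * g * V⁻¹) * (V * T * V⁻¹) * (V * g * V⁻¹)⁻¹ := by group
    _ = g * a * (T * σ) * (g * a)⁻¹ := by rw [h1, h2]
    _ = g * ((a * T) * σ * a⁻¹) * g⁻¹ := by group
    _ = g * ((T * a) * σ * a⁻¹) * g⁻¹ := by rw [cT.eq]
    _ = g * T * ((a * σ * a⁻¹) * g⁻¹) := by group
    _ = g * T * (g⁻¹ * (a * σ * a⁻¹)) := by
        rw [(((cy.inv_left).mul_right cs.inv_left).mul_right cy.inv_left.inv_right).eq]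
    _ = _ := by group

theorem s_conj (a : FreeGroup κ) : D.m (.of s) * D.m (yw a) * (D.m (.of s))⁻¹ =
    D.m (yw a) * D.m (FreeGroup.map y' a) := by
  refine DFunLike.congr_fun (f := (MulAut.conj (D.m (.of s))).toMonoidHom.comp (D.m.comp yw))
    (g := ((D.m.comp yw).noncommCoprod (D.m.comp (FreeGroup.map y')) D.commute_y).comp
      ((MonoidHom.id _).prod (MonoidHom.id _))) (FreeGroup.ext_hom _ _ fun k => ?_) a
  simp only [MonoidHom.comp_apply, MulEquiv.coe_toMonoidHom, MulAut.conj_apply,
    MonoidHom.prod_apply, MonoidHom.noncommCoprod_apply, MonoidHom.id_apply, FreeGroup.map.of]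
  rw [← map_inv, ← map_mul, ← map_mul, ← map_mul]
  refine mul_inv_eq_one.1 ?_
  rw [← map_inv, ← map_mul]
  refine D.m_eq_one ?_
  simp only [krels, Set.mem_union]
  iterate 4 apply Or.inl
  exact Or.inr ⟨k, rfl⟩

/-- The derivation `(1, u) = 1` for an accepted word. -/
theorem y'_acc {u : FreeGroup ι} (hu : u ∈ B.Acc) :
    D.m (FreeGroup.map y' (B.valh u)) = 1 := by
  have h1 := D.v_pt (FreeGroup.map Sum.inl u)
  have h2 := D.v_pt (FreeGroup.map Sum.inr u)
  rw [B.psi_inl] at h1
  rw [B.psi_inr, map_one, map_one, one_mul, inv_one, mul_one, ← B.om_acc hu, h1,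
    mul_right_inj] at h2
  have h3 := D.s_conj (B.valh u)
  have hc : Commute (D.m (.of s)) (D.m (yw (B.valh u))) := (mul_inv_eq_iff_eq_mul.1 h2).symm
  rw [hc.eq, mul_inv_cancel_right] at h3
  exact mul_eq_left.1 h3.symm

variable (hN : B.N = Subgroup.normalClosure (B.valh '' B.Acc))

include hN in
theorem N_le_ker : B.N ≤ (D.m.comp (FreeGroup.map y')).ker := by
  rw [hN]
  refine Subgroup.normalClosure_le_normal ?_
  rintro _ ⟨u, hu, rfl⟩
  exact D.y'_acc hu

/-- The second factor in the presented group. -/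
def pL : B.L →* D.P := QuotientGroup.lift B.N (D.m.comp (FreeGroup.map y')) (D.N_le_ker hN)

theorem pL_mk (a : FreeGroup κ) : D.pL hN (a : B.L) = D.m (FreeGroup.map y' a) := rfl

theorem commute_pL (a : FreeGroup κ) (b : B.L) : Commute (D.m (yw a)) (D.pL hN b) := by
  obtain ⟨b, rfl⟩ := QuotientGroup.mk_surjective b
  exact D.commute_y a b

/-- `L₊` in the presented group. -/
def pLp : B.Lp →* D.P :=
  HNNExtension.lift ((D.m.comp yw).noncommCoprod (D.pL hN) (D.commute_pL hN)) (D.m (.of s))
    (graph_cond _ Function.injective_id _ _ _ fun a => by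
      simp only [MonoidHom.id_apply, MonoidHom.noncommCoprod_apply, MonoidHom.comp_apply,
        map_one, mul_one, QuotientGroup.mk'_apply, pL_mk]
      exact mul_inv_eq_iff_eq_mul.1 (D.s_conj a))

theorem pLp_gF (a : FreeGroup κ) : D.pLp hN (B.gF a) = D.m (yw a) := by
  simp [pLp, Base.gF]

theorem pLp_t : D.pLp hN HNNExtension.t = D.m (.of s) := HNNExtension.lift_t ..

theorem commute_pLp (x : B.Gam) (z : B.Lp) : Commute (D.pGam x) (D.pLp hN z) := by
  induction z using HNNExtension.induction_on with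
  | of g =>
    obtain ⟨a, b⟩ := g
    obtain ⟨b, rfl⟩ := QuotientGroup.mk_surjective b
    rw [pLp, HNNExtension.lift_of, MonoidHom.noncommCoprod_apply]
    exact (D.commute_yw x a).mul_right
      (commute_free (h := D.m.comp (FreeGroup.map y')) (fun i => D.commute_lpGen (.inr (.inl i)) x) b)
  | t => rw [pLp_t]; exact D.commute_lpGen (.inr (.inr ())) x
  | mul a b ha hb => rw [map_mul]; exact ha.mul_right hb
  | inv a ha => rw [map_inv]; exact ha.inv_right

/-- `K` in the presented group. -/
def fromK : B.K →* D.P :=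
  HNNExtension.lift (D.pGam.noncommCoprod (D.pLp hN) (D.commute_pLp hN)) (D.m (.of v))
    (graph_cond _ B.incl_injective _ _ _ fun σ => by
      refine mul_inv_eq_iff_eq_mul.1 ?_
      simp only [MonoidHom.noncommCoprod_apply, map_one, mul_one]
      refine DFunLike.congr_fun
        (f := (MulAut.conj (D.m (.of v))).toMonoidHom.comp (D.pGam.comp B.incl))
        (g := (D.pGam.noncommCoprod (D.pLp hN) (D.commute_pLp hN)).comp (B.incl.prod B.phi))
        (SemidirectProduct.hom_ext ?_ ?_) σ
      · refine FreeGroup.ext_hom _ _ fun x => ?_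
        obtain ⟨ω, rfl⟩ := B.exists_smul_o0 x
        simp only [MonoidHom.comp_apply, MulEquiv.coe_toMonoidHom, MulAut.conj_apply,
          MonoidHom.prod_apply, MonoidHom.noncommCoprod_apply]
        have e : B.incl (inl (FreeGroup.of (ω • B.o0))) = B.pt (B.om ω • B.x0) := by
          simp [Base.incl, Base.pt]
          rfl
        have e' : B.phi (inl (FreeGroup.of (ω • B.o0))) =
            B.gF (B.psi ω) * HNNExtension.t * (B.gF (B.psi ω))⁻¹ := by
          simp [Base.phi, B.orbVal_smul]
        rw [e, e', map_mul, map_mul, map_inv, D.pLp_gF hN, D.pLp_t hN]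
        exact D.v_pt ω
      · refine MonoidHom.ext fun ω => ?_
        simp only [MonoidHom.comp_apply, MulEquiv.coe_toMonoidHom, MulAut.conj_apply,
          MonoidHom.prod_apply, MonoidHom.noncommCoprod_apply]
        rw [incl_inr, phi_inr, D.pLp_gF hN, pGam, SemidirectProduct.lift_inr]
        exact D.v_om ω)

include hN in
theorem fromK_toK (x : FreeGroup (KGen α κ)) : D.fromK hN (D.toK x) = D.m x := by
  refine DFunLike.congr_fun (f := (D.fromK hN).comp D.toK) (g := D.m)
    (FreeGroup.ext_hom _ _ fun g => ?_) x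
  cases g with
  | w a => simp [fromK, toK, pGam, pW2_of, pW_π]
  | cw => simp [fromK, toK, pGam, pW2_t]
  | t => simp [fromK, toK, pGam, Base.pt, pPt_coe]
  | y k => simp [fromK, toK, pLp_gF]
  | y' k => simp [fromK, toK, pLp, pL_mk]
  | s => simp [fromK, toK, pLp_t]
  | v => simp [fromK, toK]

include hN in
/-- The relations present `K`. -/
theorem toK_ker : D.toK.ker = Subgroup.normalClosure D.krels := by
  refine le_antisymm (fun x hx => ?_) ?_
  · rw [← QuotientGroup.eq_one_iff]
    show D.m x = 1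
    rw [← D.fromK_toK hN, MonoidHom.mem_ker.1 hx, map_one]
  · exact Subgroup.normalClosure_le_normal fun r hr => D.toK_krels hr

theorem toK_surjective : Function.Surjective D.toK := by
  intro x
  induction x using HNNExtension.induction_on with
  | t => exact ⟨.of v, by simp [toK]⟩
  | mul a b ha hb =>
    obtain ⟨a, rfl⟩ := ha
    obtain ⟨b, rfl⟩ := hb
    exact ⟨a * b, map_mul _ _ _⟩
  | inv a ha =>
    obtain ⟨a, rfl⟩ := ha
    exact ⟨a⁻¹, map_inv _ _⟩
  | of z =>
    suffices h : HNNExtension.of z ∈ D.toK.range from h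
    obtain ⟨g, l⟩ := z
    have hz : (g, l) = ((g, 1) : B.Gam × B.Lp) * (1, l) := by simp
    rw [hz, map_mul]
    refine mul_mem ?_ ?_
    · have hW : ∀ a : B.W2, HNNExtension.of ((inr a : B.Gam), (1 : B.Lp)) ∈ D.toK.range := fun a => by
        induction a using HNNExtension.induction_on with
        | of a =>
          obtain ⟨a, rfl⟩ := D.π_surjective a
          exact ⟨ww a, D.toK_ww a⟩
        | t => exact ⟨.of cw, by simp [toK]⟩
        | mul a b ha hb =>
          have := mul_mem ha hb
          rwa [← map_mul, Prod.mk_mul_mk, ← map_mul, one_mul] at this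
        | inv a ha =>
          have := inv_mem ha
          rwa [← map_inv, Prod.inv_mk, ← map_inv, inv_one] at this
      rw [← inl_left_mul_inr_right g]
      have e : ((inl g.left * inr g.right, 1) : B.Gam × B.Lp) =
          (inl g.left, 1) * (inr g.right, 1) := by simp
      rw [e, map_mul]
      refine mul_mem ?_ (hW _)
      induction g.left using FreeGroup.induction_on with
      | C1 => exact ⟨1, by simp; exact (map_one _).symm⟩
      | of p =>
        obtain ⟨a, rfl⟩ := QuotientGroup.mk_surjective p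
        have := mul_mem (mul_mem (hW a) (⟨.of t, by simp [toK]⟩ :
          HNNExtension.of (B.pt ((1 : B.W2) : B.Pts), (1 : B.Lp)) ∈ D.toK.range)) (inv_mem (hW a))
        rw [← map_inv, ← map_mul, ← map_mul] at this
        simp only [Prod.inv_mk, inv_one, Prod.mk_mul_mk, mul_one] at this
        rw [← pt_smul_one (B := B) a] at this
        exact this
      | inv_of p ih => simpa [← map_inv] using inv_mem ih
      | mul a b ha hb => simpa [← map_mul] using mul_mem ha hb
    · clear hz
      induction l using HNNExtension.induction_on with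
      | of p =>
        obtain ⟨a, b⟩ := p
        obtain ⟨b, rfl⟩ := QuotientGroup.mk_surjective b
        have ey : D.toK (FreeGroup.map y' b) =
            HNNExtension.of (1, HNNExtension.of (1, (b : B.L))) :=
          DFunLike.congr_fun (f := D.toK.comp (FreeGroup.map y'))
            (g := HNNExtension.of.comp ((MonoidHom.inr _ _).comp
              (HNNExtension.of.comp ((MonoidHom.inr _ _).comp (QuotientGroup.mk' B.N)))))
            (FreeGroup.ext_hom _ _ fun i => by simp [toK]) b
        refine ⟨yw a * FreeGroup.map y' b, ?_⟩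
        rw [map_mul, toK_yw, ey, ← map_mul, Base.gF, MonoidHom.comp_apply]
        simp [← map_mul]
      | t => exact ⟨.of s, by simp [toK]⟩
      | mul a b ha hb => simpa [← map_mul] using mul_mem ha hb
      | inv a ha => simpa [← map_inv] using inv_mem ha

include D hN in
/-- `K` is finitely presented. -/
theorem isFinitelyPresented [Finite α] [Finite ι] [Finite κ] (h1 : D.relW.Finite)
    (h2 : D.Rw.Finite) (h3 : D.Ew.Finite) : Group.IsFinitelyPresented B.K := by
  haveI : Finite D.krels := (D.krels_finite h1 h2 h3).to_subtype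
  refine Group.IsFinitelyPresented.equiv (G := PresentedGroup D.krels) ?_
  exact (QuotientGroup.quotientMulEquivOfEq (D.toK_ker hN).symm).trans
    (QuotientGroup.quotientKerEquivOfSurjective D.toK D.toK_surjective)

end Words

end Base

end Vale.Agent.P193.C
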