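import Vale.Agent.P193.C.Defs
import Vale.Agent.P193.C.Tower

/-!
# P193, piece C: the finite presentation of `W`, and the group `K` of a machine

`W` is presented on two translations, the letters of `F` and the stable letters; the point words and
edge words are explicit. With the two facts on the starts this gives `K`.
-/

noncomputable section

namespace Vale.Agent.P193.C.Mach

open Multiplicative

variable {k : ℕ} (M : Mach k)

/-- The generators of `W`. -/
abbrev WGen := Bool ⊕ Fin k ⊕ M.Letter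

instance : Finite M.Letter :=
  Finite.of_surjective (fun x : Fin M.rules.length ⊕ Fin k ⊕ Fin k => match x with
    | .inl i => Letter.rule i
    | .inr (.inl i) => Letter.q i
    | .inr (.inr i) => Letter.e i) fun r => by
    cases r with
    | rule i => exact ⟨.inl i, rfl⟩
    | q i => exact ⟨.inr (.inl i), rfl⟩
    | e i => exact ⟨.inr (.inr i), rfl⟩

/-- A unit translation. -/
def unitPt (b : Bool) : G0 k := (ofAdd (bif b then (1, 0) else (0, 1)), 1)

/-- A letter of `F` as a position. -/
def unitF (i : Fin k) : G0 k := (1, FreeGroup.of i)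

/-- The generator of a translation. -/
abbrev gz (b : Bool) : FreeGroup M.WGen := FreeGroup.of (.inl b)
/-- The generator of a letter of `F`. -/
abbrev gy (i : Fin k) : FreeGroup M.WGen := FreeGroup.of (.inr (.inl i))
/-- The generator of a stable letter. -/
abbrev gl (r : M.Letter) : FreeGroup M.WGen := FreeGroup.of (.inr (.inr r))

/-- The word of a position. -/
def wG (p : G0 k) : FreeGroup M.WGen :=
  M.gz true ^ (toAdd p.1).1 * M.gz false ^ (toAdd p.1).2 *
    FreeGroup.map (fun i => Sum.inr (Sum.inl i)) p.2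

/-- Generators of a parameter group. -/
def parGen : ∀ r : M.Letter, Set (M.Par r)
  | .rule _ => Set.range unitPt ∪ Set.range unitF
  | .q _ => Set.range unitPt ∪ Set.range unitF
  | .e _ => Set.range FreeGroup.of

/-- The relations of `W`. -/
def relW : Set (FreeGroup M.WGen) :=
  {comm (M.gz true) (M.gz false)} ∪ Set.range (fun p : Bool × Fin k => comm (M.gz p.1) (M.gy p.2)) ∪
    ⋃ r, (fun p => M.gl r * M.wG (M.dom r p) * (M.gl r)⁻¹ * (M.wG (M.cod r p))⁻¹) '' M.parGen r

theorem relW_finite : M.relW.Finite := by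
  refine ((Set.finite_singleton _).union (Set.finite_range _)).union
    (Set.finite_iUnion fun r => Set.Finite.image _ ?_)
  cases r <;> simp only [parGen] <;>
    first
    | exact (Set.finite_range _).union (Set.finite_range _)
    | exact Set.finite_range _

/-- The evaluation of words in `W`. -/
def piW : FreeGroup M.WGen →* M.W :=
  FreeGroup.lift (Sum.elim (fun b => M.ofG (unitPt b))
    (Sum.elim (fun i => M.ofG (unitF i)) M.tL))

theorem unit_prod (p : G0 k) :
    unitPt true ^ (toAdd p.1).1 * unitPt false ^ (toAdd p.1).2 * ((1, p.2) : G0 k) = p := by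
  obtain ⟨x, f⟩ := p
  refine Prod.ext ?_ ?_
  · refine toAdd.injective ?_
    refine Prod.ext ?_ ?_ <;> simp [unitPt]
  · simp [unitPt]

theorem piW_wG (p : G0 k) : M.piW (M.wG p) = M.ofG p := by
  conv_rhs => rw [← unit_prod p, map_mul, map_mul, map_zpow, map_zpow]
  have h : ∀ f, M.piW (FreeGroup.map (fun i => Sum.inr (Sum.inl i)) f) = M.ofG ((1, f) : G0 k) :=
    DFunLike.congr_fun (f := M.piW.comp (FreeGroup.map fun i => Sum.inr (Sum.inl i)))
      (g := M.ofG.comp (MonoidHom.inr (Multiplicative Pt) (F k)))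
      (FreeGroup.ext_hom _ _ fun i => by simp [piW, unitF])
  rw [wG, map_mul, map_mul, map_zpow, map_zpow, h]
  simp [piW]

theorem iso_apply (r : M.Letter) (p : M.Par r) :
    ((M.iso r ⟨M.dom r p, p, rfl⟩ : (M.cod r).range) : G0 k) = M.cod r p := by
  have e : MonoidHom.ofInjective (M.dom_injective r) p = ⟨M.dom r p, p, rfl⟩ := Subtype.ext rfl
  rw [iso, MulEquiv.trans_apply, ← e, MulEquiv.symm_apply_apply]
  rfl

theorem tL_conj (r : M.Letter) (p : M.Par r) :
    M.tL r * M.ofG (M.dom r p) * (M.tL r)⁻¹ = M.ofG (M.cod r p) := by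
  have h := MHNN.equiv_eq_conj (φ := M.iso) r ⟨M.dom r p, p, rfl⟩
  rw [iso_apply] at h
  exact h.symm

theorem piW_relW {x : FreeGroup M.WGen} (hx : x ∈ M.relW) : M.piW x = 1 := by
  simp only [relW, Set.mem_union, Set.mem_singleton_iff, Set.mem_range, Set.mem_iUnion,
    Set.mem_image] at hx
  rcases hx with (rfl | ⟨⟨b, i⟩, rfl⟩) | ⟨r, p, _, rfl⟩
  · rw [map_comm, comm_eq_one_iff]
    simp only [piW, FreeGroup.lift_apply_of, Sum.elim_inl]
    exact Commute.map (Prod.ext (mul_comm _ _) (by simp [unitPt])) M.ofG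
  · rw [map_comm, comm_eq_one_iff]
    simp only [piW, FreeGroup.lift_apply_of, Sum.elim_inl, Sum.elim_inr]
    exact Commute.map (Prod.ext (mul_comm _ _) (by simp [unitPt, unitF])) M.ofG
  · rw [map_mul, map_inv, mul_inv_eq_one, map_mul, map_mul, map_inv, M.piW_wG, M.piW_wG]
    simp only [piW, FreeGroup.lift_apply_of, Sum.elim_inr]
    exact M.tL_conj r p

theorem piW_surjective : Function.Surjective M.piW := by
  intro x
  induction x using MHNN.induction_on with
  | of g => exact ⟨M.wG g, M.piW_wG g⟩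
  | t r => exact ⟨M.gl r, by simp [piW]⟩
  | mul a b ha hb =>
    obtain ⟨a, rfl⟩ := ha
    obtain ⟨b, rfl⟩ := hb
    exact ⟨a * b, map_mul _ _ _⟩
  | inv a ha =>
    obtain ⟨a, rfl⟩ := ha
    exact ⟨a⁻¹, map_inv _ _⟩

theorem g0_hom_ext {P : Type} [Group P] {f g : G0 k →* P}
    (h1 : ∀ b, f (unitPt b) = g (unitPt b)) (h2 : ∀ i, f (unitF i) = g (unitF i)) : f = g := by
  refine MonoidHom.ext fun p => ?_
  have h : ∀ a, f ((1, a) : G0 k) = g ((1, a) : G0 k) :=
    DFunLike.congr_fun (f := f.comp (MonoidHom.inr (Multiplicative Pt) (F k)))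
      (g := g.comp (MonoidHom.inr (Multiplicative Pt) (F k))) (FreeGroup.ext_hom _ _ h2)
  rw [← unit_prod p, map_mul, map_mul, map_mul, map_mul, map_zpow, map_zpow, map_zpow, map_zpow,
    h1, h1, h]

theorem par_hom_ext {P : Type} [Group P] : ∀ (r : M.Letter) {f g : M.Par r →* P},
    (∀ p ∈ M.parGen r, f p = g p) → f = g
  | .rule _, _, _, h => g0_hom_ext (fun b => h _ (Or.inl ⟨b, rfl⟩)) fun i => h _ (Or.inr ⟨i, rfl⟩)
  | .q _, _, _, h => g0_hom_ext (fun b => h _ (Or.inl ⟨b, rfl⟩)) fun i => h _ (Or.inr ⟨i, rfl⟩)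
  | .e _, _, _, h => FreeGroup.ext_hom _ _ fun i => h _ ⟨i, rfl⟩

/-- The presented group. -/
abbrev PW := PresentedGroup M.relW

/-- The evaluation of words there. -/
abbrev mW : FreeGroup M.WGen →* M.PW := PresentedGroup.mk M.relW

theorem mW_eq_one {x : FreeGroup M.WGen} (h : x ∈ M.relW) : M.mW x = 1 :=
  (QuotientGroup.eq_one_iff x).2 (Subgroup.subset_normalClosure h)

theorem commute_gz : Commute (M.mW (M.gz true)) (M.mW (M.gz false)) := by
  rw [← comm_eq_one_iff, ← map_comm]
  exact M.mW_eq_one (Or.inl (Or.inl rfl))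

theorem commute_gz_gy (b : Bool) (f : F k) :
    Commute (M.mW (M.gz b)) (M.mW (FreeGroup.map (fun i => Sum.inr (Sum.inl i)) f)) :=
  commute_free (h := M.mW.comp (FreeGroup.map fun i => Sum.inr (Sum.inl i))) (fun i => by
    rw [← comm_eq_one_iff, MonoidHom.comp_apply, ← map_comm, FreeGroup.map.of]
    exact M.mW_eq_one (Or.inl (Or.inr ⟨(b, i), rfl⟩))) f

/-- The translations in the presented group. -/
def gPt : Multiplicative Pt →* M.PW :=
  MonoidHom.mk' (fun x => M.mW (M.gz true) ^ (toAdd x).1 * M.mW (M.gz false) ^ (toAdd x).2)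
    fun x y => by
      rw [toAdd_mul, Prod.fst_add, Prod.snd_add, zpow_add, zpow_add]
      exact (M.commute_gz.zpow_zpow _ _).mul_mul_mul_comm _ _

/-- The positions in the presented group. -/
def gG : G0 k →* M.PW :=
  M.gPt.noncommCoprod (M.mW.comp (FreeGroup.map fun i => Sum.inr (Sum.inl i))) fun x f =>
    ((M.commute_gz_gy true f).zpow_left _).mul_left ((M.commute_gz_gy false f).zpow_left _)

theorem gG_eq (p : G0 k) : M.gG p = M.mW (M.wG p) := by
  rw [wG, map_mul, map_mul, map_zpow, map_zpow]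
  rfl

theorem gG_conj (r : M.Letter) (p : M.Par r) :
    M.mW (M.gl r) * M.gG (M.dom r p) * (M.mW (M.gl r))⁻¹ = M.gG (M.cod r p) := by
  refine DFunLike.congr_fun (f := (MulAut.conj (M.mW (M.gl r))).toMonoidHom.comp
    (M.gG.comp (M.dom r))) (g := M.gG.comp (M.cod r)) (M.par_hom_ext r fun p hp => ?_) p
  simp only [MonoidHom.comp_apply, MulEquiv.coe_toMonoidHom, MulAut.conj_apply, gG_eq]
  rw [← map_inv, ← map_mul, ← map_mul]
  refine mul_inv_eq_one.1 ?_
  rw [← map_inv, ← map_mul]
  exact M.mW_eq_one (Or.inr (Set.mem_iUnion.2 ⟨r, p, hp, rfl⟩))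

/-- `W` in the presented group. -/
def fromW : M.W →* M.PW :=
  MHNN.lift M.gG (fun r => M.mW (M.gl r)) fun r a => by
    obtain ⟨_, p, rfl⟩ := a
    rw [iso_apply]
    exact mul_inv_eq_iff_eq_mul.1 (M.gG_conj r p)

theorem fromW_piW (x : FreeGroup M.WGen) : M.fromW (M.piW x) = M.mW x := by
  refine DFunLike.congr_fun (f := M.fromW.comp M.piW) (g := M.mW)
    (FreeGroup.ext_hom _ _ fun g => ?_) x
  rcases g with b | i | r
  · cases b <;> simp [fromW, piW, gG_eq, wG, unitPt]
  · simp [fromW, piW, gG_eq, wG, unitF]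
  · simp [fromW, piW]

/-- The relations present `W`. -/
theorem piW_ker : M.piW.ker = Subgroup.normalClosure M.relW := by
  refine le_antisymm (fun x hx => ?_) ?_
  · rw [← QuotientGroup.eq_one_iff]
    show M.mW x = 1
    rw [← M.fromW_piW, MonoidHom.mem_ker.1 hx, map_one]
  · exact Subgroup.normalClosure_le_normal fun r hr => M.piW_relW hr

/-- The retraction to the loading letters. -/
def qRetr : M.W →* F k :=
  MHNN.lift 1 (fun r => match r with | .q i => FreeGroup.of i | _ => 1) fun _ _ => by simp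

theorem qRetr_q (a : F k) : M.qRetr (M.q a) = a :=
  DFunLike.congr_fun (f := M.qRetr.comp M.q) (g := MonoidHom.id _)
    (FreeGroup.ext_hom _ _ fun i => by simp [qRetr, q]) a

theorem qRetr_R {x : M.W} (hx : x ∈ M.R) : M.qRetr x = 1 := by
  refine (Subgroup.closure_le (K := M.qRetr.ker)).2 ?_ hx
  rintro _ ⟨r, hr, rfl⟩
  cases r <;> first | exact absurd hr id | simp [qRetr]

/-- The data of `C.Base` given by a machine. -/
def toBase (hA : M.AccStmt) (hK : M.KeyStmt) : Base (Fin k) (Fin k) M.W where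
  R := M.R
  EE := M.EE
  pf := M.ofG M.Pf
  p0 := M.ofG M.P0
  q := M.q
  qproj := M.qRetr
  qproj_q := M.qRetr_q
  qproj_R _ h := M.qRetr_R h
  valh := MonoidHom.id _
  Acc := M.accSet
  one_mem_Acc := ⟨[], M.acc_nil, rfl⟩
  N := M.relN
  normal := inferInstance
  valh_mem _ hu := Subgroup.subset_normalClosure hu
  acc := by rintro _ ⟨l, hl, rfl⟩; exact hA l hl
  key := hK

/-- The word of an edge. -/
def edgeWord (r : M.Letter) : FreeGroup M.WGen :=
  (M.wG (M.src r))⁻¹ * (M.gl r)⁻¹ * M.wG (M.tgt r)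

/-- The words of a machine. -/
def words (hA : M.AccStmt) (hK : M.KeyStmt) : (M.toBase hA hK).Words M.WGen where
  π := M.piW
  π_surjective := M.piW_surjective
  relW := M.relW
  π_ker := M.piW_ker
  Rw := M.gl '' {r | M.isR r}
  R_eq := by
    show M.R = _
    rw [R, Set.image_image]
    refine congrArg _ (Set.image_congr fun r _ => ?_)
    simp [piW]
  Ew := Set.range M.edgeWord
  EE_eq := by
    show M.EE = _
    rw [EE, ← Set.range_comp]
    refine congrArg _ (congrArg _ (funext fun r => ?_))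
    simp only [Function.comp_apply, edgeWord, map_mul, map_inv, piW_wG, edge]
    simp [piW]
  pfw := M.wG M.Pf
  pfw_eq := M.piW_wG _
  p0w := M.wG M.P0
  p0w_eq := M.piW_wG _
  qw j := M.gl (.q j)
  qw_eq j := by simp [piW, toBase, q]

theorem relN_eq (hA : M.AccStmt) (hK : M.KeyStmt) :
    (M.toBase hA hK).N =
      Subgroup.normalClosure ((M.toBase hA hK).valh '' (M.toBase hA hK).Acc) := by
  show M.relN = Subgroup.normalClosure (MonoidHom.id _ '' M.accSet)
  simp [relN]

/-- `K` is finitely presented by the relators `krels`. -/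
theorem toK_ker (hA : M.AccStmt) (hK : M.KeyStmt) :
    (M.words hA hK).toK.ker = Subgroup.normalClosure (M.words hA hK).krels :=
  (M.words hA hK).toK_ker (M.relN_eq hA hK)

/-- The relators are finitely many. -/
theorem krels_finite (hA : M.AccStmt) (hK : M.KeyStmt) : (M.words hA hK).krels.Finite :=
  (M.words hA hK).krels_finite M.relW_finite ((Set.toFinite _).image _) (Set.finite_range _)

theorem isFinitelyPresented_K (hA : M.AccStmt) (hK : M.KeyStmt) :
    Group.IsFinitelyPresented (M.toBase hA hK).K :=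
  (M.words hA hK).isFinitelyPresented (M.relN_eq hA hK) M.relW_finite
    ((Set.toFinite _).image _) (Set.finite_range _)

end Vale.Agent.P193.C.Mach
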