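import Vale.Agent.P193.C.Gap
import Vale.Agent.P193.C.W
import Vale.Agent.P193.C.WPres

/-!
# P193, piece C: the end pieces of the linear bound, for a machine

In `r · q c · P₀ · e` only a runnable piece at the junction cancels. If that piece contains a letter
`e` of `R`, the start is live, hence accepted; otherwise the `F` value of `r` is bounded by the
number of surviving letters.
-/

noncomputable section

namespace Vale.Agent.P193.C.Mach

open MHNN Align

variable {k : ℕ} (M : Mach k)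

/-- The costs: positions cost the length of their `F` coordinate, letters cost one. -/
def genM (g : M.W) (n : ℕ) : Prop :=
  (∃ P : G0 k, M.ofG P = g ∧ P.2.norm ≤ n) ∨ ∃ a : M.Letter × Bool, tw a = g ∧ 1 ≤ n

theorem norm_hL (L : List (M.Letter × Bool)) :
    (FreeGroup.lift M.hL (FreeGroup.mk L)).norm ≤ L.length := by
  induction L with
  | nil => simp [← FreeGroup.one_eq_mk]
  | cons a L ih =>
    rw [← List.singleton_append, ← FreeGroup.mul_mk, map_mul, List.singleton_append,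
      List.length_cons]
    have h1 : (FreeGroup.lift M.hL (FreeGroup.mk [a])).norm ≤ 1 := by
      obtain ⟨r, _ | _⟩ := a <;> cases r <;> simp [FreeGroup.lift_mk, hL]
    exact (FreeGroup.norm_mul_le _ _).trans (by omega)

theorem hL_eq_one {L : List (M.Letter × Bool)} (h : ∀ a ∈ L, M.isR a.1)
    (he : ∀ i b, (Letter.e i, b) ∉ L) : FreeGroup.lift M.hL (FreeGroup.mk L) = 1 := by
  induction L with
  | nil => simp [← FreeGroup.one_eq_mk]
  | cons a L ih =>
    rw [← List.singleton_append, ← FreeGroup.mul_mk, map_mul,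
      ih (fun b hb => h b (List.mem_cons_of_mem _ hb))
        (fun i b hb => he i b (List.mem_cons_of_mem _ hb)), mul_one]
    obtain ⟨r, b⟩ := a
    cases r with
    | rule i => cases b <;> simp [FreeGroup.lift_mk, hL]
    | q i => exact (h _ List.mem_cons_self).elim
    | e i => exact absurd List.mem_cons_self (he i b)

theorem H_tw (a : M.Letter × Bool) : M.H (tw a) = FreeGroup.lift M.hL (FreeGroup.mk [a]) := by
  rw [← T_single, H_T]

theorem qRetr_tw_norm (a : M.Letter × Bool) : (M.qRetr (tw a)).norm ≤ 1 := by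
  obtain ⟨r, _ | _⟩ := a <;> cases r <;> simp [qRetr, tw]

/-- An element of cost `n` is a word with at most `n` letters. -/
theorem exists_word_of_cost {g : M.W} {n : ℕ} (h : Cost M.genM g n) :
    ∀ h₂ l₂, ∃ h₁ l₁, M.ofG h₁ * wprod M.iso l₁ = g * (M.ofG h₂ * wprod M.iso l₂) ∧
      l₁.length ≤ n + l₂.length := by
  induction h with
  | of_gen h =>
    intro h₂ l₂
    rcases h with ⟨P, rfl, -⟩ | ⟨a, rfl, hn⟩
    · exact ⟨P * h₂, l₂, by rw [map_mul, mul_assoc], by omega⟩
    · exact ⟨1, (a, h₂) :: l₂, by simp [mul_assoc], by simp; omega⟩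
  | one => exact fun h₂ l₂ => ⟨h₂, l₂, (one_mul _).symm, by omega⟩
  | mul _ _ ha hb =>
    intro h₂ l₂
    obtain ⟨h₁, l₁, e₁, n₁⟩ := hb h₂ l₂
    obtain ⟨h₀, l₀, e₀, n₀⟩ := ha h₁ l₁
    exact ⟨h₀, l₀, by rw [e₀, e₁, mul_assoc], by omega⟩
  | mono _ hle ha =>
    intro h₂ l₂
    obtain ⟨h₁, l₁, e, hn⟩ := ha h₂ l₂
    exact ⟨h₁, l₁, e, by omega⟩

theorem genM_inv (g : M.W) (n : ℕ) (h : M.genM g n) : M.genM g⁻¹ n := by
  rcases h with ⟨P, rfl, hP⟩ | ⟨a, rfl, hn⟩
  · exact Or.inl ⟨P⁻¹, map_inv _ _, by simpa using hP⟩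
  · exact Or.inr ⟨op a, tw_op a, hn⟩

theorem H_le {g : M.W} {n : ℕ} (h : M.genM g n) : (M.H g).norm ≤ n := by
  rcases h with ⟨P, rfl, hP⟩ | ⟨a, rfl, hn⟩
  · rwa [H_ofG]
  · rw [H_tw]; exact ((M.norm_hL [a]).trans (by simp)).trans hn

theorem H_EE {e : M.W} (he : e ∈ M.EE) : M.H e = 1 := by
  obtain ⟨z, rfl⟩ := M.exists_Ed he
  exact M.H_Ed z

/-- The end piece. -/
theorem end_bound {e r : M.W} (he : e ∈ M.EE) (hr : r ∈ M.R) (c : F k) {n : ℕ}
    (hc : Cost M.genM (e * (M.ofG M.P0)⁻¹ * M.q c * r) n) :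
    ∃ a : F k, a.norm ≤ 2 * n ∧ (a : M.L) = c := by
  have hH : (c * M.H r).norm ≤ n := by
    have h := Cost.le_of_subadditive (fun g => (M.H g).norm) (by simp)
      (fun x y => by simpa using FreeGroup.norm_mul_le _ _) (fun g m hg => M.H_le hg) hc
    simpa [M.H_EE he, H_q, P0, tau] using h
  suffices hs : (c : M.L) = 1 ∨ (M.H r).norm ≤ n by
    rcases hs with h1 | h1
    · exact ⟨1, by simp, by rw [h1]; rfl⟩
    · refine ⟨c, ?_, rfl⟩
      have h2 := FreeGroup.norm_mul_le (c * M.H r) (M.H r)⁻¹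
      rw [mul_inv_cancel_right, FreeGroup.norm_inv_eq] at h2
      omega
  obtain ⟨η, hη⟩ := M.exists_Ed (M.EE.inv_mem he)
  obtain ⟨z, hz, hzR, hzr⟩ := M.exists_word_of_mem_R (M.R.inv_mem hr)
  obtain ⟨h₁, l, hl, hln⟩ := M.exists_word_of_cost (Cost.inv' M.genM_inv hc) 1 []
  simp only [map_one, wprod_nil, mul_one, List.length_nil, Nat.add_zero] at hl hln
  let C := (c⁻¹).toWord.map M.qE
  have hω : FreeGroup.IsReduced (z ++ C) := by
    refine M.isReduced_append hz (M.isReduced_map_qE FreeGroup.isReduced_toWord) ?_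
    intro a ha b hb hab
    simp only [C, List.mem_map] at hb
    obtain ⟨x, -, rfl⟩ := hb
    have := hzR a ha
    rw [hab] at this
    exact this
  obtain ⟨ω₁, π, ξ₁, P', hsplit, hξ, hrun, hred⟩ :=
    M.exists_peel (z ++ C) η.toWord M.P0 hω FreeGroup.isReduced_toWord
  have hmq : FreeGroup.mk C = FreeGroup.map Letter.q c⁻¹ := by
    conv_rhs => rw [← FreeGroup.mk_toWord (x := c⁻¹), FreeGroup.map.mk]
  have hval : M.T (FreeGroup.mk (ω₁ ++ π)) * M.ofG M.P0 *
      M.Ed (FreeGroup.mk (FreeGroup.invRev π ++ ξ₁)) = M.ofG h₁ * wprod M.iso l := by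
    rw [← hξ, FreeGroup.mk_toWord, ← hsplit, hη, hl, ← FreeGroup.mul_mk, map_mul, hzr, hmq,
      ← q_eq_T, map_inv]
    group
  have hsub := (M.peel_sublist hrun hred hval).length_le
  rw [List.length_map, List.length_append] at hsub
  have hzH : (M.H r).norm = (FreeGroup.lift M.hL (FreeGroup.mk z)).norm := by
    rw [← H_T, hzr, map_inv, FreeGroup.norm_inv_eq]
  rcases List.append_eq_append_iff.1 hsplit with ⟨z₂, hω₁, -⟩ | ⟨z₂, hzz, hπ⟩
  · right
    have := M.norm_hL z
    rw [hω₁, List.length_append] at hsub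
    omega
  · rw [hπ, M.run_append] at hrun
    obtain ⟨Q, hC, hz₂⟩ := hrun
    obtain ⟨u, hu, rfl⟩ := M.positive_of_run FreeGroup.isReduced_toWord hC
    have hz₂R : ∀ a ∈ z₂, M.isR a.1 := fun a ha => hzR a (by simp [hzz, ha])
    by_cases hE : ∃ i b, (Letter.e i, b) ∈ z₂
    · obtain ⟨i, b, hib⟩ := hE
      left
      have hacc : M.acc u = true :=
        (M.accepts u).symm.trans (hz₂.live_of_e_mem hz₂R hib)
      have hu' : c⁻¹ = val u := by rw [val_eq_mk, ← hu, FreeGroup.mk_toWord]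
      refine (QuotientGroup.eq_one_iff c).2 ?_
      rw [← inv_inv c, hu']
      exact M.relN.inv_mem (Subgroup.subset_normalClosure ⟨u, hacc, rfl⟩)
    · right
      have h0 := M.hL_eq_one hz₂R (fun i b hib => hE ⟨i, b, hib⟩)
      rw [hzH, hzz, ← FreeGroup.mul_mk, map_mul, h0, mul_one]
      exact (M.norm_hL ω₁).trans (by omega)

/-- The hypotheses of the bound, for a machine. -/
def costs : (M.toBase M.accLink M.key).Costs where
  gen := M.genM
  inv := M.genM_inv
  p0_zero := Cost.of_gen (Or.inl ⟨M.P0, rfl, by simp [P0, tau]⟩)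
  qproj_le g n h := by
    show (M.qRetr g).norm ≤ n
    rcases h with ⟨P, rfl, -⟩ | ⟨a, rfl, hn⟩
    · simp [qRetr]
    · exact (M.qRetr_tw_norm a).trans hn
  H := M.H
  H_EE _ he := M.H_EE he
  H_p0 := (M.H_ofG _).trans rfl
  H_q := M.H_q
  H_le _ _ h := M.H_le h
  endBound _ he _ hr c _ h := M.end_bound he hr c h

end Vale.Agent.P193.C.Mach
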