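import Mathlib
import Vale.Agent.P193.C.MHNN

/-!
P193, C1: peeled words. A multiple HNN extension with a subgroup `K` of the base and one marked
point for each end of each letter; `EE` is generated by `K` and the edges. Every coset of `EE` has
a peeled word (reduced, last letter not runnable), and two peeled words of one coset have the same
letters and differ by an element of `K`. The lemma is used for `W` (`K = 1`) and for `W₂`
(`G = W`, `K = EE`).
-/

namespace Vale.Agent.P193.C

open MHNN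

universe u v

variable {ι : Type u} {G : Type v} [Group G] {A B : ι → Subgroup G} {φ : ∀ i, A i ≃* B i}

/-- The value of a word. -/
def wval (φ : ∀ i, A i ≃* B i) (h : G) (l : List ((ι × Bool) × G)) : MHNN A B φ :=
  of h * wprod φ l

theorem wval_nil (h : G) : wval φ h [] = of h := by simp [wval]

theorem exists_wval_mul_of (h : G) (l : List ((ι × Bool) × G)) (u : G) :
    ∃ h' l', l'.length = l.length ∧ wval φ h' l' = wval φ h l * of u := by
  rcases List.eq_nil_or_concat' l with rfl | ⟨l₀, ⟨y, g⟩, rfl⟩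
  · exact ⟨h * u, [], rfl, by simp [wval]⟩
  · exact ⟨h, l₀ ++ [(y, g * u)], by simp, by simp [wval, mul_assoc]⟩

/-- A subgroup of the base and the marked points, compatible with the letters. -/
structure Marked (A B : ι → Subgroup G) (φ : ∀ i, A i ≃* B i) where
  /-- The subgroup of the base. -/
  K : Subgroup G
  /-- The point moved by a signed letter. -/
  pt : ι × Bool → G
  compat : ∀ (x : ι × Bool) (g : toSub A B x), (pt x)⁻¹ * g * pt x ∈ K →
    (pt (op x))⁻¹ * (toSubEquiv φ x g : G) * pt (op x) ∈ K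

namespace Marked

variable (P : Marked A B φ)

/-- The edge of a signed letter. -/
def ed (x : ι × Bool) : MHNN A B φ := (of (P.pt (op x)))⁻¹ * tw x * of (P.pt x)

theorem ed_op (x : ι × Bool) : P.ed (op x) = (P.ed x)⁻¹ := by
  simp [ed, tw_op, mul_assoc]

/-- The group of the edges and `K`. -/
def EE : Subgroup (MHNN A B φ) :=
  Subgroup.closure ((of : G →* MHNN A B φ) '' (P.K : Set G) ∪ Set.range P.ed)

theorem of_mem_EE {k : G} (hk : k ∈ P.K) : (of k : MHNN A B φ) ∈ P.EE :=
  Subgroup.subset_closure (Or.inl ⟨k, hk, rfl⟩)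

theorem ed_mem_EE (x : ι × Bool) : P.ed x ∈ P.EE := Subgroup.subset_closure (Or.inr ⟨x, rfl⟩)

/-- The letter can be run at the point `h`. -/
def Run (x : ι × Bool) (h : G) : Prop :=
  ∃ g : toSub A B x, (P.pt x)⁻¹ * (g : G)⁻¹ * h ∈ P.K

theorem run_iff {x : ι × Bool} {h : G} :
    P.Run x h ↔ ∃ g : toSub A B x, ∃ k ∈ P.K, h = g * P.pt x * k := by
  constructor
  · rintro ⟨g, hg⟩
    exact ⟨g, _, hg, by simp [mul_assoc]⟩
  · rintro ⟨g, k, hk, rfl⟩
    exact ⟨g, by simpa [mul_assoc] using hk⟩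

/-- Running a letter. -/
theorem tw_mul_of_eq {x : ι × Bool} {h : G} (g : toSub A B x) :
    tw x * (of h : MHNN A B φ) = of ((toSubEquiv φ x g : G) * P.pt (op x)) * P.ed x *
      of ((P.pt x)⁻¹ * (g : G)⁻¹ * h) := by
  have e : tw x * (of h : MHNN A B φ) = tw x * of (g : G) * of ((g : G)⁻¹ * h) := by
    rw [mul_assoc, ← map_mul, mul_inv_cancel_left]
  rw [e, tw_mul_of]
  simp [ed, mul_assoc]

/-! ### Words in the edges -/

/-- The value of a word in the edges. -/
def eprod (es : List ((ι × Bool) × G)) : MHNN A B φ :=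
  (es.map fun p => P.ed p.1 * of p.2).prod

/-- The head of the syllable form of an edge word. -/
def ehd : List ((ι × Bool) × G) → G
  | [] => 1
  | p :: _ => (P.pt (op p.1))⁻¹

/-- The syllables of an edge word. -/
def esyl : List ((ι × Bool) × G) → List ((ι × Bool) × G)
  | [] => []
  | p :: es => (p.1, P.pt p.1 * p.2 * P.ehd es) :: esyl es

theorem eprod_cons (p : (ι × Bool) × G) (es : List ((ι × Bool) × G)) :
    P.eprod (p :: es) = P.ed p.1 * of p.2 * P.eprod es := by
  simp [eprod]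

theorem eprod_eq (es : List ((ι × Bool) × G)) :
    P.eprod es = wval φ (P.ehd es) (P.esyl es) := by
  induction es with
  | nil => simp [eprod, ehd, esyl, wval]
  | cons p es ih =>
    rw [P.eprod_cons, ih]
    simp [wval, ehd, esyl, ed, mul_assoc]

theorem map_fst_esyl (es : List ((ι × Bool) × G)) :
    (P.esyl es).map Prod.fst = es.map Prod.fst := by
  induction es with
  | nil => rfl
  | cons p es ih => simp [esyl, ih]

/-- Reduced representatives of edge words. -/
theorem exists_red_eprod (es : List ((ι × Bool) × G)) (hes : ∀ p ∈ es, p.2 ∈ P.K) :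
    ∃ k₀ es', k₀ ∈ P.K ∧ (∀ p ∈ es', p.2 ∈ P.K) ∧ Red A B (P.esyl es') ∧
      P.eprod es = of k₀ * P.eprod es' := by
  induction es with
  | nil => exact ⟨1, [], one_mem _, by simp, red_nil, by simp⟩
  | cons p es ih =>
    obtain ⟨x, k⟩ := p
    obtain ⟨k₀, es', hk₀, hes', hred, he⟩ := ih fun q hq => hes q (List.mem_cons_of_mem _ hq)
    have hk' : k * k₀ ∈ P.K := mul_mem (hes (x, k) List.mem_cons_self) hk₀
    have hval : P.eprod ((x, k) :: es) = P.ed x * of (k * k₀) * P.eprod es' := by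
      rw [P.eprod_cons, he]; simp [mul_assoc]
    cases es' with
    | nil =>
      exact ⟨1, [(x, k * k₀)], one_mem _, by simpa using hk', red_singleton _,
        by rw [hval]; simp [eprod]⟩
    | cons q r =>
      obtain ⟨y, k₁⟩ := q
      by_cases hp : y = op x ∧ P.pt x * (k * k₀) * (P.pt (op y))⁻¹ ∈ toSub A B x
      · obtain ⟨rfl, hmem⟩ := hp
        rw [op_op] at hmem
        have hk₂ := P.compat x ⟨_, hmem⟩ (by simpa [mul_assoc] using hk')
        refine ⟨(P.pt (op x))⁻¹ * (toSubEquiv φ x ⟨_, hmem⟩ : G) * P.pt (op x) * k₁, r,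
          mul_mem hk₂ (hes' (op x, k₁) List.mem_cons_self),
          fun q hq => hes' q (List.mem_cons_of_mem _ hq), hred.tail, ?_⟩
        rw [hval, P.eprod_cons, P.ed_op]
        have e := tw_mul_of_mul_tw_op (φ := φ) x ⟨_, hmem⟩
        rw [tw_op] at e
        simp only [map_mul, map_inv, mul_assoc] at e ⊢
        rw [← e]
        simp [ed, mul_assoc]
      · refine ⟨1, (x, k * k₀) :: (y, k₁) :: r, one_mem _, ?_, ?_, by
          rw [hval, map_one, one_mul, P.eprod_cons (x, k * k₀)]⟩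
        · rintro q hq
          rcases List.mem_cons.1 hq with rfl | hq
          · exact hk'
          · exact hes' q hq
        · refine red_cons.2 ⟨?_, hred⟩
          intro z hz hmem hzx
          simp only [esyl, List.head?_cons, Option.mem_def, Option.some.injEq] at hz
          subst hz
          exact hp ⟨hzx, hmem⟩

theorem exists_rep {ε : MHNN A B φ} (hε : ε ∈ P.EE) :
    ∃ k₀ es, k₀ ∈ P.K ∧ (∀ p ∈ es, p.2 ∈ P.K) ∧ Red A B (P.esyl es) ∧
      ε = of k₀ * P.eprod es := by
  suffices h : ∃ k₀ es, k₀ ∈ P.K ∧ (∀ p ∈ es, p.2 ∈ P.K) ∧ ε = of k₀ * P.eprod es by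
    obtain ⟨k₀, es, hk₀, hes, rfl⟩ := h
    obtain ⟨k₁, es', hk₁, hes', hred, he⟩ := P.exists_red_eprod es hes
    exact ⟨k₀ * k₁, es', mul_mem hk₀ hk₁, hes', hred, by rw [he, map_mul, mul_assoc]⟩
  refine Subgroup.closure_induction_left ⟨1, [], one_mem _, by simp, by simp [eprod]⟩ ?_ ?_ hε
  all_goals intro x hx y _ ⟨k₀, es, hk₀, hes, hy⟩
  · rcases hx with ⟨k, hk, rfl⟩ | ⟨z, rfl⟩
    · exact ⟨k * k₀, es, mul_mem hk hk₀, hes, by rw [hy, map_mul, mul_assoc]⟩
    · exact ⟨1, (z, k₀) :: es, one_mem _, List.forall_mem_cons.2 ⟨hk₀, hes⟩, by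
        rw [hy, P.eprod_cons, map_one, one_mul, mul_assoc]⟩
  · rcases hx with ⟨k, hk, rfl⟩ | ⟨z, rfl⟩
    · exact ⟨k⁻¹ * k₀, es, mul_mem (inv_mem hk) hk₀, hes, by
        rw [hy, map_mul, map_inv, mul_assoc]⟩
    · exact ⟨1, (op z, k₀) :: es, one_mem _, List.forall_mem_cons.2 ⟨hk₀, hes⟩, by
        rw [hy, P.eprod_cons, P.ed_op, map_one, one_mul, mul_assoc]⟩

/-! ### Peeled words -/

/-- A reduced word whose last letter cannot be run. -/
def Peeled (l : List ((ι × Bool) × G)) : Prop :=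
  Red A B l ∧ ∀ y ∈ l.getLast?, ¬ P.Run y.1 y.2

theorem peeled_nil : P.Peeled [] := ⟨red_nil, by simp⟩

/-- A peeled word absorbs an edge word without pinches. -/
theorem exists_red_mul {h : G} {l : List ((ι × Bool) × G)} (hl : P.Peeled l) {k₀ : G}
    (hk₀ : k₀ ∈ P.K) {es : List ((ι × Bool) × G)} (hred : Red A B (P.esyl es)) :
    ∃ h' l', Red A B l' ∧ wval φ h' l' = wval φ h l * (of k₀ * P.eprod es) ∧
      l'.map Prod.fst = l.map Prod.fst ++ es.map Prod.fst := by
  rcases List.eq_nil_or_concat' l with rfl | ⟨l₀, ⟨y, g⟩, rfl⟩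
  · exact ⟨h * k₀ * P.ehd es, P.esyl es, hred, by rw [P.eprod_eq]; simp [wval, mul_assoc],
      P.map_fst_esyl es⟩
  · obtain ⟨hr, hlast⟩ := hl
    obtain ⟨hr₀, -, hb⟩ := red_append.1 hr
    refine ⟨h, l₀ ++ (y, g * k₀ * P.ehd es) :: P.esyl es, red_append.2 ⟨hr₀,
      red_cons.2 ⟨?_, hred⟩, ?_⟩, by rw [P.eprod_eq]; simp [wval, mul_assoc],
      by simp [P.map_fst_esyl]⟩
    · intro z hz hmem hzy
      cases es with
      | nil => simp [esyl] at hz
      | cons p r =>
        simp only [esyl, List.head?_cons, Option.mem_def, Option.some.injEq] at hz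
        subst hz
        refine hlast (y, g) (by simp) ⟨⟨_, hmem⟩, ?_⟩
        have hzy' : p.1 = op y := hzy
        simpa [ehd, hzy', mul_assoc] using inv_mem hk₀
    · intro z hz w hw
      simp only [List.head?_cons, Option.mem_def, Option.some.injEq] at hw
      subst hw
      exact hb z hz (y, g) (by simp)

/-- Peeled words of the same coset: same letters, and they differ by an element of `K`. -/
theorem peeled_unique {h h' : G} {l l' : List ((ι × Bool) × G)} (hl : P.Peeled l)
    (hl' : P.Peeled l') (he : (wval φ h l)⁻¹ * wval φ h' l' ∈ P.EE) :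
    l.map Prod.fst = l'.map Prod.fst ∧ ∃ k ∈ P.K, (wval φ h l)⁻¹ * wval φ h' l' = of k := by
  have key : ∀ {h h' : G} {l l' : List ((ι × Bool) × G)}, P.Peeled l → P.Peeled l' →
      ∀ {k₀ : G} {es : List ((ι × Bool) × G)}, k₀ ∈ P.K → Red A B (P.esyl es) →
        (wval φ h l)⁻¹ * wval φ h' l' = of k₀ * P.eprod es →
        l'.map Prod.fst = l.map Prod.fst ++ es.map Prod.fst := by
    intro h h' l l' hl hl' k₀ es hk₀ hred e
    obtain ⟨h'', l'', hr'', hv, hf⟩ := P.exists_red_mul (h := h) hl hk₀ hred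
    rw [← e, mul_inv_cancel_left] at hv
    rw [← hf]
    exact map_fst_eq_of_prod_eq hl'.1 hr'' hv.symm
  obtain ⟨k₀, es, hk₀, -, hred, e⟩ := P.exists_rep he
  obtain ⟨k₁, es', hk₁, -, hred', e'⟩ := P.exists_rep (inv_mem he)
  rw [mul_inv_rev, inv_inv] at e'
  have h₁ := key hl hl' hk₀ hred e
  have h₂ := key hl' hl hk₁ hred' e'
  have hn : es = [] := by
    have a := congrArg List.length h₁
    have b := congrArg List.length h₂
    simp only [List.length_append, List.length_map] at a b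
    exact List.eq_nil_of_length_eq_zero (by omega)
  subst hn
  exact ⟨by simpa using h₁.symm, k₀, hk₀, by simpa [eprod] using e⟩

/-- The edge group meets the base in `K`. -/
theorem mem_K_of_of_mem {g : G} (hg : (of g : MHNN A B φ) ∈ P.EE) : g ∈ P.K := by
  obtain ⟨-, k, hk, e⟩ := P.peeled_unique (h := 1) (h' := g) P.peeled_nil P.peeled_nil
    (by simpa [wval] using hg)
  rw [show g = k from of_injective (φ := φ) (by simpa [wval] using e)]
  exact hk

/-- A peeled word with a letter is not in a coset of the base. -/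
theorem not_mem_of_peeled {h g : G} {l : List ((ι × Bool) × G)} (hl : P.Peeled l)
    (hne : l ≠ []) : (wval φ h l)⁻¹ * of g ∉ P.EE := fun he =>
  hne (List.map_eq_nil_iff.1
    (P.peeled_unique (h' := g) hl P.peeled_nil (by simpa [wval] using he)).1)

/-- Every coset of the edge group has a peeled word. -/
theorem exists_peeled (z : MHNN A B φ) :
    ∃ h l, P.Peeled l ∧ (wval φ h l)⁻¹ * z ∈ P.EE := by
  suffices H : ∀ n h l, List.length l ≤ n →
      ∃ h' l', P.Peeled l' ∧ (wval φ h' l')⁻¹ * wval φ h l ∈ P.EE by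
    obtain ⟨h, l, -, rfl⟩ := exists_red z
    exact H _ h l le_rfl
  intro n
  induction n with
  | zero =>
    intro h l hl
    obtain rfl := List.eq_nil_of_length_eq_zero (Nat.le_zero.1 hl)
    exact ⟨h, [], P.peeled_nil, by simp [one_mem]⟩
  | succ n ih =>
    intro h l hl
    obtain ⟨h₁, l₁, hr, he, hs⟩ := exists_red_sublist (φ := φ) h l
    have hlen : l₁.length ≤ n + 1 := (by simpa using hs.length_le : l₁.length ≤ l.length).trans hl
    rw [show wval φ h l = wval φ h₁ l₁ from he.symm]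
    rcases List.eq_nil_or_concat' l₁ with rfl | ⟨l₀, ⟨y, g⟩, rfl⟩
    · exact ⟨h₁, [], P.peeled_nil, by simp [one_mem]⟩
    by_cases hrun : P.Run y g
    · obtain ⟨a, ha⟩ := hrun
      obtain ⟨h₂, l₂, hl₂, e₂⟩ :=
        exists_wval_mul_of (φ := φ) h₁ l₀ ((toSubEquiv φ y a : G) * P.pt (op y))
      obtain ⟨h₃, l₃, hp, he₃⟩ := ih h₂ l₂ (by simp at hlen; omega)
      refine ⟨h₃, l₃, hp, ?_⟩
      have e : wval φ h₁ (l₀ ++ [(y, g)]) =
          wval φ h₂ l₂ * (P.ed y * of ((P.pt y)⁻¹ * (a : G)⁻¹ * g)) := by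
        rw [e₂, ← mul_assoc, mul_assoc (wval φ h₁ l₀), mul_assoc (wval φ h₁ l₀), ← P.tw_mul_of_eq a]
        simp [wval, mul_assoc]
      rw [e, ← mul_assoc]
      exact mul_mem he₃ (mul_mem (P.ed_mem_EE y) (P.of_mem_EE ha))
    · exact ⟨h₁, l₀ ++ [(y, g)], ⟨hr, by simpa using hrun⟩, by simp [one_mem]⟩

/-- Membership of a base element. -/
theorem of_mem_iff {g : G} : (of g : MHNN A B φ) ∈ P.EE ↔ g ∈ P.K :=
  ⟨P.mem_K_of_of_mem, P.of_mem_EE⟩

end Marked

end Vale.Agent.P193.C
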