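import Mathlib
import Vale.Agent.P193.C.Defs
import Vale.Agent.P193.C.Peel

/-!
P193, C4: criteria in `W`. Peeled words of `W`; for a set of letters `S` and a set of points `I`
closed under the runs by `S`, the union of the cosets `ρ P EE` (`ρ` a word in `S`, `P ∈ I`) and the
certificates for its complement. The instances are `R Pf EE` and the cosets of the starts under
the loading letters.
-/

noncomputable section

namespace Vale.Agent.P193.C

open Multiplicative MHNN

/-- A word is in the subgroup of a set of free generators when its reduced letters are in the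
set. -/
theorem freeGroup_mem_closure_iff {α : Type} [DecidableEq α] {S : Set α} {x : FreeGroup α} :
    x ∈ Subgroup.closure (FreeGroup.of '' S) ↔ ∀ p ∈ x.toWord, p.1 ∈ S := by
  constructor
  · intro hx
    induction hx using Subgroup.closure_induction with
    | mem x hx => obtain ⟨a, ha, rfl⟩ := hx; simpa using ha
    | one => simp
    | mul x y _ _ hx hy =>
      intro p hp
      rw [FreeGroup.toWord_mul] at hp
      rcases List.mem_append.1 (FreeGroup.reduce.red.sublist.subset hp) with h | h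
      · exact hx p h
      · exact hy p h
    | inv x _ hx =>
      intro p hp
      rw [FreeGroup.toWord_inv, FreeGroup.invRev, List.mem_reverse, List.mem_map] at hp
      obtain ⟨q, hq, rfl⟩ := hp
      exact hx q hq
  · intro h
    rw [← FreeGroup.mk_toWord (x := x)]
    generalize x.toWord = s at h
    induction s with
    | nil => exact one_mem _
    | cons p s ih =>
      obtain ⟨a, b⟩ := p
      rw [show FreeGroup.mk ((a, b) :: s) = FreeGroup.mk [(a, b)] * FreeGroup.mk s by simp]
      refine mul_mem ?_ (ih fun q hq => h q (List.mem_cons_of_mem _ hq))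
      have ha : FreeGroup.of a ∈ Subgroup.closure (FreeGroup.of '' S) :=
        Subgroup.subset_closure ⟨a, h (a, b) List.mem_cons_self, rfl⟩
      cases b
      · exact inv_mem ha
      · exact ha

namespace Mach

variable {k : ℕ} (M : Mach k)

theorem iso_val (r : M.Letter) (p : M.Par r) :
    ((M.iso r ⟨M.dom r p, p, rfl⟩ : (M.cod r).range) : G0 k) = M.cod r p := by
  have e : MonoidHom.ofInjective (M.dom_injective r) p = ⟨M.dom r p, p, rfl⟩ := Subtype.ext rfl
  rw [iso, MulEquiv.trans_apply, ← e, MulEquiv.symm_apply_apply]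
  rfl

/-- The marked points of `W`. -/
def marked : Marked (fun r => (M.dom r).range) (fun r => (M.cod r).range) M.iso where
  K := ⊥
  pt x := cond x.2 (M.src x.1) (M.tgt x.1)
  compat x g h := by
    rw [Subgroup.mem_bot, mul_eq_one_iff_eq_inv, mul_eq_left] at h
    rw [show g = 1 from Subtype.ext h, map_one]
    simp

theorem marked_ed_true (r : M.Letter) : M.marked.ed (r, true) = (M.edge r)⁻¹ := by
  simp [Marked.ed, marked, edge, mul_assoc]

theorem marked_EE : M.marked.EE = M.EE := by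
  apply le_antisymm
  · refine (Subgroup.closure_le _).2 ?_
    rintro _ (⟨g, hg, rfl⟩ | ⟨⟨r, b⟩, rfl⟩)
    · obtain rfl : g = 1 := Subgroup.mem_bot.1 hg
      simp
    · have hr : M.edge r ∈ M.EE := Subgroup.subset_closure ⟨r, rfl⟩
      cases b
      · rw [show (r, false) = op (r, true) from rfl, Marked.ed_op, M.marked_ed_true, inv_inv]
        exact hr
      · rw [M.marked_ed_true]
        exact inv_mem hr
  · refine (Subgroup.closure_le _).2 ?_
    rintro _ ⟨r, rfl⟩
    rw [← inv_inv (M.edge r), ← M.marked_ed_true r]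
    exact inv_mem (M.marked.ed_mem_EE _)

/-- W2: an edge word in the base is trivial. -/
theorem eq_one_of_mem_EE {g : G0 k} (h : M.ofG g ∈ M.EE) : g = 1 := by
  rw [← marked_EE] at h
  exact Subgroup.mem_bot.1 (M.marked.mem_K_of_of_mem h)

theorem run_marked_iff {x : M.Letter × Bool} {h : G0 k} :
    M.marked.Run x h ↔ h * (M.marked.pt x)⁻¹ ∈
      toSub (fun r => (M.dom r).range) (fun r => (M.cod r).range) x := by
  rw [Marked.run_iff]
  constructor
  · rintro ⟨g, k, hk, rfl⟩
    obtain rfl : k = 1 := Subgroup.mem_bot.1 hk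
    simp
  · intro hm
    exact ⟨⟨_, hm⟩, 1, one_mem _, by simp⟩

/-! ### Stable sets of points -/

/-- `I` is closed in both directions under the runs by the letters of `S`. -/
def Stable (S : Set M.Letter) (I : Set (G0 k)) : Prop :=
  ∀ r ∈ S, ∀ p : M.Par r, (M.dom r p * M.src r ∈ I ↔ M.cod r p * M.tgt r ∈ I)

theorem Stable.run {M : Mach k} {S : Set M.Letter} {I : Set (G0 k)} (hS : M.Stable S I)
    {x : M.Letter × Bool} (hx : x.1 ∈ S) {P : G0 k} (hP : P ∈ I) (hrun : M.marked.Run x P) :
    ∃ P' ∈ I, (M.ofG P')⁻¹ * (tw x * M.ofG P) ∈ M.EE := by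
  obtain ⟨r, b⟩ := x
  obtain ⟨g, hg⟩ := hrun
  obtain rfl : P = g * M.marked.pt (r, b) := by
    calc P = g * M.marked.pt (r, b) * ((M.marked.pt (r, b))⁻¹ * (g : G0 k)⁻¹ * P) := by
          simp [mul_assoc]
      _ = g * M.marked.pt (r, b) := by rw [Subgroup.mem_bot.1 hg, mul_one]
  refine ⟨(toSubEquiv M.iso (r, b) g : G0 k) * M.marked.pt (op (r, b)), ?_, ?_⟩
  · cases b
    · obtain ⟨_, p, rfl⟩ := g
      have e : (toSubEquiv M.iso (r, false) ⟨M.cod r p, p, rfl⟩ : G0 k) = M.dom r p :=
        congrArg Subtype.val ((M.iso r).symm_apply_eq.2 (Subtype.ext (M.iso_val r p).symm) :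
          (M.iso r).symm ⟨M.cod r p, p, rfl⟩ = ⟨M.dom r p, p, rfl⟩)
      exact e ▸ (hS r hx p).2 hP
    · obtain ⟨_, p, rfl⟩ := g
      exact (M.iso_val r p).symm ▸ (hS r hx p).1 hP
  · rw [← M.marked_EE, M.marked.tw_mul_of_eq g]
    simp [mul_assoc, M.marked.ed_mem_EE]

/-- The value of a word in the letters. -/
def lw (s : List (M.Letter × Bool)) : M.W := MHNN.ofFree (FreeGroup.mk s)

theorem lw_cons (x : M.Letter × Bool) (s : List (M.Letter × Bool)) :
    M.lw (x :: s) = tw x * M.lw s := by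
  have e : (tw x : M.W) = MHNN.ofFree (FreeGroup.mk [x]) := by
    obtain ⟨r, _ | _⟩ := x
    · rw [tw_false, ← ofFree_of, ← map_inv]
      rfl
    · rw [tw_true, ← ofFree_of]
      rfl
  rw [lw, lw, e, ← map_mul, FreeGroup.mul_mk, List.singleton_append]

@[simp] theorem lw_nil : M.lw [] = 1 := by simp [lw, ← FreeGroup.one_eq_mk]

/-- The union of the cosets `ρ P EE`. -/
def Lin (S : Set M.Letter) (I : Set (G0 k)) : Set M.W :=
  {z | ∃ s : List (M.Letter × Bool), (∀ x ∈ s, x.1 ∈ S) ∧
    ∃ P ∈ I, (M.lw s * M.ofG P)⁻¹ * z ∈ M.EE}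

theorem exists_peeled_path {S : Set M.Letter} {I : Set (G0 k)} (hS : M.Stable S I)
    (s : List (M.Letter × Bool)) (hs : FreeGroup.IsReduced s) (hSs : ∀ x ∈ s, x.1 ∈ S)
    {P : G0 k} (hP : P ∈ I) :
    ∃ s' h l, s' <+: s ∧ M.marked.Peeled l ∧ l.map Prod.fst = s' ∧
      ∃ P' ∈ I, wval M.iso h l = M.lw s' * M.ofG P' ∧
        (M.lw s' * M.ofG P')⁻¹ * (M.lw s * M.ofG P) ∈ M.EE ∧
        ∀ x ∈ s'.getLast?, ¬ M.marked.Run x P' := by
  induction s with
  | nil =>
    exact ⟨[], P, [], List.prefix_refl _, M.marked.peeled_nil, rfl, P, hP,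
      by simp [wval], by simp [one_mem], by simp⟩
  | cons x s ih =>
    obtain ⟨s', h, l, hpre, hl, hfst, P', hP', hv, he, hlast⟩ :=
      ih hs.tail fun y hy => hSs y (List.mem_cons_of_mem _ hy)
    cases s' with
    | nil =>
      rw [List.map_eq_nil_iff] at hfst
      subst hfst
      by_cases hrun : M.marked.Run x P'
      · obtain ⟨P'', hP'', hx⟩ := hS.run (hSs x List.mem_cons_self) hP' hrun
        refine ⟨[], P'', [], List.nil_prefix, M.marked.peeled_nil, rfl, P'', hP'',
          by simp [wval], ?_, by simp⟩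
        have := mul_mem hx he
        simpa [M.lw_cons, mul_assoc] using this
      · refine ⟨[x], 1, [(x, P')], by simp, ⟨red_singleton _, by simpa using hrun⟩, rfl,
          P', hP', ?_, ?_, by simpa using hrun⟩
        · simp [wval, M.lw_cons]
        · simpa [M.lw_cons, mul_assoc] using he
    | cons y r =>
      refine ⟨x :: y :: r, 1, (x, h) :: l, List.cons_prefix_cons.2 ⟨rfl, hpre⟩, ⟨?_, ?_⟩,
        by simp [hfst], P', hP', ?_, ?_, by simpa using hlast⟩
      · refine red_cons.2 ⟨?_, hl.1⟩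
        intro z hz _ hzx
        obtain ⟨l₀, hl₀⟩ : ∃ l₀, l = z :: l₀ := by cases l <;> simp_all
        obtain ⟨t, ht⟩ := hpre
        subst hl₀
        simp only [List.map_cons, List.cons.injEq] at hfst
        have hxy : x.1 = y.1 → x.2 = y.2 := by
          subst ht
          exact (FreeGroup.isReduced_cons_cons.1 hs).1
        rw [← hfst.1, show z.1 = op x from hzx] at hxy
        exact op_ne x (Prod.ext rfl (hxy rfl).symm)
      · intro z hz
        have hne : l ≠ [] := by rintro rfl; simp at hfst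
        rw [List.getLast?_cons, Option.mem_def, Option.some.injEq,
          List.getLast?_eq_some_getLast hne, Option.getD_some] at hz
        exact hl.2 z (by rw [List.getLast?_eq_some_getLast hne, ← hz]; rfl)
      · rw [M.lw_cons, mul_assoc, ← hv]
        simp [wval, mul_assoc]
      · simpa [M.lw_cons x, mul_assoc] using he

/-- The criterion for `Lin` at a peeled word of the coset. -/
theorem mem_Lin_iff {S : Set M.Letter} {I : Set (G0 k)} (hS : M.Stable S I) {z : M.W} {h : G0 k}
    {l : List ((M.Letter × Bool) × G0 k)} (hl : M.marked.Peeled l)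
    (he : (wval M.iso h l)⁻¹ * z ∈ M.EE) :
    z ∈ M.Lin S I ↔ (∀ x ∈ l.map Prod.fst, x.1 ∈ S) ∧
      ∃ P ∈ I, (M.lw (l.map Prod.fst) * M.ofG P)⁻¹ * z ∈ M.EE := by
  refine ⟨?_, fun ⟨hs, hP⟩ => ⟨_, hs, hP⟩⟩
  rintro ⟨s, hs, P, hP, hz⟩
  classical
  have hmk : M.lw (FreeGroup.reduce s) = M.lw s := congrArg MHNN.ofFree FreeGroup.reduce.self
  obtain ⟨s', h', l', hpre, hl', hfst, P', hP', hv, he', -⟩ := M.exists_peeled_path hS
    (FreeGroup.reduce s) (FreeGroup.isReduced_toWord (x := FreeGroup.mk s))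
    (fun x hx => hs x (FreeGroup.reduce.red.sublist.subset hx)) hP
  rw [hmk] at he'
  have hz' : (M.lw s' * M.ofG P')⁻¹ * z ∈ M.EE := by simpa [mul_assoc] using mul_mem he' hz
  obtain ⟨e, -⟩ := M.marked.peeled_unique (h := h) (h' := h') hl hl' (by
    rw [M.marked_EE, hv]
    simpa [mul_assoc] using mul_mem he (inv_mem hz'))
  rw [e, hfst]
  exact ⟨fun x hx => hs x (FreeGroup.reduce.red.sublist.subset (hpre.subset hx)), P', hP', hz'⟩

/-- The certificates for the complement of `Lin`. -/
theorem not_mem_Lin_iff {S : Set M.Letter} {I : Set (G0 k)} (hS : M.Stable S I) {z : M.W} :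
    z ∉ M.Lin S I ↔ ∃ h l, M.marked.Peeled l ∧ (wval M.iso h l)⁻¹ * z ∈ M.EE ∧
      ((∃ x ∈ l.map Prod.fst, x.1 ∉ S) ∨
        ∃ h' l', M.marked.Peeled l' ∧
          (wval M.iso h' l')⁻¹ * ((M.lw (l.map Prod.fst))⁻¹ * z) ∈ M.EE ∧ (l' ≠ [] ∨ h' ∉ I)) := by
  constructor
  · intro hz
    obtain ⟨h, l, hl, he⟩ := M.marked.exists_peeled z
    rw [marked_EE] at he
    refine ⟨h, l, hl, he, ?_⟩
    by_cases hs : ∀ x ∈ l.map Prod.fst, x.1 ∈ S
    · obtain ⟨h', l', hl', he'⟩ := M.marked.exists_peeled ((M.lw (l.map Prod.fst))⁻¹ * z)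
      rw [marked_EE] at he'
      refine .inr ⟨h', l', hl', he', ?_⟩
      by_contra hcon
      rw [not_or, not_not, not_not] at hcon
      obtain ⟨rfl, hI⟩ := hcon
      exact hz ⟨_, hs, h', hI, by simpa [wval, mul_assoc] using he'⟩
    · push Not at hs
      exact .inl hs
  · rintro ⟨h, l, hl, he, hcase⟩ hz
    obtain ⟨hs, P, hP, hzP⟩ := (M.mem_Lin_iff hS hl he).1 hz
    rcases hcase with ⟨x, hx, hxS⟩ | ⟨h', l', hl', he', hcase⟩
    · exact hxS (hs x hx)
    · have hu := M.marked.peeled_unique (h := h') (h' := P) hl' M.marked.peeled_nil (by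
        rw [marked_EE]
        simpa [wval, mul_assoc] using mul_mem he' (inv_mem hzP))
      have hnil : l' = [] := List.map_eq_nil_iff.1 hu.1
      subst hnil
      obtain ⟨-, c, hc, e⟩ := hu
      obtain rfl : c = 1 := Subgroup.mem_bot.1 hc
      have hh : h' = P := by
        refine MHNN.of_injective (φ := M.iso) ?_
        simpa [wval, inv_mul_eq_one] using e
      rcases hcase with h0 | h0
      · exact h0 rfl
      · exact h0 (hh ▸ hP)

/-! ### The two instances -/

/-- The points whose position reaches the final one. -/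
def liveSet : Set (G0 k) := {P | M.live (toAdd P.1) = true}

/-- The starts. -/
def startSet : Set (G0 k) := Set.range M.start

/-- The letters of `R`. -/
def rSet : Set M.Letter := {r | M.isR r}

/-- The loading letters as a set. -/
def qSet : Set M.Letter := Set.range Letter.q

theorem live_app {r : Move} (hr : r ∈ M.rules) {x : Pt} (hx : r.Mem x) :
    M.live (r.app x) = M.live x := by
  rw [Bool.eq_iff_iff, M.live_iff, M.live_iff]
  refine ⟨fun h => h.head ⟨r, hr, hx, rfl⟩, fun h => ?_⟩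
  rcases h.cases_head with rfl | ⟨y, ⟨r', hr', hx', rfl⟩, hy⟩
  · exact absurd ⟨r, hr, hx, rfl⟩ (M.final_stuck _)
  · rwa [M.deterministic r hr r' hr' x hx hx']

theorem Move.mem_app_param (r : Move) (i j : ℤ) :
    r.Mem ((r.M + 1 : ℤ) * i + r.a, (r.N + 1 : ℤ) * j + r.b) ∧
      r.app ((r.M + 1 : ℤ) * i + r.a, (r.N + 1 : ℤ) * j + r.b) =
        ((r.M' + 1 : ℤ) * i + r.c, (r.N' + 1 : ℤ) * j + r.d) := by
  refine ⟨⟨by simp, by simp⟩, ?_⟩
  simp only [Move.app, add_sub_cancel_right]
  rw [Int.mul_ediv_cancel_left _ (by omega), Int.mul_ediv_cancel_left _ (by omega), add_comm,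
    add_comm r.d]

theorem stable_live : M.Stable M.rSet M.liveSet := by
  intro r hr p
  cases r with
  | q i => exact absurd hr id
  | e i => simp [liveSet, dom, cod, src, tgt, tau]
  | rule i =>
    obtain ⟨p, f⟩ := p
    have hr' : M.rules[i] ∈ M.rules := List.getElem_mem _
    obtain ⟨hm, ha⟩ := Mach.Move.mem_app_param (M.rules[i]) (toAdd p).1 (toAdd p).2
    have := M.live_app hr' hm
    rw [ha] at this
    simp only [liveSet, Set.mem_ofPred_eq, dom, cod, src, tgt, tau, Prod.fst_mul, toAdd_mul,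
      toAdd_ofAdd]
    exact Iff.of_eq (congrArg (· = true) this.symm)

theorem encode_cons_mod (i : Fin k) (v : List (Fin k)) :
    (encode (i :: v)) % (base k : ℤ) = (i : ℤ) + 1 := by
  have := i.isLt
  rw [encode, Int.mul_add_emod_self_left, Int.emod_eq_of_lt (by omega) (by unfold base; omega)]

theorem encode_nil_mod : (encode ([] : List (Fin k))) % (base k : ℤ) = (base k : ℤ) - 1 := by
  rw [encode, Int.emod_eq_of_lt (by unfold base; omega) (by omega)]

theorem stable_start : M.Stable M.qSet M.startSet := by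
  rintro _ ⟨i, rfl⟩ ⟨p, f⟩
  have hb : (base k : ℤ) ≠ 0 := by unfold base; omega
  have hcod : M.cod (.q i) (p, f) * M.tgt (.q i) =
      tau ((base k : ℤ) * (toAdd p).1 + ((i : ℤ) + 1), (toAdd p).2) (FreeGroup.of i * f) := by
    refine Prod.ext (toAdd.injective ?_) ?_
    · simp [cod, tgt, tau, scale]
      ext <;> simp
    · simp [cod, tgt, tau, mul_assoc]
  have hdom : M.dom (.q i) (p, f) * M.src (.q i) = (p, f) := by simp [dom, src]
  rw [hcod, hdom]
  constructor
  · rintro ⟨v, hv⟩
    obtain ⟨rfl, rfl⟩ := Prod.ext_iff.1 hv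
    exact ⟨i :: v, by simp [start, tau, encode, val]⟩
  · rintro ⟨v, hv⟩
    obtain ⟨hp, hf⟩ := Prod.ext_iff.1 hv
    have hp' := congrArg toAdd hp
    simp only [start, tau, toAdd_ofAdd, Prod.mk.injEq] at hp'
    obtain ⟨hx, hy⟩ := hp'
    have hmod := congrArg (· % (base k : ℤ)) hx
    simp only [Int.mul_add_emod_self_left] at hmod
    have hi := i.isLt
    rw [Int.emod_eq_of_lt (a := (i : ℤ) + 1) (by omega) (by unfold base; omega)] at hmod
    cases v with
    | nil => rw [encode_nil_mod] at hmod; unfold base at hmod; omega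
    | cons j v =>
      rw [encode_cons_mod] at hmod
      obtain rfl : j = i := Fin.ext (by omega)
      refine ⟨v, Prod.ext (toAdd.injective (Prod.ext ?_ hy)) ?_⟩
      · simp only [start, tau, toAdd_ofAdd, encode, add_left_inj, mul_eq_mul_left_iff, hb,
          or_false] at hx ⊢
        exact hx
      · simpa [start, tau, val] using hf

theorem mem_liveSet {P : G0 k} : P ∈ M.liveSet ↔ M.live (toAdd P.1) = true := Iff.rfl

theorem Pf_mem_liveSet : M.Pf ∈ M.liveSet := by
  simp [liveSet, Pf, tau, (M.live_iff M.final).2 Relation.ReflTransGen.refl]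

theorem tL_mem_R {r : M.Letter} (hr : M.isR r) : M.tL r ∈ M.R :=
  Subgroup.subset_closure ⟨r, hr, rfl⟩

/-- A run as an equality of cosets. -/
theorem edge_step (r : M.Letter) (p : M.Par r) :
    (M.ofG (M.cod r p * M.tgt r))⁻¹ * (M.tL r * M.ofG (M.dom r p * M.src r)) =
      (M.edge r)⁻¹ := by
  have h := MHNN.t_mul_of (φ := M.iso) r ⟨M.dom r p, p, rfl⟩
  rw [M.iso_val] at h
  simp only [map_mul, mul_inv_rev, edge, mul_assoc]
  rw [← mul_assoc (M.tL r) (M.ofG (M.dom r p)), h]
  simp [mul_assoc]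

theorem mem_R_iff_word {ρ : M.W} :
    ρ ∈ M.R ↔ ∃ s : List (M.Letter × Bool), (∀ x ∈ s, x.1 ∈ M.rSet) ∧ M.lw s = ρ := by
  classical
  have e : M.R = (Subgroup.closure (FreeGroup.of '' M.rSet)).map MHNN.ofFree := by
    rw [MonoidHom.map_closure, R, Set.image_image]
    rfl
  rw [e, Subgroup.mem_map]
  constructor
  · rintro ⟨y, hy, rfl⟩
    exact ⟨y.toWord, freeGroup_mem_closure_iff.1 hy, by rw [lw, FreeGroup.mk_toWord]⟩
  · rintro ⟨s, hs, rfl⟩
    exact ⟨_, freeGroup_mem_closure_iff.2 fun p hp => by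
      rw [FreeGroup.toWord_mk] at hp
      exact hs p (FreeGroup.reduce.red.sublist.subset hp), rfl⟩

/-- One run in the reversed direction. -/
theorem edge_step' (r : M.Letter) (p : M.Par r) :
    ((M.tL r)⁻¹ * M.ofG (M.cod r p * M.tgt r))⁻¹ * M.ofG (M.dom r p * M.src r) =
      (M.edge r)⁻¹ := by
  rw [← M.edge_step r p]
  simp [mul_assoc]

theorem linked_final (f : F k) :
    ∃ ρ ∈ M.R, (ρ * M.ofG M.Pf)⁻¹ * M.ofG (tau M.final f) ∈ M.EE := by
  have step : ∀ (i : Fin k) (g : F k), M.cod (.e i) g * M.tgt (.e i) =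
      tau M.final (FreeGroup.of i * g) ∧ M.dom (.e i) g * M.src (.e i) = tau M.final g := by
    intro i g
    exact ⟨Prod.ext (by simp [cod, tgt, tau]) (by simp [cod, tgt, tau, mul_assoc]),
      Prod.ext (by simp [dom, src, tau]) (by simp [dom, src, tau])⟩
  rw [← FreeGroup.mk_toWord (x := f)]
  generalize f.toWord = w
  induction w with
  | nil => exact ⟨1, one_mem _, by simp [Pf, ← FreeGroup.one_eq_mk, one_mem]⟩
  | cons x w ih =>
    obtain ⟨i, b⟩ := x
    obtain ⟨ρ, hρ, he⟩ := ih
    have hr : M.tL (.e i) ∈ M.R := M.tL_mem_R trivial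
    have hedge : (M.edge (.e i))⁻¹ ∈ M.EE := inv_mem (Subgroup.subset_closure ⟨_, rfl⟩)
    cases b
    · have hmk : FreeGroup.mk ((i, false) :: w) = (FreeGroup.of i)⁻¹ * FreeGroup.mk w := rfl
      refine ⟨(M.tL (.e i))⁻¹ * ρ, mul_mem (inv_mem hr) hρ, ?_⟩
      have e := M.edge_step' (.e i) (FreeGroup.mk ((i, false) :: w))
      rw [(step i _).1, (step i _).2, hmk, mul_inv_cancel_left] at e
      rw [hmk]
      have := mul_mem he (e.symm ▸ hedge)
      simpa [mul_assoc] using this
    · refine ⟨M.tL (.e i) * ρ, mul_mem hr hρ, ?_⟩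
      have e := M.edge_step (.e i) (FreeGroup.mk w)
      rw [(step i _).1, (step i _).2] at e
      have hmk : FreeGroup.mk ((i, true) :: w) = FreeGroup.of i * FreeGroup.mk w := rfl
      rw [hmk]
      have := mul_mem he (inv_mem (e.symm ▸ hedge))
      simpa [mul_assoc] using this

/-- A live point is linked to the final point. -/
theorem linked_of_live {x : Pt} (hx : M.live x = true) (f : F k) :
    ∃ ρ ∈ M.R, (ρ * M.ofG M.Pf)⁻¹ * M.ofG (tau x f) ∈ M.EE := by
  rw [M.live_iff] at hx
  induction hx using Relation.ReflTransGen.head_induction_on with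
  | refl => exact M.linked_final f
  | @head x y h _ ih =>
    obtain ⟨r, hr, ⟨⟨a, ha⟩, ⟨b, hb⟩⟩, rfl⟩ := h
    obtain ⟨i, hi, rfl⟩ := List.getElem_of_mem hr
    obtain ⟨ρ, hρ, he⟩ := ih
    let ri : M.Letter := .rule ⟨i, hi⟩
    refine ⟨(M.tL ri)⁻¹ * ρ, mul_mem (inv_mem (M.tL_mem_R trivial)) hρ, ?_⟩
    have hx : x = ((M.rules[i].M + 1 : ℤ) * a + M.rules[i].a,
        (M.rules[i].N + 1 : ℤ) * b + M.rules[i].b) := Prod.ext (by linarith) (by linarith)
    have happ := (Move.mem_app_param (M.rules[i]) a b).2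
    rw [← hx] at happ
    have e := M.edge_step' ri (ofAdd (a, b), f)
    rw [show M.dom ri (ofAdd (a, b), f) * M.src ri = tau x f from
        Prod.ext (by simp [ri, dom, src, tau, scale, hx, ← ofAdd_add]) (by simp [ri, dom, src, tau]),
      show M.cod ri (ofAdd (a, b), f) * M.tgt ri = tau (M.rules[i].app x) f from
        Prod.ext (by simp [ri, cod, tgt, tau, scale, happ, ← ofAdd_add])
          (by simp [ri, cod, tgt, tau])] at e
    have hm : (M.edge ri)⁻¹ ∈ M.EE := inv_mem (Subgroup.subset_closure ⟨_, rfl⟩)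
    have := mul_mem he (e.symm ▸ hm)
    simpa [mul_assoc] using this

/-- `R Pf EE` is `Lin` for the letters of `R` and the live points. -/
theorem rPf_iff (z : M.W) :
    (∃ ρ ∈ M.R, (ρ * M.ofG M.Pf)⁻¹ * z ∈ M.EE) ↔ z ∈ M.Lin M.rSet M.liveSet := by
  constructor
  · rintro ⟨ρ, hρ, he⟩
    obtain ⟨s, hs, rfl⟩ := M.mem_R_iff_word.1 hρ
    exact ⟨s, hs, M.Pf, M.Pf_mem_liveSet, he⟩
  · rintro ⟨s, hs, ⟨x, f⟩, hP, he⟩
    obtain ⟨x, rfl⟩ := ofAdd.surjective x
    obtain ⟨ρ, hρ, he'⟩ := M.linked_of_live (x := x) (by simpa [liveSet] using hP) f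
    refine ⟨M.lw s * ρ, mul_mem (M.mem_R_iff_word.2 ⟨s, hs, rfl⟩) hρ, ?_⟩
    have := mul_mem he' he
    simpa [tau, mul_assoc] using this

/-- Membership in `R` is an equality: `R` meets no other letters. -/
theorem mem_R_iff (x : M.W) :
    x ∈ M.R ↔ (∀ p ∈ (MHNN.toFree x).toWord, p.1 ∈ M.rSet) ∧
      x = MHNN.ofFree (MHNN.toFree x) := by
  constructor
  · intro hx
    obtain ⟨s, hs, rfl⟩ := M.mem_R_iff_word.1 hx
    have e : MHNN.toFree (M.lw s) = FreeGroup.mk s :=
      DFunLike.congr_fun (f := (MHNN.toFree : M.W →* _).comp MHNN.ofFree) (g := MonoidHom.id _)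
        (FreeGroup.ext_hom _ _ fun r => by simp) (FreeGroup.mk s)
    rw [e]
    refine ⟨fun p hp => ?_, rfl⟩
    rw [FreeGroup.toWord_mk] at hp
    exact hs p (FreeGroup.reduce.red.sublist.subset hp)
  · rintro ⟨hs, he⟩
    rw [he, ← FreeGroup.mk_toWord (x := MHNN.toFree x)]
    exact M.mem_R_iff_word.2 ⟨_, hs, rfl⟩

/-- The edge word with the inverse letters of an element. -/
def edgeOf : M.W →* M.W :=
  (FreeGroup.lift fun r => (M.edge r)⁻¹).comp MHNN.toFree

/-- Membership in `EE` is an equality. -/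
theorem mem_EE_iff (x : M.W) : x ∈ M.EE ↔ M.edgeOf x = x := by
  constructor
  · intro hx
    induction hx using Subgroup.closure_induction with
    | mem x hx =>
      obtain ⟨r, rfl⟩ := hx
      simp [edgeOf, edge]
    | one => exact map_one _
    | mul a b _ _ ha hb => rw [map_mul, ha, hb]
    | inv a _ ha => rw [map_inv, ha]
  · intro h
    rw [← h]
    have : (FreeGroup.lift fun r => (M.edge r)⁻¹).range ≤ M.EE := by
      rw [FreeGroup.range_lift_eq_closure, Subgroup.closure_le]
      rintro _ ⟨r, rfl⟩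
      exact inv_mem (Subgroup.subset_closure ⟨r, rfl⟩)
    exact this ⟨_, rfl⟩

theorem lw_q (v : List (Fin k × Bool)) :
    M.lw (v.map fun p => (Letter.q p.1, p.2)) = M.q (FreeGroup.mk v) := by
  have e : M.q = (MHNN.ofFree : _ →* M.W).comp (FreeGroup.map Letter.q) :=
    FreeGroup.ext_hom _ _ fun i => by simp [q, tL]
  rw [e, MonoidHom.comp_apply, FreeGroup.map.mk, lw]

/-- Reading a string from the start of the empty one. -/
theorem start_linked (v : List (Fin k)) :
    (M.q (val v) * M.ofG M.P0)⁻¹ * M.ofG (M.start v) ∈ M.EE := by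
  induction v with
  | nil => simp [val, start, P0, one_mem]
  | cons i v ih =>
    have hcod : M.cod (.q i) (M.start v) * M.tgt (.q i) = M.start (i :: v) := by
      refine Prod.ext (toAdd.injective ?_) ?_
      · simp [cod, tgt, tau, scale, start, encode]
      · simp [cod, tgt, tau, start, val, mul_assoc]
    have e := M.edge_step (.q i) (M.start v)
    rw [hcod, show M.dom (.q i) (M.start v) * M.src (.q i) = M.start v by simp [dom, src]] at e
    have hm : (M.edge (.q i))⁻¹ ∈ M.EE := inv_mem (Subgroup.subset_closure ⟨_, rfl⟩)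
    have := mul_mem ih (inv_mem (e.symm ▸ hm))
    have hq : M.q (val (i :: v)) = M.tL (.q i) * M.q (val v) := by
      simp [val, q]
    simpa [hq, mul_assoc] using this

/-- The cosets `q u P0 EE` are `Lin` for the loading letters and the starts. -/
theorem qP0_iff (z : M.W) :
    (∃ u, (M.q u * M.ofG M.P0)⁻¹ * z ∈ M.EE) ↔ z ∈ M.Lin M.qSet M.startSet := by
  constructor
  · rintro ⟨u, he⟩
    refine ⟨u.toWord.map fun p => (Letter.q p.1, p.2), ?_, M.start [], ⟨[], rfl⟩, ?_⟩
    · intro x hx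
      obtain ⟨p, -, rfl⟩ := List.mem_map.1 hx
      exact ⟨p.1, rfl⟩
    · rw [M.lw_q, FreeGroup.mk_toWord]
      exact he
  · rintro ⟨s, hs, _, ⟨v, rfl⟩, he⟩
    obtain ⟨w, rfl⟩ : ∃ w : List (Fin k × Bool), w.map (fun p => (Letter.q p.1, p.2)) = s := by
      clear he
      induction s with
      | nil => exact ⟨[], rfl⟩
      | cons x s ih =>
        obtain ⟨w, rfl⟩ := ih fun y hy => hs y (List.mem_cons_of_mem _ hy)
        obtain ⟨i, hi⟩ := hs x List.mem_cons_self
        exact ⟨(i, x.2) :: w, by simp [hi]⟩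
    refine ⟨FreeGroup.mk w * val v, ?_⟩
    rw [M.lw_q] at he
    have := mul_mem (M.start_linked v) he
    simpa [map_mul, mul_assoc] using this

end Mach

end Vale.Agent.P193.C
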