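import Mathlib
import Vale.Agent.P193.C.Gamma
import Vale.Agent.P193.C.WPeel

/-!
P193, C4: the edge group and the orbit in `W₂`. As the new letter commutes with `R`, `W₂` is the
semidirect product of the free group on `W ⧸ R` with `W`. Membership in the edge group, in
`⟨q, w q w⁻¹⟩` and in the orbit of the start point become conditions on the letters of the reduced
free part and on the part in `W`.
-/

noncomputable section

namespace Vale.Agent.P193.C

open SemidirectProduct

open scoped Classical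

/-! ### Alternating words -/

section Free

variable {X : Type} [DecidableEq X]

theorem toWord_mul_letter (a : FreeGroup X) (p : X × Bool) :
    (a * FreeGroup.mk [p]).toWord =
      if a.toWord.getLast? = some (p.1, !p.2) then a.toWord.dropLast else a.toWord ++ [p] := by
  rw [FreeGroup.toWord_mul, FreeGroup.toWord_mk, FreeGroup.reduce_singleton]
  have hr := FreeGroup.isReduced_toWord (x := a)
  generalize a.toWord = w at hr
  obtain ⟨x, b⟩ := p
  rcases List.eq_nil_or_concat' w with rfl | ⟨w, q, rfl⟩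
  · simp
  · split_ifs with h
    · simp only [List.getLast?_concat, Option.some.injEq] at h
      subst h
      simp only [List.dropLast_concat, List.append_assoc, List.singleton_append]
      refine (FreeGroup.reduce.eq_of_red ?_).trans
        (FreeGroup.IsReduced.reduce_eq (List.IsChain.left_of_append hr))
      have := FreeGroup.Red.Step.not (L₁ := w) (L₂ := []) (x := x) (b := !b)
      simpa using FreeGroup.Red.Step.to_red (by simpa using this)
    · refine FreeGroup.IsReduced.reduce_eq ?_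
      refine List.isChain_append.2 ⟨hr, List.isChain_singleton _, ?_⟩
      intro y hy z hz hyz
      obtain ⟨y, c⟩ := y
      simp only [List.head?_cons, Option.mem_def, Option.some.injEq] at hz
      subst hz
      simp only at hyz ⊢
      subst hyz
      by_contra hc
      refine h (hy.trans (congrArg some (Prod.ext rfl ?_)))
      cases b <;> cases c <;> simp_all

/-- The signs of an alternating word that begins with a positive letter. -/
def altSigns (n : ℕ) : List Bool := (List.range n).map fun i => decide (i % 2 = 0)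

theorem altSigns_succ (n : ℕ) : altSigns (n + 1) = altSigns n ++ [decide (n % 2 = 0)] := by
  simp [altSigns, List.range_succ]

/-- Alternating words in the letters of `Q`. -/
def Alt (Q : Set X) (w : List (X × Bool)) : Prop :=
  w.map Prod.snd = altSigns w.length ∧ ∀ p ∈ w, p.1 ∈ Q

omit [DecidableEq X] in
theorem alt_nil (Q : Set X) : Alt Q [] := ⟨rfl, by simp⟩

omit [DecidableEq X] in
theorem alt_concat_iff {Q : Set X} {w : List (X × Bool)} {p : X × Bool} :
    Alt Q (w ++ [p]) ↔ Alt Q w ∧ p.1 ∈ Q ∧ p.2 = decide (w.length % 2 = 0) := by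
  simp only [Alt, List.map_append, List.map_cons, List.map_nil, List.length_append,
    List.length_cons, List.length_nil, zero_add, altSigns_succ, List.mem_append, List.mem_singleton]
  constructor
  · rintro ⟨h, hm⟩
    obtain ⟨h1, h2⟩ := List.append_inj h (by simp [altSigns])
    exact ⟨⟨h1, fun q hq => hm q (Or.inl hq)⟩, hm p (Or.inr rfl), by simpa using h2⟩
  · rintro ⟨⟨h1, h2⟩, h3, h4⟩
    exact ⟨by rw [h1, h4], fun q hq => hq.elim (h2 q) (fun e => e ▸ h3)⟩

theorem Alt.dropLast {Q : Set X} {w : List (X × Bool)} (h : Alt Q w) : Alt Q w.dropLast := by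
  rcases List.eq_nil_or_concat' w with rfl | ⟨w, p, rfl⟩
  · exact h
  · rw [List.dropLast_concat]
    exact (alt_concat_iff.1 h).1

/-- The group of the products `x y⁻¹`. -/
def altGroup (Q : Set X) : Subgroup (FreeGroup X) :=
  Subgroup.closure {z | ∃ x ∈ Q, ∃ y ∈ Q, z = FreeGroup.of x * (FreeGroup.of y)⁻¹}

theorem alt_step {Q : Set X} {a : FreeGroup X} {x : X} (hx : x ∈ Q) (h : Alt Q a.toWord) :
    Alt Q (a * FreeGroup.mk [(x, decide (a.toWord.length % 2 = 0))]).toWord ∧
      decide ((a * FreeGroup.mk [(x, decide (a.toWord.length % 2 = 0))]).toWord.length % 2 = 0) =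
        !decide (a.toWord.length % 2 = 0) := by
  rw [toWord_mul_letter]
  split_ifs with hl
  · refine ⟨h.dropLast, ?_⟩
    have hne : a.toWord ≠ [] := by intro e; simp [e] at hl
    have hpos := List.length_pos_iff.2 hne
    rw [List.length_dropLast, ← decide_not]
    exact decide_eq_decide.2 (by omega)
  · refine ⟨alt_concat_iff.2 ⟨h, hx, rfl⟩, ?_⟩
    rw [List.length_append, List.length_singleton, ← decide_not]
    exact decide_eq_decide.2 (by omega)

omit [DecidableEq X] in
theorem mk_false (x : X) : FreeGroup.mk [(x, false)] = (FreeGroup.of x)⁻¹ := rfl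

omit [DecidableEq X] in
theorem mk_true (x : X) : FreeGroup.mk [(x, true)] = FreeGroup.of x := rfl

theorem alt_of_mem_altGroup {Q : Set X} {a : FreeGroup X} (h : a ∈ altGroup Q) :
    Alt Q a.toWord ∧ a.toWord.length % 2 = 0 := by
  have step : ∀ (b : FreeGroup X), Alt Q b.toWord ∧ b.toWord.length % 2 = 0 →
      ∀ x ∈ Q, ∀ y ∈ Q, Alt Q (b * (FreeGroup.of x * (FreeGroup.of y)⁻¹)).toWord ∧
        (b * (FreeGroup.of x * (FreeGroup.of y)⁻¹)).toWord.length % 2 = 0 := by
    rintro b ⟨hb, he⟩ x hx y hy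
    obtain ⟨h1, e1⟩ := alt_step hx hb
    rw [decide_eq_true he, mk_true] at h1 e1
    rw [Bool.not_true] at e1
    obtain ⟨h2, e2⟩ := alt_step hy h1
    rw [e1, mk_false, mul_assoc] at h2 e2
    exact ⟨h2, of_decide_eq_true (by simpa using e2)⟩
  induction h using Subgroup.closure_induction_right with
  | one => exact ⟨by simpa using alt_nil Q, by simp⟩
  | mul_right b hb z hz ih =>
    obtain ⟨x, hx, y, hy, rfl⟩ := hz
    exact step b ih x hx y hy
  | mul_inv_cancel b hb z hz ih =>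
    obtain ⟨x, hx, y, hy, rfl⟩ := hz
    simpa using step b ih y hy x hx

theorem mk_mem_altGroup {Q : Set X} {w : List (X × Bool)} (h : Alt Q w) :
    (w.length % 2 = 0 → FreeGroup.mk w ∈ altGroup Q) ∧
      ∀ y ∈ Q, w.length % 2 = 1 → FreeGroup.mk w * (FreeGroup.of y)⁻¹ ∈ altGroup Q := by
  induction w using List.reverseRecOn with
  | nil => simp [← FreeGroup.one_eq_mk, one_mem]
  | append_singleton w p ih =>
    obtain ⟨hw, hp, hs⟩ := alt_concat_iff.1 h
    obtain ⟨x, b⟩ := p
    simp only at hp hs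
    subst hs
    rw [← FreeGroup.mul_mk, List.length_append, List.length_singleton]
    refine ⟨fun he => ?_, fun y hy he => ?_⟩
    · rw [decide_eq_false (by omega), mk_false]
      exact (ih hw).2 x hp (by omega)
    · rw [decide_eq_true (by omega), mk_true, mul_assoc]
      exact mul_mem ((ih hw).1 (by omega)) (Subgroup.subset_closure ⟨x, hp, y, hy, rfl⟩)

/-- An alternating word followed by letters of `S`. -/
def AltThen (Q S : Set X) (w : List (X × Bool)) : Prop :=
  ∃ u v, w = u ++ v ∧ Alt Q u ∧ ∀ p ∈ v, p.1 ∈ S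

theorem altThen_mul_letter {Q S : Set X} {a : FreeGroup X} (h : AltThen Q S a.toWord)
    {p : X × Bool} (hp : p.1 ∈ S) : AltThen Q S (a * FreeGroup.mk [p]).toWord := by
  obtain ⟨u, v, e, hu, hv⟩ := h
  rw [toWord_mul_letter]
  split_ifs
  · rcases List.eq_nil_or_concat' v with rfl | ⟨v, q, rfl⟩
    · exact ⟨u.dropLast, [], by simp [e], hu.dropLast, by simp⟩
    · exact ⟨u, v, by rw [e, ← List.append_assoc, List.dropLast_concat], hu,
        fun r hr => hv r (List.mem_append_left _ hr)⟩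
  · exact ⟨u, v ++ [p], by rw [e, List.append_assoc], hu,
      fun r hr => (List.mem_append.1 hr).elim (hv r) fun hr => List.mem_singleton.1 hr ▸ hp⟩

theorem altThen_of_mul {Q S : Set X} {a b : FreeGroup X} (ha : a ∈ altGroup Q)
    (hb : b ∈ Subgroup.closure (FreeGroup.of '' S)) : AltThen Q S (a * b).toWord := by
  induction hb using Subgroup.closure_induction_right with
  | one => exact ⟨_, [], by simp, (alt_of_mem_altGroup ha).1, by simp⟩
  | mul_right c hc z hz ih =>
    obtain ⟨x, hx, rfl⟩ := hz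
    rw [← mul_assoc]
    exact altThen_mul_letter (p := (x, true)) ih hx
  | mul_inv_cancel c hc z hz ih =>
    obtain ⟨x, hx, rfl⟩ := hz
    rw [← mul_assoc]
    exact altThen_mul_letter (p := (x, false)) ih hx

end Free

namespace Base

variable {ι κ W : Type} [Group W] (B : Base ι κ W)

/-- The cosets of `R`. -/
abbrev Cos := W ⧸ B.R

/-- `W` moves the cosets of `R`. -/
def lAct : W →* MulAut (FreeGroup B.Cos) := freeAut (MulAction.toPermHom W B.Cos)

/-- `W₂` as a semidirect product. -/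
abbrev SD := FreeGroup B.Cos ⋊[B.lAct] W

theorem lAct_of (g x : W) :
    B.lAct g (FreeGroup.of (x : B.Cos)) = FreeGroup.of ((g * x : W) : B.Cos) := by
  simp [lAct]

/-- The comparison map. -/
def toSD : B.W2 →* B.SD :=
  HNNExtension.lift inr (inl (FreeGroup.of ((1 : W) : B.Cos))) fun r => by
    rw [MulEquiv.refl_apply, ← mul_inv_eq_iff_eq_mul.1]
    rw [← map_inv, ← inl_aut, B.lAct_of]
    exact congrArg (fun c => inl (FreeGroup.of c)) (QuotientGroup.eq.2 (by simp))

@[simp] theorem toSD_of (g : W) : B.toSD (HNNExtension.of g) = inr g := by simp [toSD]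

@[simp] theorem toSD_t : B.toSD HNNExtension.t = inl (FreeGroup.of ((1 : W) : B.Cos)) := by
  simp [toSD]

/-- The new letter at a coset. -/
def cosT : B.Cos → B.W2 :=
  Quotient.lift (fun g => HNNExtension.of g * HNNExtension.t * (HNNExtension.of g)⁻¹) fun a b h => by
    replace h : a⁻¹ * b ∈ B.R := QuotientGroup.leftRel_apply.1 h
    have hc : Commute (HNNExtension.t : B.W2) (HNNExtension.of (a⁻¹ * b)) :=
      HNNExtension.t_mul_of (φ := MulEquiv.refl B.R) ⟨_, h⟩
    show (HNNExtension.of a : B.W2) * HNNExtension.t * (HNNExtension.of a)⁻¹ = _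
    calc (HNNExtension.of a : B.W2) * HNNExtension.t * (HNNExtension.of a)⁻¹
        = HNNExtension.of a * (HNNExtension.t * HNNExtension.of (a⁻¹ * b)) *
            (HNNExtension.of b)⁻¹ := by rw [map_mul, map_inv]; group
      _ = _ := by rw [hc.eq, map_mul, map_inv]; group

theorem cosT_mk (g : W) :
    B.cosT (g : B.Cos) = HNNExtension.of g * HNNExtension.t * (HNNExtension.of g)⁻¹ := rfl

/-- The inverse map. -/
def fromSD : B.SD →* B.W2 :=
  SemidirectProduct.lift (FreeGroup.lift B.cosT) HNNExtension.of fun g =>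
    FreeGroup.ext_hom _ _ fun c => by
      obtain ⟨x, rfl⟩ := QuotientGroup.mk_surjective c
      simp [B.lAct_of, B.cosT_mk, mul_assoc]

theorem fromSD_toSD (z : B.W2) : B.fromSD (B.toSD z) = z := by
  refine DFunLike.congr_fun (f := B.fromSD.comp B.toSD) (g := MonoidHom.id _)
    (HNNExtension.hom_ext (MonoidHom.ext fun g => ?_) ?_) z
  · simp [fromSD]
  · simp [fromSD, B.cosT_mk]

theorem toSD_injective : Function.Injective B.toSD :=
  Function.LeftInverse.injective B.fromSD_toSD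

/-- The free part. -/
def lpart (z : B.W2) : FreeGroup B.Cos := (B.toSD z).left

/-- The part in `W`. -/
def ret (z : B.W2) : W := (B.toSD z).right

theorem lpart_mul (a b : B.W2) : B.lpart (a * b) = B.lpart a * B.lAct (B.ret a) (B.lpart b) := by
  simp [lpart, ret]

theorem ret_mul (a b : B.W2) : B.ret (a * b) = B.ret a * B.ret b := by simp [ret]

theorem lpart_inv (a : B.W2) : B.lpart a⁻¹ = B.lAct (B.ret a)⁻¹ (B.lpart a)⁻¹ := by
  simp [lpart, ret]

theorem ret_inv (a : B.W2) : B.ret a⁻¹ = (B.ret a)⁻¹ := by simp [ret]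

theorem lAct_mem_closure {g : W} {S T : Set B.Cos} (h : ∀ c ∈ S, g • c ∈ T)
    {a : FreeGroup B.Cos} (ha : a ∈ Subgroup.closure (FreeGroup.of '' S)) :
    B.lAct g a ∈ Subgroup.closure (FreeGroup.of '' T) := by
  induction ha using Subgroup.closure_induction with
  | mem x hx =>
    obtain ⟨c, hc, rfl⟩ := hx
    exact Subgroup.subset_closure ⟨g • c, h c hc, by simp [lAct]⟩
  | one => rw [map_one]; exact one_mem _
  | mul x y _ _ hx hy => rw [map_mul]; exact mul_mem hx hy
  | inv x _ hx => rw [map_inv]; exact inv_mem hx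

/-! ### The edge group -/

/-- The cosets `g e pf⁻¹ R` for `e ∈ EE`. -/
def Xs (g : W) : Set B.Cos := {c | ∃ e ∈ B.EE, ((g * e * B.pf⁻¹ : W) : B.Cos) = c}

theorem mem_Xs_iff {g x : W} :
    (x : B.Cos) ∈ B.Xs g ↔ ∃ r ∈ B.R, (r * B.pf)⁻¹ * (x⁻¹ * g) ∈ B.EE := by
  constructor
  · rintro ⟨e, he, h⟩
    refine ⟨((g * e * B.pf⁻¹)⁻¹ * x)⁻¹, B.R.inv_mem (QuotientGroup.eq.1 h), ?_⟩
    have h1 : (((g * e * B.pf⁻¹)⁻¹ * x)⁻¹ * B.pf)⁻¹ * (x⁻¹ * g) = e⁻¹ := by group
    rw [h1]
    exact inv_mem he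
  · rintro ⟨r, hr, he⟩
    refine ⟨_, inv_mem he, QuotientGroup.eq.2 ?_⟩
    have h1 : (g * ((r * B.pf)⁻¹ * (x⁻¹ * g))⁻¹ * B.pf⁻¹)⁻¹ * x = r⁻¹ := by group
    rw [h1]
    exact inv_mem hr

theorem Xs_mul {g e : W} (he : e ∈ B.EE) : B.Xs (g * e) = B.Xs g := by
  ext c
  constructor
  · rintro ⟨e', he', rfl⟩
    exact ⟨e * e', mul_mem he he', by simp [mul_assoc]⟩
  · rintro ⟨e', he', rfl⟩
    exact ⟨e⁻¹ * e', mul_mem (inv_mem he) he', by simp [mul_assoc]⟩

theorem smul_mem_Xs {g h : W} {c : B.Cos} (hc : c ∈ B.Xs g) : h • c ∈ B.Xs (h * g) := by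
  obtain ⟨e, he, rfl⟩ := hc
  exact ⟨e, he, by rw [MulAction.Quotient.smul_coe, smul_eq_mul]; simp [mul_assoc]⟩

theorem mem_EE2_iff (z : B.W2) :
    z ∈ B.EE2 ↔ B.ret z ∈ B.EE ∧ B.lpart z ∈ Subgroup.closure (FreeGroup.of '' B.Xs 1) := by
  constructor
  · intro hz
    induction hz using Subgroup.closure_induction with
    | mem x hx =>
      rcases hx with ⟨g, hg, rfl⟩ | rfl
      · simp [ret, lpart, one_mem, SetLike.mem_coe.1 hg]
      · refine ⟨by simp [ret, ew, one_mem], ?_⟩
        have h : B.lpart B.ew = FreeGroup.of ((B.pf⁻¹ : W) : B.Cos) := by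
          rw [ew, B.lpart_mul, B.lpart_mul, B.ret_inv]; simp [lpart, ret, ← map_inv, B.lAct_of]
        rw [h]
        exact Subgroup.subset_closure ⟨_, ⟨1, one_mem _, by simp⟩, rfl⟩
    | one => simp [ret, lpart, one_mem]
    | mul x y _ _ hx hy =>
      refine ⟨by rw [B.ret_mul]; exact mul_mem hx.1 hy.1, ?_⟩
      rw [B.lpart_mul]
      refine mul_mem hx.2 (B.lAct_mem_closure (fun c hc => ?_) hy.2)
      have h := B.smul_mem_Xs (h := B.ret x) hc
      rwa [mul_one, ← one_mul (B.ret x), B.Xs_mul hx.1, one_mul] at h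
    | inv x _ hx =>
      refine ⟨by rw [B.ret_inv]; exact inv_mem hx.1, ?_⟩
      rw [B.lpart_inv]
      refine B.lAct_mem_closure (fun c hc => ?_) (inv_mem hx.2)
      have h := B.smul_mem_Xs (h := (B.ret x)⁻¹) hc
      rwa [mul_one, ← one_mul (B.ret x)⁻¹, B.Xs_mul (inv_mem hx.1), one_mul] at h
  · rintro ⟨hr, hl⟩
    rw [← B.fromSD_toSD z, ← inl_left_mul_inr_right (B.toSD z), map_mul]
    refine mul_mem ?_ ?_
    · change B.fromSD (inl (B.lpart z)) ∈ B.EE2
      generalize B.lpart z = a at hl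
      simp only [fromSD, lift_inl]
      induction hl using Subgroup.closure_induction with
      | mem x hx =>
        obtain ⟨_, ⟨e, he, rfl⟩, rfl⟩ := hx
        rw [FreeGroup.lift_apply_of, B.cosT_mk]
        have h : (HNNExtension.of (1 * e * B.pf⁻¹) : B.W2) * HNNExtension.t *
            (HNNExtension.of (1 * e * B.pf⁻¹))⁻¹ =
            HNNExtension.of e * B.ew * (HNNExtension.of e)⁻¹ := by
          simp [ew, mul_assoc]
        rw [h]
        exact mul_mem (mul_mem (B.of_mem_EE2 he) B.ew_mem_EE2) (inv_mem (B.of_mem_EE2 he))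
      | one => simp [one_mem]
      | mul x y _ _ hx hy => rw [map_mul]; exact mul_mem hx hy
      | inv x _ hx => rw [map_inv]; exact inv_mem hx
    · simp only [fromSD, lift_inr]
      exact B.of_mem_EE2 hr

/-! ### The subgroup `⟨q, w q w⁻¹⟩` and the orbit -/

/-- The cosets of the loading words. -/
def qCos : Set B.Cos := Set.range fun v => ((B.q v : W) : B.Cos)

theorem mem_qCos_iff (x : W) : (x : B.Cos) ∈ B.qCos ↔ (B.q (B.qproj x))⁻¹ * x ∈ B.R := by
  refine ⟨fun ⟨v, hv⟩ => ?_, fun h => ⟨_, QuotientGroup.eq.2 h⟩⟩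
  have hr := QuotientGroup.eq.1 hv
  have h := B.qproj_R _ hr
  rw [map_mul, map_inv, B.qproj_q, inv_mul_eq_one] at h
  rwa [← h]

theorem ret_om (ω : Om ι) : B.ret (B.om ω) = B.q (FreeGroup.lift (Sum.elim FreeGroup.of FreeGroup.of) ω) := by
  refine DFunLike.congr_fun (f := (rightHom.comp B.toSD).comp B.om)
    (g := B.q.comp (FreeGroup.lift (Sum.elim FreeGroup.of FreeGroup.of)))
    (FreeGroup.ext_hom _ _ fun x => ?_) ω
  rcases x with j | j <;> simp [om]

theorem lAct_altGroup (v : FreeGroup ι) {a : FreeGroup B.Cos} (ha : a ∈ altGroup B.qCos) :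
    B.lAct (B.q v) a ∈ altGroup B.qCos := by
  induction ha using Subgroup.closure_induction with
  | mem z hz =>
    obtain ⟨_, ⟨x, rfl⟩, _, ⟨y, rfl⟩, rfl⟩ := hz
    refine Subgroup.subset_closure ⟨_, ⟨v * x, rfl⟩, _, ⟨v * y, rfl⟩, ?_⟩
    simp [B.lAct_of]
  | one => rw [map_one]; exact one_mem _
  | mul x y _ _ hx hy => rw [map_mul]; exact mul_mem hx hy
  | inv x _ hx => rw [map_inv]; exact inv_mem hx

theorem lpart_om (ω : Om ι) : B.lpart (B.om ω) ∈ altGroup B.qCos := by
  induction ω using FreeGroup.induction_on with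
  | C1 => simp [lpart, one_mem]
  | of x =>
    rcases x with j | j
    · simp [lpart, om, one_mem]
    · have h : B.lpart (B.om (FreeGroup.of (Sum.inr j))) = FreeGroup.of ((B.q 1 : W) : B.Cos) *
          (FreeGroup.of ((B.q (FreeGroup.of j) : W) : B.Cos))⁻¹ := by
        simp [lpart, om, B.lAct_of]
      rw [h]
      exact Subgroup.subset_closure ⟨_, ⟨1, rfl⟩, _, ⟨_, rfl⟩, rfl⟩
  | inv_of x hx =>
    rw [map_inv, B.lpart_inv, B.ret_om, ← map_inv]
    exact B.lAct_altGroup _ (inv_mem hx)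
  | mul a b ha hb =>
    rw [map_mul, B.lpart_mul, B.ret_om]
    exact mul_mem ha (B.lAct_altGroup _ hb)

theorem inl_mem_range {a : FreeGroup B.Cos} (ha : a ∈ altGroup B.qCos) :
    (inl a : B.SD) ∈ (B.toSD.comp B.om).range := by
  induction ha using Subgroup.closure_induction with
  | mem z hz =>
    obtain ⟨_, ⟨x, rfl⟩, _, ⟨y, rfl⟩, rfl⟩ := hz
    refine ⟨FreeGroup.map Sum.inl x * FreeGroup.map Sum.inr (x⁻¹ * y) *
      FreeGroup.map Sum.inl y⁻¹, ?_⟩
    refine SemidirectProduct.ext ?_ ?_ <;>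
      simp [B.om_inl, B.om_inr, B.lAct_of, mul_assoc]
  | one => rw [map_one]; exact one_mem _
  | mul x y _ _ hx hy => rw [map_mul]; exact mul_mem hx hy
  | inv x _ hx => rw [map_inv]; exact inv_mem hx

theorem inr_q_mem_range (u : FreeGroup ι) :
    (inr (B.q u) : B.SD) ∈ (B.toSD.comp B.om).range :=
  ⟨FreeGroup.map Sum.inl u, by simp [B.om_inl]⟩

theorem mem_range_om_iff (z : B.W2) :
    z ∈ B.om.range ↔ B.q (B.qproj (B.ret z)) = B.ret z ∧
      Alt B.qCos (B.lpart z).toWord ∧ (B.lpart z).toWord.length % 2 = 0 := by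
  constructor
  · rintro ⟨ω, rfl⟩
    exact ⟨by rw [B.ret_om, B.qproj_q], alt_of_mem_altGroup (B.lpart_om ω)⟩
  · rintro ⟨hq, ha, he⟩
    have hl := (mk_mem_altGroup ha).1 he
    rw [FreeGroup.mk_toWord] at hl
    obtain ⟨ω, hω⟩ := mul_mem (B.inl_mem_range hl) (B.inr_q_mem_range (B.qproj (B.ret z)))
    exact ⟨ω, B.toSD_injective (by rw [hq] at hω; exact hω.trans (inl_left_mul_inr_right _))⟩

theorem q_mem_Xs {u : FreeGroup ι} {g : W} (h : (B.q u * B.p0)⁻¹ * g ∈ B.EE) :
    ((B.q u : W) : B.Cos) ∈ B.Xs g := by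
  obtain ⟨r, hr, he⟩ := B.acc 1 B.one_mem_Acc
  rw [B.mem_Xs_iff]
  refine ⟨r⁻¹, inv_mem hr, ?_⟩
  rw [map_one, mul_one] at he
  have h1 : (r⁻¹ * B.pf)⁻¹ * ((B.q u)⁻¹ * g) =
      (B.pf⁻¹ * r * B.p0) * ((B.q u * B.p0)⁻¹ * g) := by group
  rw [h1]
  exact mul_mem he h

theorem orbit_iff (z : B.W2) :
    (∃ ω, B.om ω • B.x0 = (z : B.Pts)) ↔ (∃ u, (B.q u * B.p0)⁻¹ * B.ret z ∈ B.EE) ∧
      AltThen B.qCos (B.Xs (B.ret z)) (B.lpart z).toWord := by
  constructor
  · rintro ⟨ω, hω⟩
    rw [x0, MulAction.Quotient.smul_coe, smul_eq_mul] at hω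
    obtain ⟨hr, hl⟩ := (B.mem_EE2_iff _).1 (QuotientGroup.eq.1 hω)
    obtain ⟨ε, rfl⟩ : ∃ ε, z = B.om ω * HNNExtension.of B.p0 * ε :=
      ⟨_, (mul_inv_cancel_left _ _).symm⟩
    rw [inv_mul_cancel_left] at hr hl
    have e : B.ret (B.om ω * HNNExtension.of B.p0) =
        B.q (FreeGroup.lift (Sum.elim FreeGroup.of FreeGroup.of) ω) * B.p0 := by
      rw [B.ret_mul, B.ret_om]; simp [ret]
    refine ⟨⟨FreeGroup.lift (Sum.elim FreeGroup.of FreeGroup.of) ω, ?_⟩, ?_⟩
    · rwa [B.ret_mul, e, inv_mul_cancel_left]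
    · rw [B.lpart_mul, B.ret_mul, B.Xs_mul hr]
      have e' : B.lpart (B.om ω * HNNExtension.of B.p0) = B.lpart (B.om ω) := by
        rw [B.lpart_mul]; simp [lpart]
      rw [e']
      refine altThen_of_mul (B.lpart_om ω) (B.lAct_mem_closure (fun c hc => ?_) hl)
      simpa using B.smul_mem_Xs (h := B.ret (B.om ω * HNNExtension.of B.p0)) hc
  · rintro ⟨⟨u, hu⟩, P, S, hw, hP, hS⟩
    obtain ⟨A, hA, S', hS', hA'⟩ : ∃ A ∈ altGroup B.qCos, ∃ S',
        S' ∈ Subgroup.closure (FreeGroup.of '' B.Xs (B.ret z)) ∧ A * S' = B.lpart z := by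
      have hS' : FreeGroup.mk S ∈ Subgroup.closure (FreeGroup.of '' B.Xs (B.ret z)) :=
        freeGroup_mem_closure_iff.2 fun p hp => by
          rw [FreeGroup.toWord_mk] at hp
          exact hS p (FreeGroup.reduce.red.sublist.subset hp)
      have hm : FreeGroup.mk P * FreeGroup.mk S = B.lpart z := by
        rw [FreeGroup.mul_mk, ← hw, FreeGroup.mk_toWord]
      rcases Nat.mod_two_eq_zero_or_one P.length with h | h
      · exact ⟨_, (mk_mem_altGroup hP).1 h, _, hS', hm⟩
      · exact ⟨_, (mk_mem_altGroup hP).2 _ ⟨u, rfl⟩ h, _,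
          mul_mem (Subgroup.subset_closure ⟨_, B.q_mem_Xs hu, rfl⟩) hS', by
            rw [← hm, ← mul_assoc, inv_mul_cancel_right]⟩
    obtain ⟨ω, hω⟩ := mul_mem (B.inl_mem_range hA) (B.inr_q_mem_range u)
    refine ⟨ω, ?_⟩
    rw [x0, MulAction.Quotient.smul_coe, smul_eq_mul]
    refine QuotientGroup.eq.2 ((B.mem_EE2_iff _).2 ?_)
    rw [MonoidHom.comp_apply] at hω
    have hl : B.lpart (B.om ω * HNNExtension.of B.p0) = A := by
      simp [lpart, hω]
    have hret : B.ret (B.om ω * HNNExtension.of B.p0) = B.q u * B.p0 := by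
      simp [ret, hω]
    refine ⟨by rwa [B.ret_mul, B.ret_inv, hret], ?_⟩
    rw [B.lpart_mul, B.ret_inv, B.lpart_inv, hl, hret, ← map_mul, ← hA', inv_mul_cancel_left]
    refine B.lAct_mem_closure (fun c hc => ?_) hS'
    have h := B.smul_mem_Xs (h := (B.q u * B.p0)⁻¹) hc
    rwa [← one_mul ((B.q u * B.p0)⁻¹ * B.ret z), B.Xs_mul hu] at h

end Base

end Vale.Agent.P193.C
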